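import Claimed.Agent.R252.S2b.CropSeq

/-!
# Row 252 (S0492), unit S2b-CROP, EXIT      (architect helper171, prefix `k2r_`)      PROVED (`k2r_crop_main`, CropSeq.lean).

02-framework.tex l.1394-1437 ("Partition the `y`-intercept and `V` coordinates into full-time boxes of side `a_{u₀}` …").   `E = Q.ex.sel S` a homogeneous selection of the initial exact problem, profile `f`.
The crop is a chart system `Y₀` of `E` at depth `0` with time cost `0` (`n = 0`, one chart for every box of side `kbDy a_{u₀}` in `(y₀, V)`, `D = w • 1`, native test `w`), light boxes discarded, `J_c / ν_c = N^{-e}` homogenised.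
**(2.39)**: the normalised problem is homogeneous with the profile `f'(s,u) = f(s, u₀ + u) + e`.
-/

set_option autoImplicit false

namespace Claimed.Agent.R252

open MeasureTheory Filter Topology
open Claimed.Agent.R255 (uf)
open scoped ENNReal BigOperators

noncomputable section

variable {σ C : ℝ} (Q : K2iSeq σ C)

/-- **EXIT of the unit S2b-CROP** -/
theorem k2r_crop (S : Q.ex.Sel) (hE : (Q.ex.sel S).Ok) (f : ℝ → ℝ → ℝ) (hf : (Q.ex.sel S).Hom f) (u0 : ℝ) (hu0 : 0 ≤ u0) :
    ∃ (Y₀ : (Q.ex.sel S).Sys) (e : ℝ), (Q.ex.sel S).IsSys Y₀ 0 0 ∧ (Q.ex.sel S).ChExp Y₀ ((Q.ex.sel S).k2nXJ Y₀) e ∧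
      ((Q.ex.sel S).norm Y₀ 0).Ok ∧ ((Q.ex.sel S).norm Y₀ 0).Hom fun s u => f s (u0 + u) + e :=
  k2r_crop_main Q S u0 hE f hf hu0

end

end Claimed.Agent.R252
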