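import Claimed.Agent.R252.S2b.Defs
import Claimed.Agent.R252.Plank.Exit

/-!
# Row 252, unit S2b, file 6 (CONTRACT): Lemma 2.15 in the form `K2bPlankFin`, from unit PLANK      (architect helper264)
-/

set_option autoImplicit false

namespace Claimed.Agent.R252

open Classical in
/-- **LEAF L-252-S2b-ADAPT.**   Given `R, ε`: `⟨η, hη, C, hC, H⟩ := pk4_plank_eta ε hε`, `K := max R 1`; answer `(η, C * K ^ 10)`.   For the data `D ι b u ω A J` copy the proof of `pk4_plank_mesh` (file `Plank/Exit.lean`) with bin STARTS: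
`Vis :=` the `biUnion` of the statement, `Jt := ↥Vis`, `tc j = j.1.1 / D`, `xc j = ((j.1.2 0 + 1/2) / D, (j.1.2 1 + 1/2) / D)`, `inc i = ((J i).image (k2bCell D (b i) (u i))).subtype (· ∈ Vis)`, `#(inc i) = #(J i)` (first component injective),
traces `A i = (b i 0, b i 1)`, `V i = (u i 0, u i 1)`;  `vis` by `pk4_mesh_centre`;  `mult`: two marks in a window `[s, s + 1/D)` have the same `k`;  `time`: `k < D`.
`pk4Cap D A ω V A`: for `(a, b', th, c, v)` use the cap hypothesis with `e = ![-sin th, cos th]` (`= nrm th`; `e^⊥ = -tang th`), `α = a`, `β = b'`, centre `![c.1, c.2]`, `![v.1, v.2]`: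
`pk4In (b'/D) (a/D) th c v (A i) (V i) ↔ K2bIn (b i) (u i) _ _ e (a/D) (b'/D)` (unfold `ip`, `tang`, `nrm`; `abs_neg`; `sin² + cos² = 1`). -/
theorem k2b_plank_fin : K2bPlankFin := by
  intro R ε hε
  obtain ⟨η, hη, C, hC, H⟩ := pk4_plank_eta ε hε
  obtain ⟨K, hKdef⟩ : ∃ K, K = max R 1 := ⟨_, rfl⟩
  have hK : 1 ≤ K := by
    rw [hKdef]
    exact le_max_right _ _
  have hRK : R ≤ K := by
    rw [hKdef]
    exact le_max_left _ _
  refine ⟨η, C * K ^ 10, hη, by positivity, ?_⟩
  intro D ι _ b u ω A J hD hbd hω hcap hJ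
  have hn0 : (0 : ℝ) < D := by exact_mod_cast hD
  obtain ⟨Vis, hVis⟩ : ∃ Vis : Finset (ℕ × (Fin 2 → ℤ)),
      Vis = Finset.univ.biUnion fun i => (J i).image (k2bCell D (b i) (u i)) := ⟨_, rfl⟩
  rw [← hVis]
  obtain ⟨inc, hinc⟩ : ∃ inc : ι → Finset ↥Vis,
      inc = fun i => ((J i).image (k2bCell D (b i) (u i))).subtype (· ∈ Vis) := ⟨_, rfl⟩
  have hmem : ∀ i (j : ↥Vis), j ∈ inc i ↔ ∃ k ∈ J i, k2bCell D (b i) (u i) k = j.1 := by
    intro i j
    rw [hinc, Finset.mem_subtype, Finset.mem_image]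
  have hcard : ∀ i, (inc i).card = (J i).card := by
    intro i
    rw [hinc, Finset.card_subtype, Finset.filter_true_of_mem, Finset.card_image_of_injective]
    · intro k k' h
      exact congrArg Prod.fst h
    · intro c hc
      rw [hVis, Finset.mem_biUnion]
      exact ⟨i, Finset.mem_univ _, hc⟩
  have hcap' : pk4Cap (D : ℝ) A ω (fun i => (u i 0, u i 1)) (fun i => (b i 0, b i 1)) := by
    intro a b' th c v ha hab hb
    refine le_trans ?_ (hcap ![c.1, c.2] ![v.1, v.2] ![-Real.sin th, Real.cos th] a b' ?_ ha hab hb)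
    · refine Finset.sum_le_sum_of_subset_of_nonneg (fun i hi => ?_) fun i _ _ => hω i
      rw [Finset.mem_filter] at hi ⊢
      refine ⟨hi.1, fun t ht => ?_⟩
      obtain ⟨h1, h2⟩ := hi.2 t ht.1 ht.2
      simp only [Claimed.Agent.R255.ip, Claimed.Agent.R255.tang, Claimed.Agent.R255.nrm, Prod.fst_sub, Prod.snd_sub,
        Prod.fst_add, Prod.snd_add, Prod.smul_fst, Prod.smul_snd, smul_eq_mul] at h1 h2
      simp only [Matrix.cons_val_zero, Matrix.cons_val_one]
      constructor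
      · refine le_of_eq_of_le (congrArg abs ?_) h2
        ring
      · rw [← abs_neg]
        refine le_of_eq_of_le (congrArg abs ?_) h1
        ring
    · simp only [Matrix.cons_val_zero, Matrix.cons_val_one]
      nlinarith [Real.sin_sq_add_cos_sq th]
  have key := H (D : ℝ) K (by exact_mod_cast hD) hK ι ↥Vis ω (fun i => (u i 0, u i 1)) (fun i => (b i 0, b i 1))
    (fun j => (j.1.1 : ℝ) / D) (fun j => (((j.1.2 0 : ℝ) + 1 / 2) / D, ((j.1.2 1 : ℝ) + 1 / 2) / D)) inc A hω hcap'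
    (fun i => ⟨(hbd i 0).2.trans hRK, (hbd i 1).2.trans hRK, (hbd i 0).1.trans hRK, (hbd i 1).1.trans hRK⟩)
    ?_ ?_ ?_ ?_
  · simp only [hcard, Fintype.card_coe] at key
    exact key
  · intro i j hj
    obtain ⟨k, hk, hkj⟩ := (hmem i j).1 hj
    have e1 : j.1.1 = k := by rw [← hkj]; rfl
    have h1 : (k : ℝ) + 1 ≤ D := by exact_mod_cast Finset.mem_range.1 ((hJ i).1 hk)
    simp only [e1]
    constructor
    · positivity
    · rw [div_le_one hn0]
      linarith
  · intro i j hj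
    obtain ⟨k, hk, hkj⟩ := (hmem i j).1 hj
    have e1 : j.1.1 = k := by rw [← hkj]; rfl
    have e2 : ∀ a, j.1.2 a = ⌊(b i a + (k : ℝ) / D * u i a) * D⌋ := by
      intro a
      rw [← hkj]
      rfl
    simp only [e1, e2, Prod.fst_sub, Prod.snd_sub, Prod.fst_add, Prod.snd_add, Prod.smul_fst, Prod.smul_snd, smul_eq_mul]
    exact ⟨pk4_mesh_centre D hD K hK _, pk4_mesh_centre D hD K hK _⟩
  · intro i s
    refine le_trans ?_ hK
    have : ((inc i).filter fun j : ↥Vis => s ≤ (j.1.1 : ℝ) / D ∧ (j.1.1 : ℝ) / D < s + 1 / D).card ≤ 1 := by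
      rw [Finset.card_le_one]
      intro j hj j' hj'
      rw [Finset.mem_filter] at hj hj'
      obtain ⟨k, hk, hkj⟩ := (hmem i j).1 hj.1
      obtain ⟨k', hk', hkj'⟩ := (hmem i j').1 hj'.1
      have e1 : j.1.1 = k := by rw [← hkj]; rfl
      have e1' : j'.1.1 = k' := by rw [← hkj']; rfl
      obtain ⟨a1, a2⟩ := hj.2
      obtain ⟨b1, b2⟩ := hj'.2
      rw [e1] at a1 a2
      rw [e1'] at b1 b2
      have c1 : (k : ℝ) / D - (k' : ℝ) / D < 1 / D := by linarith
      have c2 : (k' : ℝ) / D - (k : ℝ) / D < 1 / D := by linarith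
      rw [← sub_div, div_lt_div_iff_of_pos_right hn0] at c1 c2
      have d1 : (k : ℝ) < (k' : ℝ) + 1 := by linarith
      have d2 : (k' : ℝ) < (k : ℝ) + 1 := by linarith
      have d1' : k < k' + 1 := by exact_mod_cast d1
      have d2' : k' < k + 1 := by exact_mod_cast d2
      have hkk : k = k' := by omega
      apply Subtype.ext
      rw [← hkj, ← hkj', hkk]
    exact_mod_cast this
  · intro i
    rw [hcard]
    exact (hJ i).2

end Claimed.Agent.R252
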