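import Claimed.Agent.R252.S2b.P216Main
import Claimed.Agent.R252.S2b.PlankAdapt

/-!
# Row 252, unit S2b, file 11: EXIT of Proposition 2.16      (architect helper264)

`k2b_hub_horizon_le` = the hub `kb_horizon_le` of `Base/Hub2.lean`, verbatim.   This file does not import `Base/Hub2`: the hub file imports it and closes the hub by `exact`.
-/

set_option autoImplicit false

namespace Claimed.Agent.R252

variable {v : KbVer}

/-- **Proposition 2.16** (02-framework.tex l.968-1156): the minimum horizon is at most the length: a true terminal system of time cost `L` exists. -/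
theorem k2b_hub_horizon_le (E : KbEx v) (hE : E.Ok) (f : ℝ → ℝ → ℝ) (hf : E.Hom f) : ∃ Y : E.Sys, E.IsTrueSys f Y E.L E.L :=
  k2b_horizon_le k2b_plank_fin E hE f hf

end Claimed.Agent.R252
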