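import Claimed.Agent.R252.S2b.Assembly
import Claimed.Agent.R252.S2b.CropExit
import Claimed.Agent.R252.S2b.P216Exit

/-!
# Row 252, unit S2b, EXIT of the whole unit      (architect helper264)

The two hubs of Section 2b of `Base/Hub2.lean`, verbatim, with no hypothesis:
* `k2b_hub_horizon_le` (Proposition 2.16, `S2b/P216Exit.lean`);
* `k2b_hub_reduction`  (Theorem 2.17) = `k2z_reduction` (helper123) applied to `k2b_plank_fin` (L2.15: helper69, helper100), `k2r_crop` (helper171), `k2b_hub_horizon_le`.
This file does not import `Base/Hub2`: the hub file imports it and closes the two hubs by `exact`.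
-/

set_option autoImplicit false

namespace Claimed.Agent.R252

/-- **Theorem 2.17** (02-framework.tex l.1284-1652): reduction to a bad weighted problem -/
theorem k2b_hub_reduction (σ C : ℝ) (hσ : 0 < σ) (h : ∀ k0 : ℕ, ∃ k, k0 ≤ k ∧ GluBad σ C k) :
    ∃ d S η : ℝ, 0 < S ∧ 0 < η ∧ KbBad KbVer.two S η d :=
  k2z_reduction k2b_plank_fin (fun _ _ Q S _ hE f hf u0 hu0 _ => k2r_crop Q S hE f hf u0 hu0)
    (fun E hE f hf => k2b_hub_horizon_le E hE f hf) σ C hσ h

end Claimed.Agent.R252
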