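import Mathlib

/-!
# Row 252 (S0492, Kakeya sets in `ℝ⁴`), unit S2b, file 1: definitions      (architect helper264)

Unit S2b = 02-framework.tex l.860-1652 (Proposition 2.16 `H(E) ≤ L`, Theorem 2.17 reduction to a bad weighted problem) WITHOUT box 1 (Lemma 2.15, unit PLANK), box 7 (slope volume, unit T2-SLOPE) and the selection from `K` (unit GLUE).
Everything here lives at ONE scale and is independent of the base language (unit Base).

Coordinates.  A line of `ℝ × ℝ³` is `p = (b, s)`, `x(t) = b + t s`;  `x = (y, w)`, `y = (x 0, x 1)`, `w = x 2`;  `V = (s 0, s 1)`, `W = s 2`.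
* `k2bPos p t`, `k2bY x`: position, base projection.
* `k2bPrior b s ϱ`: the uniform mixture of the boxes of radius `ϱ` (sup norm in `ℝ⁶`) about the lines `(b i, s i)`  (l.1252-1262; we use `ϱ = δ / 4`).
* `k2bEv k Vis`: the incidence event: `(t, x(t))` lies in the `2`-enlargement of a cell of `Vis` (l.1258).
* `K2bIn`: a planar trace stays in a full-time plank;  `k2bCell`: the base cell visited at the beginning of a time bin.
* `K2bPlankFin`: Lemma 2.15 (weighted full-time plank estimate) AS A PROPOSITION; it is a hypothesis `H` of the cores that use it (unit PLANK proves it).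
-/

set_option autoImplicit false

namespace Claimed.Agent.R252

open MeasureTheory
open scoped ENNReal

/-- position of the line `p = (b, s)` at the time `t` -/
def k2bPos (p : (Fin 3 → ℝ) × (Fin 3 → ℝ)) (t : ℝ) : Fin 3 → ℝ := fun a => p.1 a + t * p.2 a

/-- the base projection `x = (y, w) ↦ y` -/
def k2bY (x : Fin 3 → ℝ) : Fin 2 → ℝ := fun a => x (Fin.castSucc a)

/-- strictly `δ`-separated in the sup norm -/
def K2bSep {ι : Type} (δ : ℝ) (s : ι → Fin 3 → ℝ) : Prop :=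
  ∀ i i', i ≠ i' → ∃ a, δ < |s i a - s i' a|

/-- the smoothed uniform mixture of the lines `(b i, s i)`: all six coordinates are perturbed by independent uniform variables in `[-ϱ, ϱ]` -/
noncomputable def k2bPrior {ι : Type} [Fintype ι] (b s : ι → Fin 3 → ℝ) (ϱ : ℝ) :
    Measure ((Fin 3 → ℝ) × (Fin 3 → ℝ)) :=
  ∑ i, ENNReal.ofReal (1 / ((Fintype.card ι : ℝ) * (2 * ϱ) ^ 6)) •
    (volume.restrict (Metric.closedBall (b i, s i) ϱ))

/-- the incidence event: the time lies in the bin `c.1`, the position in the `2`-enlargement of the spatial cell `c.2`, for a cell `c ∈ Vis` of the `2^{-k}`-grid -/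
def k2bEv (k : ℕ) (Vis : Finset (ℕ × (Fin 3 → ℤ))) : Set (((Fin 3 → ℝ) × (Fin 3 → ℝ)) × ℝ) :=
  {x | ∃ c ∈ Vis, (c.1 : ℝ) / 2 ^ k ≤ x.2 ∧ x.2 < ((c.1 : ℝ) + 1) / 2 ^ k ∧
    ∀ a, ((c.2 a : ℝ) - 2) / 2 ^ k ≤ k2bPos x.1 x.2 a ∧ k2bPos x.1 x.2 a < ((c.2 a : ℝ) + 3) / 2 ^ k}

/-- the observation `(t, y(t), [w(t)])` with hidden bins of width `1 / n` -/
noncomputable def k2bObs (n : ℝ) (x : ((Fin 3 → ℝ) × (Fin 3 → ℝ)) × ℝ) : ℝ × (Fin 2 → ℝ) × ℤ :=
  (x.2, k2bY (k2bPos x.1 x.2), ⌊k2bPos x.1 x.2 2 * n⌋)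

/-- the planar trace `t ↦ b + t u` stays for `t ∈ [0,1]` in the plank with centre line `c + t v`, orthonormal frame `(e, e^⊥)`, `e^⊥ = (-e 1, e 0)`, and half widths `α` (along `e`), `β` (along `e^⊥`) -/
def K2bIn (b u c v e : Fin 2 → ℝ) (α β : ℝ) : Prop :=
  ∀ t ∈ Set.Icc (0 : ℝ) 1,
    |(b 0 + t * u 0 - c 0 - t * v 0) * e 0 + (b 1 + t * u 1 - c 1 - t * v 1) * e 1| ≤ α ∧
    |-(b 0 + t * u 0 - c 0 - t * v 0) * e 1 + (b 1 + t * u 1 - c 1 - t * v 1) * e 0| ≤ β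

/-- the scalar trace `t ↦ b + t u` stays for `t ∈ [0,1]` within `α` of the line `c + t v` -/
def K2bIn1 (b u c v α : ℝ) : Prop := ∀ t ∈ Set.Icc (0 : ℝ) 1, |b + t * u - c - t * v| ≤ α

/-- the cell of the `1/D`-grid of `ℝ × ℝ²` visited by the trace `(b, u)` at the time `j / D` -/
noncomputable def k2bCell (D : ℕ) (b u : Fin 2 → ℝ) (j : ℕ) : ℕ × (Fin 2 → ℤ) :=
  (j, fun a => ⌊(b a + (j : ℝ) / D * u a) * D⌋)

/-- the cell of the `1/D`-grid of `ℝ × ℝ²` containing `(t, y)` (`t ≥ 0`) -/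
noncomputable def k2bCellAt (D : ℕ) (t : ℝ) (y : Fin 2 → ℝ) : ℕ × (Fin 2 → ℤ) :=
  (⌊t * D⌋₊, fun a => ⌊y a * D⌋)

open Classical in
/-- **Lemma 2.15** (weighted full-time plank estimate, 02 l.885-927), as a proposition.   `R` = bound of the chart, mesh `1 / D`, weights `ω ≥ 0`, repeated traces allowed, cap `A α β` for ALL frames and all `1 ≤ α ≤ β ≤ D`
(half widths `α / D`, `β / D`; containment of the whole trace), marks `#J i ≥ D^{1-η}`, cells visited at the beginning of the marked bins. -/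
def K2bPlankFin : Prop :=
  ∀ R ε : ℝ, 0 < ε → ∃ η C : ℝ, 0 < η ∧ 0 < C ∧
    ∀ (D : ℕ) (ι : Type) [Fintype ι] (b u : ι → Fin 2 → ℝ) (ω : ι → ℝ) (A : ℝ) (J : ι → Finset ℕ),
      1 ≤ D → (∀ i a, |b i a| ≤ R ∧ |u i a| ≤ R) → (∀ i, 0 ≤ ω i) →
      (∀ (c v e : Fin 2 → ℝ) (α β : ℝ), e 0 ^ 2 + e 1 ^ 2 = 1 → 1 ≤ α → α ≤ β → β ≤ D →
        ∑ i with K2bIn (b i) (u i) c v e (α / D) (β / D), ω i ≤ A * α * β) →
      (∀ i, J i ⊆ Finset.range D ∧ (D : ℝ) ^ (1 - η) ≤ (J i).card) →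
      ∑ i, ω i * (J i).card
        ≤ C * A * (D : ℝ) ^ ε * ((Finset.univ.biUnion fun i => (J i).image (k2bCell D (b i) (u i))).card : ℝ)

theorem k2b_eqns_cite : True := by
  have := @k2bPos.eq_1
  have := @k2bY.eq_1
  have := @K2bSep.eq_1
  have := @k2bPrior.eq_1
  have := @k2bEv.eq_1
  have := @k2bObs.eq_1
  have := @K2bIn.eq_1
  have := @K2bIn1.eq_1
  have := @k2bCell.eq_1
  have := @k2bCellAt.eq_1
  have := @K2bPlankFin.eq_1
  trivial

end Claimed.Agent.R252
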