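import Claimed.Agent.R252.S2b.Defs

/-!
# Row 252, unit S2b: the coordinates `((y(t), V), (w₀, W))` preserve Lebesgue measure      (LEAF L-252-S2b-MIX4, helper25)

`k2b_mp_psi`: `p ↦ ((k2bY (k2bPos p t), k2bY p.2), (p.1 2, p.2 2))` is measure preserving `ℝ³ × ℝ³ → (ℝ² × ℝ²) × (ℝ × ℝ)`.   Consequences: `k2b_shear_joint` (= `k2b_comp_joint`), `k2b_shear_tube` (= `k2b_comp_tube`).
-/

set_option autoImplicit false

namespace Claimed.Agent.R252

open MeasureTheory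
open scoped ENNReal

/-- exchange of the two middle factors of a fourfold product -/
theorem k2b_mp_comm4 {α β γ δ : Type} [MeasurableSpace α] [MeasurableSpace β] [MeasurableSpace γ] [MeasurableSpace δ]
    (μa : Measure α) (μb : Measure β) (μc : Measure γ) (μd : Measure δ) [SFinite μa] [SFinite μb] [SFinite μc] [SFinite μd] :
    MeasurePreserving (fun p : (α × β) × (γ × δ) => ((p.1.1, p.2.1), (p.1.2, p.2.2)))
      ((μa.prod μb).prod (μc.prod μd)) ((μa.prod μc).prod (μb.prod μd)) := by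
  have h1 := measurePreserving_prodAssoc μa μb (μc.prod μd)
  have h2 : MeasurePreserving (Prod.map id (MeasurableEquiv.prodAssoc : (β × γ) × δ ≃ᵐ β × γ × δ).symm)
      (μa.prod (μb.prod (μc.prod μd))) (μa.prod ((μb.prod μc).prod μd)) :=
    (MeasurePreserving.id μa).prod (measurePreserving_prodAssoc μb μc μd).symm
  have h3 : MeasurePreserving (Prod.map id (Prod.map Prod.swap id))
      (μa.prod ((μb.prod μc).prod μd)) (μa.prod ((μc.prod μb).prod μd)) :=
    (MeasurePreserving.id μa).prod ((Measure.measurePreserving_swap (μ := μb) (ν := μc)).prod (MeasurePreserving.id μd))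
  have h4 : MeasurePreserving (Prod.map id (MeasurableEquiv.prodAssoc : (γ × β) × δ ≃ᵐ γ × β × δ))
      (μa.prod ((μc.prod μb).prod μd)) (μa.prod (μc.prod (μb.prod μd))) :=
    (MeasurePreserving.id μa).prod (measurePreserving_prodAssoc μc μb μd)
  have h5 := (measurePreserving_prodAssoc μa μc (μb.prod μd)).symm
  exact h5.comp (h4.comp (h3.comp (h2.comp h1)))

/-- the shear `(y, V) ↦ (y + t V, V)` -/
theorem k2b_mp_shear (t : ℝ) :
    MeasurePreserving (fun z : (Fin 2 → ℝ) × (Fin 2 → ℝ) => ((fun a => z.1 a + t * z.2 a : Fin 2 → ℝ), z.2)) volume volume := by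
  have h1 : MeasurePreserving (fun p : (Fin 2 → ℝ) × (Fin 2 → ℝ) => (id p.1, (fun V y => y + t • V) p.1 p.2))
      ((volume : Measure (Fin 2 → ℝ)).prod (volume : Measure (Fin 2 → ℝ))) ((volume : Measure (Fin 2 → ℝ)).prod (volume : Measure (Fin 2 → ℝ))) := by
    exact MeasurePreserving.skew_product (μa := (volume : Measure (Fin 2 → ℝ))) (μb := (volume : Measure (Fin 2 → ℝ)))
      (μc := (volume : Measure (Fin 2 → ℝ))) (μd := (volume : Measure (Fin 2 → ℝ))) (f := id) (g := fun V y => y + t • V)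
      (MeasurePreserving.id _) (measurable_snd.add (measurable_fst.const_smul t))
      (Filter.Eventually.of_forall fun V => (measurePreserving_add_right volume (t • V)).map_eq)
  have h2 := (Measure.measurePreserving_swap (μ := (volume : Measure (Fin 2 → ℝ))) (ν := (volume : Measure (Fin 2 → ℝ))))
  exact h2.comp (h1.comp h2)

/-- the coordinates `((y(t), V), (w₀, W))` of a line -/
def k2bPsi (t : ℝ) (p : (Fin 3 → ℝ) × (Fin 3 → ℝ)) : ((Fin 2 → ℝ) × (Fin 2 → ℝ)) × (ℝ × ℝ) :=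
  ((k2bY (k2bPos p t), k2bY p.2), (p.1 2, p.2 2))

theorem k2b_eqns_cite_psi : True := by
  have := @k2bPsi.eq_1
  trivial

theorem k2b_mp_psi (t : ℝ) : MeasurePreserving (k2bPsi t) volume volume := by
  have hE : MeasurePreserving (MeasurableEquiv.piFinSuccAbove (fun _ : Fin 3 => ℝ) (Fin.last 2))
      (volume : Measure (Fin 3 → ℝ)) ((volume : Measure ℝ).prod (volume : Measure (Fin 2 → ℝ))) :=
    volume_preserving_piFinSuccAbove (fun _ : Fin 3 => ℝ) (Fin.last 2)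
  have g1 := hE.prod hE
  have g2 := k2b_mp_comm4 (volume : Measure ℝ) (volume : Measure (Fin 2 → ℝ)) (volume : Measure ℝ) (volume : Measure (Fin 2 → ℝ))
  have g3 := Measure.measurePreserving_swap (μ := (volume : Measure ℝ).prod (volume : Measure ℝ))
    (ν := (volume : Measure (Fin 2 → ℝ)).prod (volume : Measure (Fin 2 → ℝ)))
  have g4 := (k2b_mp_shear t).prod (MeasurePreserving.id ((volume : Measure ℝ).prod (volume : Measure ℝ)))
  have g := g4.comp (g3.comp (g2.comp g1))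
  have e : k2bPsi t = (Prod.map (fun z : (Fin 2 → ℝ) × (Fin 2 → ℝ) => ((fun a => z.1 a + t * z.2 a : Fin 2 → ℝ), z.2)) id) ∘
      (Prod.swap ∘ ((fun p : (ℝ × (Fin 2 → ℝ)) × (ℝ × (Fin 2 → ℝ)) => ((p.1.1, p.2.1), (p.1.2, p.2.2))) ∘
        Prod.map (MeasurableEquiv.piFinSuccAbove (fun _ : Fin 3 => ℝ) (Fin.last 2)) (MeasurableEquiv.piFinSuccAbove (fun _ : Fin 3 => ℝ) (Fin.last 2)))) := by
    have hs : ∀ a : Fin 2, Fin.succAbove (2 : Fin 3) a = a.castSucc := fun a => Fin.succAbove_last_apply a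
    funext p
    refine Prod.ext (Prod.ext ?_ ?_) rfl
    · funext a
      show k2bY (k2bPos p t) a = p.1 (Fin.succAbove (Fin.last 2) a) + t * p.2 (Fin.succAbove (Fin.last 2) a)
      rw [Fin.succAbove_last_apply]
      rfl
    · funext a
      show k2bY p.2 a = p.2 (Fin.succAbove (Fin.last 2) a)
      rw [Fin.succAbove_last_apply]
      rfl
  rw [e]
  exact g

theorem k2b_mem_box (b s : Fin 3 → ℝ) (ϱ : ℝ) (hϱ : 0 ≤ ϱ) (p : (Fin 3 → ℝ) × (Fin 3 → ℝ)) :
    p ∈ Metric.closedBall (b, s) ϱ ↔ (∀ a, |p.1 a - b a| ≤ ϱ) ∧ ∀ a, |p.2 a - s a| ≤ ϱ := by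
  rw [Metric.mem_closedBall, Prod.dist_eq, max_le_iff, dist_pi_le_iff hϱ, dist_pi_le_iff hϱ]
  simp only [Real.dist_eq]

theorem k2b_vol_Icc (x ϱ : ℝ) : volume (Set.Icc (x - ϱ) (x + ϱ)) = ENNReal.ofReal (2 * ϱ) := by
  rw [Real.volume_Icc]
  congr 1
  ring

/-- `k2b_comp_joint` (file MixContract) -/
theorem k2b_shear_joint (b s : Fin 3 → ℝ) (ϱ t : ℝ) (hϱ : 0 < ϱ) (A : Set ((Fin 2 → ℝ) × (Fin 2 → ℝ))) (hA : MeasurableSet A) :
    volume (Metric.closedBall (b, s) ϱ ∩ {p | (k2bY (k2bPos p t), k2bY p.2) ∈ A})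
      ≤ ENNReal.ofReal ((2 * ϱ) ^ 2) * volume (A ∩ {z | ∀ a : Fin 2, |z.2 a - s (Fin.castSucc a)| ≤ ϱ}) := by
  have hcol : MeasurableSet {z : (Fin 2 → ℝ) × (Fin 2 → ℝ) | ∀ a : Fin 2, |z.2 a - s (Fin.castSucc a)| ≤ ϱ} := by
    rw [Set.ofPred_forall]
    refine MeasurableSet.iInter fun a => ?_
    exact measurableSet_le ((((measurable_pi_apply a).comp measurable_snd).sub_const _).abs) measurable_const
  have hT := hA.inter hcol
  have hsub : Metric.closedBall (b, s) ϱ ∩ {p | (k2bY (k2bPos p t), k2bY p.2) ∈ A}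
      ⊆ k2bPsi t ⁻¹' ((A ∩ {z | ∀ a : Fin 2, |z.2 a - s (Fin.castSucc a)| ≤ ϱ}) ×ˢ
        (Set.Icc (b 2 - ϱ) (b 2 + ϱ) ×ˢ Set.Icc (s 2 - ϱ) (s 2 + ϱ))) := by
    rintro p ⟨hp, hpA⟩
    rw [k2b_mem_box b s ϱ hϱ.le] at hp
    have h1 := abs_le.1 (hp.1 2)
    have h2 := abs_le.1 (hp.2 2)
    refine ⟨⟨hpA, fun a => hp.2 _⟩, ⟨?_, ?_⟩, ⟨?_, ?_⟩⟩
    · show b 2 - ϱ ≤ p.1 2
      linarith [h1.1]
    · show p.1 2 ≤ b 2 + ϱ
      linarith [h1.2]
    · show s 2 - ϱ ≤ p.2 2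
      linarith [h2.1]
    · show p.2 2 ≤ s 2 + ϱ
      linarith [h2.2]
  refine (measure_mono hsub).trans (le_of_eq ?_)
  rw [(k2b_mp_psi t).measure_preimage (hT.prod (measurableSet_Icc.prod measurableSet_Icc)).nullMeasurableSet,
    Measure.volume_eq_prod, Measure.prod_prod, Measure.volume_eq_prod ℝ ℝ, Measure.prod_prod, k2b_vol_Icc, k2b_vol_Icc,
    ← ENNReal.ofReal_mul (by positivity), mul_comm, sq]

/-- `k2b_comp_tube` (file G00Contract) -/
theorem k2b_shear_tube (b s : Fin 3 → ℝ) (ϱ t : ℝ) (hϱ : 0 < ϱ) (ht : t ∈ Set.Icc (0 : ℝ) 1) (A : Set (Fin 2 → ℝ)) (hA : MeasurableSet A) :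
    volume (Metric.closedBall (b, s) ϱ ∩ {p | k2bY (k2bPos p t) ∈ A})
      ≤ ENNReal.ofReal ((2 * ϱ) ^ 4) * volume (A ∩ Metric.closedBall (k2bY (k2bPos (b, s) t)) (2 * ϱ)) := by
  have hT := hA.inter (Metric.isClosed_closedBall (x := k2bY (k2bPos (b, s) t)) (ε := 2 * ϱ)).measurableSet
  have hB := (Metric.isClosed_closedBall (x := k2bY s) (ε := ϱ)).measurableSet
  have hsub : Metric.closedBall (b, s) ϱ ∩ {p | k2bY (k2bPos p t) ∈ A}
      ⊆ k2bPsi t ⁻¹' (((A ∩ Metric.closedBall (k2bY (k2bPos (b, s) t)) (2 * ϱ)) ×ˢ Metric.closedBall (k2bY s) ϱ) ×ˢ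
        (Set.Icc (b 2 - ϱ) (b 2 + ϱ) ×ˢ Set.Icc (s 2 - ϱ) (s 2 + ϱ))) := by
    rintro p ⟨hp, hpA⟩
    rw [k2b_mem_box b s ϱ hϱ.le] at hp
    have h1 := abs_le.1 (hp.1 2)
    have h2 := abs_le.1 (hp.2 2)
    refine ⟨⟨⟨hpA, ?_⟩, ?_⟩, ⟨?_, ?_⟩, ⟨?_, ?_⟩⟩
    · show k2bY (k2bPos p t) ∈ Metric.closedBall (k2bY (k2bPos (b, s) t)) (2 * ϱ)
      rw [Metric.mem_closedBall, dist_pi_le_iff (by positivity)]
      intro a
      rw [Real.dist_eq]
      show |p.1 a.castSucc + t * p.2 a.castSucc - (b a.castSucc + t * s a.castSucc)| ≤ 2 * ϱ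
      have e : p.1 a.castSucc + t * p.2 a.castSucc - (b a.castSucc + t * s a.castSucc)
          = (p.1 a.castSucc - b a.castSucc) + t * (p.2 a.castSucc - s a.castSucc) := by ring
      rw [e]
      refine (abs_add_le _ _).trans ?_
      rw [abs_mul, abs_of_nonneg ht.1]
      have a1 := hp.1 a.castSucc
      have a2 := hp.2 a.castSucc
      have a3 : t * |p.2 a.castSucc - s a.castSucc| ≤ 1 * ϱ := mul_le_mul ht.2 a2 (abs_nonneg _) zero_le_one
      linarith
    · show k2bY p.2 ∈ Metric.closedBall (k2bY s) ϱ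
      rw [Metric.mem_closedBall, dist_pi_le_iff hϱ.le]
      intro a
      rw [Real.dist_eq]
      exact hp.2 _
    · show b 2 - ϱ ≤ p.1 2
      linarith [h1.1]
    · show p.1 2 ≤ b 2 + ϱ
      linarith [h1.2]
    · show s 2 - ϱ ≤ p.2 2
      linarith [h2.1]
    · show p.2 2 ≤ s 2 + ϱ
      linarith [h2.2]
  refine (measure_mono hsub).trans (le_of_eq ?_)
  rw [(k2b_mp_psi t).measure_preimage ((hT.prod hB).prod (measurableSet_Icc.prod measurableSet_Icc)).nullMeasurableSet,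
    Measure.volume_eq_prod, Measure.prod_prod, Measure.volume_eq_prod ℝ ℝ, Measure.prod_prod, k2b_vol_Icc, k2b_vol_Icc,
    Measure.volume_eq_prod, Measure.prod_prod, Real.volume_pi_closedBall _ hϱ.le, Fintype.card_fin,
    ← ENNReal.ofReal_mul (by positivity), mul_assoc, ← ENNReal.ofReal_mul (by positivity), mul_comm]
  congr 2
  ring

end Claimed.Agent.R252
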