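import Claimed.Agent.R252.S2b.Defs
import Claimed.Agent.R252.S2b.Shear

/-!
# Row 252, unit S2b, file 2 (CONTRACT): the smoothed mixture      (architect helper264)

02-framework.tex l.1252-1318 ("Smoothing and three density bounds") and l.1626-1640 ("Comparison with the mass floor") at ONE scale `δ = 2^{-k}`, `ϱ = δ / 4`.
All statements are about the measure `k2bPrior b s ϱ` on `ℝ³ × ℝ³`; they hold for EVERY sub-selection because they bound the prior itself.   Paper-free, Mathlib only.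
-/

set_option autoImplicit false

namespace Claimed.Agent.R252

open MeasureTheory
open scoped ENNReal

theorem k2b_vol_ball3 (x : Fin 3 → ℝ) (ϱ : ℝ) (hϱ : 0 ≤ ϱ) : volume (Metric.closedBall x ϱ) = ENNReal.ofReal ((2 * ϱ) ^ 3) := by
  rw [Real.volume_pi_closedBall x hϱ, Fintype.card_fin]

theorem k2b_vol_ball6 (x y : Fin 3 → ℝ) (ϱ : ℝ) (hϱ : 0 ≤ ϱ) : volume (Metric.closedBall (x, y) ϱ) = ENNReal.ofReal ((2 * ϱ) ^ 6) := by
  rw [← closedBall_prod_same, Measure.volume_eq_prod, Measure.prod_prod, k2b_vol_ball3 x ϱ hϱ, k2b_vol_ball3 y ϱ hϱ,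
    ← ENNReal.ofReal_mul (by positivity)]
  congr 1
  ring

theorem k2b_prior_apply {ι : Type} [Fintype ι] (b s : ι → Fin 3 → ℝ) (ϱ : ℝ) {A : Set ((Fin 3 → ℝ) × (Fin 3 → ℝ))} (hA : MeasurableSet A) :
    k2bPrior b s ϱ A = ∑ i, ENNReal.ofReal (1 / ((Fintype.card ι : ℝ) * (2 * ϱ) ^ 6)) * volume (A ∩ Metric.closedBall (b i, s i) ϱ) := by
  unfold k2bPrior
  rw [Measure.finsetSum_apply]
  refine Finset.sum_congr rfl fun i _ => ?_
  rw [Measure.smul_apply, Measure.restrict_apply hA, smul_eq_mul]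

/-- **LEAF L-252-S2b-MIX1.**  `volume (closedBall (b i, s i) ϱ) = (2ϱ)^6`:  `closedBall_prod_same`, `Measure.volume_eq_prod`, `Measure.prod_prod`, `Real.volume_pi_closedBall` (card `Fin 3 = 3`).   Sum of `card ι` equal terms. -/
theorem k2b_prior_prob {ι : Type} [Fintype ι] [Nonempty ι] (b s : ι → Fin 3 → ℝ) (ϱ : ℝ) (hϱ : 0 < ϱ) :
    IsProbabilityMeasure (k2bPrior b s ϱ) := by
  refine ⟨?_⟩
  have hc : (0 : ℝ) < (Fintype.card ι : ℝ) := by exact_mod_cast Fintype.card_pos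
  have h6 : (0 : ℝ) < (2 * ϱ) ^ 6 := by positivity
  rw [k2b_prior_apply b s ϱ MeasurableSet.univ]
  have e : ∀ i : ι, ENNReal.ofReal (1 / ((Fintype.card ι : ℝ) * (2 * ϱ) ^ 6)) * volume (Set.univ ∩ Metric.closedBall (b i, s i) ϱ)
      = ENNReal.ofReal (1 / (Fintype.card ι : ℝ)) := by
    intro i
    rw [Set.univ_inter, k2b_vol_ball6 _ _ ϱ hϱ.le, ← ENNReal.ofReal_mul (by positivity)]
    congr 1
    field_simp
  rw [Finset.sum_congr rfl fun i _ => e i, Finset.sum_const, Finset.card_univ, nsmul_eq_mul]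
  have e2 : ((Fintype.card ι : ℕ) : ℝ≥0∞) = ENNReal.ofReal (Fintype.card ι : ℝ) := (ENNReal.ofReal_natCast _).symm
  rw [e2, ← ENNReal.ofReal_mul hc.le, mul_one_div_cancel hc.ne', ENNReal.ofReal_one]

/-- **LEAF L-252-S2b-MIX1.**  Each of the `card ι` terms is `≤ ofReal (1 / (card ι (2ϱ)^6)) • volume` (`Measure.restrict_le_self`). -/
theorem k2b_prior_le {ι : Type} [Fintype ι] (b s : ι → Fin 3 → ℝ) (ϱ : ℝ) (hϱ : 0 < ϱ) :
    k2bPrior b s ϱ ≤ ENNReal.ofReal (1 / (2 * ϱ) ^ 6) • volume := by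
  have h6 : (0 : ℝ) < (2 * ϱ) ^ 6 := by positivity
  rw [Measure.le_iff]
  intro A hA
  rw [k2b_prior_apply b s ϱ hA, Measure.smul_apply, smul_eq_mul]
  rcases isEmpty_or_nonempty ι with hι | hι
  · rw [Finset.univ_eq_empty, Finset.sum_empty]
    exact zero_le
  · have hc : (0 : ℝ) < (Fintype.card ι : ℝ) := by exact_mod_cast Fintype.card_pos
    calc ∑ i, ENNReal.ofReal (1 / ((Fintype.card ι : ℝ) * (2 * ϱ) ^ 6)) * volume (A ∩ Metric.closedBall (b i, s i) ϱ)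
        ≤ ∑ _i : ι, ENNReal.ofReal (1 / ((Fintype.card ι : ℝ) * (2 * ϱ) ^ 6)) * volume A :=
          Finset.sum_le_sum fun i _ => mul_le_mul_right (measure_mono Set.inter_subset_left) _
      _ = ENNReal.ofReal (1 / (2 * ϱ) ^ 6) * volume A := by
          rw [Finset.sum_const, Finset.card_univ, nsmul_eq_mul, ← mul_assoc]
          have e2 : ((Fintype.card ι : ℕ) : ℝ≥0∞) = ENNReal.ofReal (Fintype.card ι : ℝ) := (ENNReal.ofReal_natCast _).symm
          rw [e2, ← ENNReal.ofReal_mul hc.le]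
          congr 2
          field_simp

/-- **LEAF L-252-S2b-MIX1.**  The prior lives on the union of the boxes. -/
theorem k2b_prior_supp {ι : Type} [Fintype ι] (b s : ι → Fin 3 → ℝ) (ϱ : ℝ) :
    k2bPrior b s ϱ (⋃ i, Metric.closedBall (b i, s i) ϱ)ᶜ = 0 := by
  have hm : MeasurableSet (⋃ i, Metric.closedBall (b i, s i) ϱ)ᶜ :=
    (MeasurableSet.iUnion fun i => Metric.isClosed_closedBall.measurableSet).compl
  rw [k2b_prior_apply b s ϱ hm]
  refine Finset.sum_eq_zero fun i _ => ?_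
  have e : (⋃ i, Metric.closedBall (b i, s i) ϱ)ᶜ ∩ Metric.closedBall (b i, s i) ϱ = ∅ := by
    ext p
    simp only [Set.mem_inter_iff, Set.mem_compl_iff, Set.mem_iUnion, not_exists, Set.mem_empty_iff_false, iff_false, not_and]
    exact fun h => h i
  rw [e, measure_empty, mul_zero]

theorem k2b_slope_disj {ι : Type} (s : ι → Fin 3 → ℝ) (δ ϱ : ℝ) (hϱδ : 2 * ϱ ≤ δ) (hsep : K2bSep δ s) {i i' : ι} (h : i ≠ i') :
    Disjoint (Metric.closedBall (s i) ϱ) (Metric.closedBall (s i') ϱ) := by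
  rw [Set.disjoint_left]
  intro x h1 h2
  obtain ⟨a, ha⟩ := hsep i i' h
  have d1 : |x a - s i a| ≤ ϱ := by
    rw [← Real.dist_eq]
    exact (dist_le_pi_dist x (s i) a).trans (Metric.mem_closedBall.1 h1)
  have d2 : |x a - s i' a| ≤ ϱ := by
    rw [← Real.dist_eq]
    exact (dist_le_pi_dist x (s i') a).trans (Metric.mem_closedBall.1 h2)
  have d3 : |s i a - s i' a| ≤ 2 * ϱ := by
    rw [abs_le] at d1 d2 ⊢
    constructor <;> linarith [d1.1, d1.2, d2.1, d2.2]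
  linarith

theorem k2b_slope_meas {ι : Type} [Fintype ι] (b s : ι → Fin 3 → ℝ) (δ ϱ : ℝ) (hϱ : 0 < ϱ) (hϱδ : 2 * ϱ ≤ δ)
    (hsep : K2bSep δ s) (A : Set (Fin 3 → ℝ)) (hA : MeasurableSet A) :
    k2bPrior b s ϱ {p | p.2 ∈ A} ≤ ENNReal.ofReal (1 / ((Fintype.card ι : ℝ) * (2 * ϱ) ^ 3)) * volume A := by
  have h3 : (0 : ℝ) < (2 * ϱ) ^ 3 := by positivity
  have hm : MeasurableSet {p : (Fin 3 → ℝ) × (Fin 3 → ℝ) | p.2 ∈ A} := measurable_snd hA
  rw [k2b_prior_apply b s ϱ hm]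
  have e : ∀ i : ι, ENNReal.ofReal (1 / ((Fintype.card ι : ℝ) * (2 * ϱ) ^ 6)) * volume ({p : (Fin 3 → ℝ) × (Fin 3 → ℝ) | p.2 ∈ A} ∩ Metric.closedBall (b i, s i) ϱ)
      = ENNReal.ofReal (1 / ((Fintype.card ι : ℝ) * (2 * ϱ) ^ 3)) * volume (A ∩ Metric.closedBall (s i) ϱ) := by
    intro i
    have e1 : {p : (Fin 3 → ℝ) × (Fin 3 → ℝ) | p.2 ∈ A} ∩ Metric.closedBall (b i, s i) ϱ
        = Metric.closedBall (b i) ϱ ×ˢ (A ∩ Metric.closedBall (s i) ϱ) := by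
      rw [← closedBall_prod_same]
      ext p
      simp only [Set.mem_inter_iff, Set.mem_ofPred_eq, Set.mem_prod]
      tauto
    rw [e1, Measure.volume_eq_prod, Measure.prod_prod, k2b_vol_ball3 _ ϱ hϱ.le, ← mul_assoc, ← ENNReal.ofReal_mul (by positivity)]
    congr 2
    rcases Nat.eq_zero_or_pos (Fintype.card ι) with h0 | h0
    · rw [h0]
      simp
    · have hc : (0 : ℝ) < (Fintype.card ι : ℝ) := by exact_mod_cast h0
      field_simp
  rw [Finset.sum_congr rfl fun i _ => e i, ← Finset.mul_sum]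
  refine mul_le_mul_right ?_ _
  have hU : volume (⋃ i ∈ (Finset.univ : Finset ι), A ∩ Metric.closedBall (s i) ϱ) = ∑ i, volume (A ∩ Metric.closedBall (s i) ϱ) :=
    measure_biUnion_finset (fun i _ i' _ h => (k2b_slope_disj s δ ϱ hϱδ hsep h).mono Set.inter_subset_right Set.inter_subset_right)
      fun i _ => hA.inter Metric.isClosed_closedBall.measurableSet
  rw [← hU]
  refine measure_mono ?_
  intro x hx
  simp only [Set.mem_iUnion] at hx
  obtain ⟨i, _, hx⟩ := hx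
  exact hx.1

/-- **LEAF L-252-S2b-MIX2: the full slope ceiling** (02 (2.33), l.1271-1277).   NO measurability of `A` (replace `A` by `toMeasurable volume A`).
For measurable `A`: `volume (closedBall (b i, s i) ϱ ∩ {p | p.2 ∈ A}) = (2ϱ)^3 * volume (closedBall (s i) ϱ ∩ A)` (`closedBall_prod_same`, `Set.prod_inter_prod`-type rewriting, `Measure.prod_prod`);
the balls `closedBall (s i) ϱ` are pairwise disjoint (a common point gives `|s i a - s i' a| ≤ 2ϱ ≤ δ` for all `a`), so `∑ i, volume (closedBall (s i) ϱ ∩ A) = volume (⋃ …) ≤ volume A` (`measure_biUnion_finset`). -/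
theorem k2b_slope_ceiling {ι : Type} [Fintype ι] (b s : ι → Fin 3 → ℝ) (δ ϱ : ℝ) (hϱ : 0 < ϱ) (hϱδ : 2 * ϱ ≤ δ)
    (hsep : K2bSep δ s) (A : Set (Fin 3 → ℝ)) :
    k2bPrior b s ϱ {p | p.2 ∈ A} ≤ ENNReal.ofReal (1 / ((Fintype.card ι : ℝ) * (2 * ϱ) ^ 3)) * volume A := by
  have h := k2b_slope_meas b s δ ϱ hϱ hϱδ hsep (toMeasurable volume A) (measurableSet_toMeasurable volume A)
  rw [measure_toMeasurable] at h
  refine le_trans (measure_mono ?_) h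
  intro p hp
  exact subset_toMeasurable volume A hp

/-- **LEAF L-252-S2b-MIX3: a column contains few separated slopes.**  If `|s i a - V a| ≤ ϱ` for `a = 0, 1` and `i ∈ F`, then the numbers `s i 2 ∈ [0,1]`, `i ∈ F`, are pairwise more than `δ` apart (`2ϱ ≤ δ`), so `i ↦ ⌊s i 2 / δ⌋ ∈ [0, 1/δ]` is injective on `F`. -/
theorem k2b_column_card {ι : Type} (s : ι → Fin 3 → ℝ) (δ ϱ : ℝ) (hδ : 0 < δ) (hϱδ : 2 * ϱ ≤ δ)
    (hsep : K2bSep δ s) (hs : ∀ i, 0 ≤ s i 2 ∧ s i 2 ≤ 1) (V : Fin 2 → ℝ) (F : Finset ι)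
    (hF : ∀ i ∈ F, ∀ a : Fin 2, |s i (Fin.castSucc a) - V a| ≤ ϱ) :
    (F.card : ℝ) ≤ 1 / δ + 1 := by
  classical
  have hsep2 : ∀ i ∈ F, ∀ i' ∈ F, i ≠ i' → δ < |s i 2 - s i' 2| := by
    intro i hi i' hi' hne
    obtain ⟨a, ha⟩ := hsep i i' hne
    have hcol : ∀ b : Fin 2, |s i (Fin.castSucc b) - s i' (Fin.castSucc b)| ≤ δ := by
      intro b
      have h1 := abs_le.1 (hF i hi b)
      have h2 := abs_le.1 (hF i' hi' b)
      rw [abs_le]
      constructor <;> linarith [h1.1, h1.2, h2.1, h2.2]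
    fin_cases a
    · exact absurd ha (not_lt.2 (hcol 0))
    · exact absurd ha (not_lt.2 (hcol 1))
    · exact ha
  have hcard : F.card ≤ (Finset.range (⌊1 / δ⌋₊ + 1)).card := by
    refine Finset.card_le_card_of_injOn (fun i => ⌊s i 2 / δ⌋₊) ?_ ?_
    · intro i _
      rw [Finset.coe_range, Set.mem_Iio]
      exact Nat.lt_succ_of_le (Nat.floor_le_floor (div_le_div_of_nonneg_right (hs i).2 hδ.le))
    · intro i hi i' hi' heq
      by_contra hne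
      have h := hsep2 i hi i' hi' hne
      have a1 := Nat.floor_le (div_nonneg (hs i).1 hδ.le)
      have a2 := Nat.lt_floor_add_one (s i 2 / δ)
      have b1 := Nat.floor_le (div_nonneg (hs i').1 hδ.le)
      have b2 := Nat.lt_floor_add_one (s i' 2 / δ)
      have heq' : ⌊s i 2 / δ⌋₊ = ⌊s i' 2 / δ⌋₊ := heq
      rw [heq'] at a1 a2
      have h3 : |s i 2 / δ - s i' 2 / δ| < 1 := by
        rw [abs_lt]
        constructor <;> linarith
      rw [← sub_div, abs_div, abs_of_pos hδ, div_lt_one hδ] at h3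
      linarith
  rw [Finset.card_range] at hcard
  have h1 : (F.card : ℝ) ≤ (⌊1 / δ⌋₊ : ℝ) + 1 := by exact_mod_cast hcard
  have h2 := Nat.floor_le (by positivity : 0 ≤ 1 / δ)
  linarith

/-- **LEAF L-252-S2b-MIX4: one component, joint law of `(y(t), V)`.**  In the coordinates `((y₀, V), (w₀, W))` the box is a product; `(w₀, W)` contributes `(2ϱ)^2`; the shear `(y₀, V) ↦ (y₀ + t V, V)` preserves Lebesgue measure of `ℝ² × ℝ²`
(Tonelli: for fixed `V` a translation in `y₀`).   Suggested route: `Measure.prod_apply` / `lintegral_prod` on `(Fin 3 → ℝ) × (Fin 3 → ℝ)` and `volume_preserving_piFinSuccAbove (fun _ => ℝ) (Fin.last 2)` in each factor. -/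
theorem k2b_comp_joint (b s : Fin 3 → ℝ) (ϱ t : ℝ) (hϱ : 0 < ϱ) (A : Set ((Fin 2 → ℝ) × (Fin 2 → ℝ))) (hA : MeasurableSet A) :
    volume (Metric.closedBall (b, s) ϱ ∩ {p | (k2bY (k2bPos p t), k2bY p.2) ∈ A})
      ≤ ENNReal.ofReal ((2 * ϱ) ^ 2) * volume (A ∩ {z | ∀ a : Fin 2, |z.2 a - s (Fin.castSucc a)| ≤ ϱ}) := by
  exact k2b_shear_joint b s ϱ t hϱ A hA

/-- **LEAF L-252-S2b-MIX5: the joint ceiling** (02 l.1308-1318; gives `g(r,u) ≤ r + 2 - 2u`).   From `k2b_comp_joint` and `k2b_column_card`: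
`∑ i, volume (A ∩ Col i) = ∫⁻ z in A, #{i | z ∈ Col i} ≤ (1/δ + 1) volume A` (`lintegral_finset_sum`, indicators).   With `ϱ = δ/4`, `card ι ≥ δ^{-3}/K` the constant is `≤ 512 K δ^{-2}`. -/
theorem k2b_joint_ceiling {ι : Type} [Fintype ι] (b s : ι → Fin 3 → ℝ) (δ ϱ t : ℝ) (hϱ : 0 < ϱ) (hϱδ : 2 * ϱ ≤ δ)
    (hsep : K2bSep δ s) (hs : ∀ i, 0 ≤ s i 2 ∧ s i 2 ≤ 1) (A : Set ((Fin 2 → ℝ) × (Fin 2 → ℝ))) (hA : MeasurableSet A) :
    k2bPrior b s ϱ {p | (k2bY (k2bPos p t), k2bY p.2) ∈ A}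
      ≤ ENNReal.ofReal ((1 / δ + 1) / ((Fintype.card ι : ℝ) * (2 * ϱ) ^ 4)) * volume A := by
  classical
  have hδ : 0 < δ := by linarith
  have hmeas : Measurable fun p : (Fin 3 → ℝ) × (Fin 3 → ℝ) => (k2bY (k2bPos p t), k2bY p.2) := by
    unfold k2bY k2bPos
    fun_prop
  have hEm : MeasurableSet {p : (Fin 3 → ℝ) × (Fin 3 → ℝ) | (k2bY (k2bPos p t), k2bY p.2) ∈ A} := hmeas hA
  have hCol : ∀ i, MeasurableSet {z : (Fin 2 → ℝ) × (Fin 2 → ℝ) | ∀ a : Fin 2, |z.2 a - s i (Fin.castSucc a)| ≤ ϱ} := by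
    intro i
    have e : {z : (Fin 2 → ℝ) × (Fin 2 → ℝ) | ∀ a : Fin 2, |z.2 a - s i (Fin.castSucc a)| ≤ ϱ}
        = ⋂ a : Fin 2, {z | |z.2 a - s i (Fin.castSucc a)| ≤ ϱ} := by
      ext z
      simp
    rw [e]
    exact MeasurableSet.iInter fun a => measurableSet_le (by fun_prop) measurable_const
  have hsum : ∑ i, volume (A ∩ {z : (Fin 2 → ℝ) × (Fin 2 → ℝ) | ∀ a : Fin 2, |z.2 a - s i (Fin.castSucc a)| ≤ ϱ})
      ≤ ENNReal.ofReal (1 / δ + 1) * volume A := by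
    have h1 : ∀ i, volume (A ∩ {z : (Fin 2 → ℝ) × (Fin 2 → ℝ) | ∀ a : Fin 2, |z.2 a - s i (Fin.castSucc a)| ≤ ϱ})
        = ∫⁻ z in A, ({z : (Fin 2 → ℝ) × (Fin 2 → ℝ) | ∀ a : Fin 2, |z.2 a - s i (Fin.castSucc a)| ≤ ϱ}).indicator 1 z := by
      intro i
      rw [lintegral_indicator_one (hCol i), Measure.restrict_apply (hCol i), Set.inter_comm]
    simp only [h1]
    rw [← lintegral_finsetSum _ (fun i _ => (measurable_one.indicator (hCol i)))]
    calc ∫⁻ z in A, ∑ i, ({z : (Fin 2 → ℝ) × (Fin 2 → ℝ) | ∀ a : Fin 2, |z.2 a - s i (Fin.castSucc a)| ≤ ϱ}).indicator 1 z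
        ≤ ∫⁻ _z in A, ENNReal.ofReal (1 / δ + 1) := by
          refine lintegral_mono fun z => ?_
          have e : ∑ i, ({z : (Fin 2 → ℝ) × (Fin 2 → ℝ) | ∀ a : Fin 2, |z.2 a - s i (Fin.castSucc a)| ≤ ϱ}).indicator
              (1 : (Fin 2 → ℝ) × (Fin 2 → ℝ) → ℝ≥0∞) z
              = ((Finset.univ.filter fun i => ∀ a : Fin 2, |z.2 a - s i (Fin.castSucc a)| ≤ ϱ).card : ℝ≥0∞) := by
            simp only [Set.indicator_apply, Set.mem_ofPred_eq, Pi.one_apply]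
            rw [Finset.sum_boole]
          rw [e]
          have hc := k2b_column_card s δ ϱ hδ hϱδ hsep hs z.2
            (Finset.univ.filter fun i => ∀ a : Fin 2, |z.2 a - s i (Fin.castSucc a)| ≤ ϱ)
            (fun i hi a => by
              have := (Finset.mem_filter.1 hi).2 a
              rwa [abs_sub_comm] at this)
          rw [← ENNReal.ofReal_natCast]
          exact ENNReal.ofReal_le_ofReal hc
      _ = _ := by rw [lintegral_const, Measure.restrict_apply MeasurableSet.univ, Set.univ_inter]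
  unfold k2bPrior
  rw [Measure.finsetSum_apply]
  simp only [Measure.smul_apply, smul_eq_mul, Measure.restrict_apply hEm]
  calc ∑ i, ENNReal.ofReal (1 / ((Fintype.card ι : ℝ) * (2 * ϱ) ^ 6)) *
        volume ({p : (Fin 3 → ℝ) × (Fin 3 → ℝ) | (k2bY (k2bPos p t), k2bY p.2) ∈ A} ∩ Metric.closedBall (b i, s i) ϱ)
      ≤ ∑ i, ENNReal.ofReal (1 / ((Fintype.card ι : ℝ) * (2 * ϱ) ^ 6)) * (ENNReal.ofReal ((2 * ϱ) ^ 2) *
          volume (A ∩ {z : (Fin 2 → ℝ) × (Fin 2 → ℝ) | ∀ a : Fin 2, |z.2 a - s i (Fin.castSucc a)| ≤ ϱ})) :=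
        Finset.sum_le_sum fun i _ => mul_le_mul' le_rfl (by
          rw [Set.inter_comm]
          exact k2b_comp_joint (b i) (s i) ϱ t hϱ A hA)
    _ = ENNReal.ofReal (1 / ((Fintype.card ι : ℝ) * (2 * ϱ) ^ 6)) * (ENNReal.ofReal ((2 * ϱ) ^ 2) *
          ∑ i, volume (A ∩ {z : (Fin 2 → ℝ) × (Fin 2 → ℝ) | ∀ a : Fin 2, |z.2 a - s i (Fin.castSucc a)| ≤ ϱ})) := by
        rw [Finset.mul_sum, Finset.mul_sum]
    _ ≤ ENNReal.ofReal (1 / ((Fintype.card ι : ℝ) * (2 * ϱ) ^ 6)) * (ENNReal.ofReal ((2 * ϱ) ^ 2) *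
          (ENNReal.ofReal (1 / δ + 1) * volume A)) := mul_le_mul' le_rfl (mul_le_mul' le_rfl hsum)
    _ = _ := by
        rw [← mul_assoc, ← mul_assoc, ← ENNReal.ofReal_mul (by positivity), ← ENNReal.ofReal_mul (by positivity)]
        congr 2
        have h2 : (2 * ϱ) ≠ 0 := by positivity
        generalize (1 / δ + 1) = x
        rw [one_div, mul_inv, div_eq_mul_inv, mul_inv]
        generalize ((Fintype.card ι : ℝ))⁻¹ = m
        field_simp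

theorem k2b_mass_floor_incl {ι : Type} (k : ℕ) (b s : ι → Fin 3 → ℝ) (Vis : Finset (ℕ × (Fin 3 → ℤ)))
    (hs : ∀ i a, 0 ≤ s i a ∧ s i a ≤ 1) (i : ι) (j : ℕ) (hj : j < 2 ^ k)
    (hVis : ((j, fun a => ⌊(b i a + (j : ℝ) / 2 ^ k * s i a) * 2 ^ k⌋) : ℕ × (Fin 3 → ℤ)) ∈ Vis) :
    Metric.closedBall (b i, s i) (1 / 2 ^ (k + 2)) ×ˢ Set.Ico ((j : ℝ) / 2 ^ k) (((j : ℝ) + 1) / 2 ^ k) ⊆ k2bEv k Vis := by
  rintro ⟨p, t⟩ ⟨hp, ht1, ht2⟩
  refine ⟨_, hVis, ht1, ht2, fun a => ?_⟩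
  obtain ⟨D, hD⟩ : ∃ D : ℝ, D = 2 ^ k := ⟨_, rfl⟩
  have hD0 : 0 < D := by rw [hD]; positivity
  have hϱ : (1 : ℝ) / 2 ^ (k + 2) = 1 / D / 4 := by
    rw [hD, pow_add]
    field_simp
    norm_num
  have hp' : dist p (b i, s i) ≤ 1 / D / 4 := by rw [← hϱ]; exact Metric.mem_closedBall.1 hp
  rw [Prod.dist_eq] at hp'
  have h1 : |p.1 a - b i a| ≤ 1 / D / 4 := by
    rw [← Real.dist_eq]
    exact (dist_le_pi_dist p.1 (b i) a).trans ((le_max_left _ _).trans hp')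
  have h2 : |p.2 a - s i a| ≤ 1 / D / 4 := by
    rw [← Real.dist_eq]
    exact (dist_le_pi_dist p.2 (s i) a).trans ((le_max_right _ _).trans hp')
  simp only at ht1 ht2 ⊢
  rw [← hD] at ht1 ht2 ⊢
  have hjD : (j : ℝ) + 1 ≤ D := by
    rw [hD]
    exact_mod_cast hj
  have ht0 : 0 ≤ t := le_trans (by positivity) ht1
  have ht1' : t ≤ 1 := by
    have : ((j : ℝ) + 1) / D ≤ 1 := by rw [div_le_one hD0]; exact hjD
    linarith
  have hfl1 := Int.floor_le ((b i a + (j : ℝ) / D * s i a) * D)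
  have hfl2 := Int.lt_floor_add_one ((b i a + (j : ℝ) / D * s i a) * D)
  obtain ⟨z, hz⟩ : ∃ z : ℤ, z = ⌊(b i a + (j : ℝ) / D * s i a) * D⌋ := ⟨_, rfl⟩
  rw [← hz] at hfl1 hfl2 ⊢
  obtain ⟨X, hX⟩ : ∃ X : ℝ, X = b i a + (j : ℝ) / D * s i a := ⟨_, rfl⟩
  rw [← hX] at hfl1 hfl2
  have hX1 : (z : ℝ) / D ≤ X := by rw [div_le_iff₀ hD0]; exact hfl1
  have hX2 : X < ((z : ℝ) + 1) / D := by rw [lt_div_iff₀ hD0]; exact hfl2
  have hpos : k2bPos p t a = X + (p.1 a - b i a) + t * (p.2 a - s i a) + (t - (j : ℝ) / D) * s i a := by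
    rw [hX]; unfold k2bPos; ring
  have h3 : |t * (p.2 a - s i a)| ≤ 1 / D / 4 := by
    rw [abs_mul, abs_of_nonneg ht0]
    calc t * |p.2 a - s i a| ≤ 1 * (1 / D / 4) := mul_le_mul ht1' h2 (abs_nonneg _) (by norm_num)
      _ = 1 / D / 4 := one_mul _
  have he0 : 0 ≤ t - (j : ℝ) / D := by linarith
  have he1 : t - (j : ℝ) / D < 1 / D := by
    have : ((j : ℝ) + 1) / D = (j : ℝ) / D + 1 / D := add_div _ _ _
    linarith
  have h4 : 0 ≤ (t - (j : ℝ) / D) * s i a := mul_nonneg he0 (hs i a).1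
  have h5 : (t - (j : ℝ) / D) * s i a < 1 / D := lt_of_le_of_lt (mul_le_of_le_one_right he0 (hs i a).2) he1
  have hδ : 0 < 1 / D := by positivity
  rw [abs_le] at h1 h3
  rw [hpos, sub_div, add_div]
  rw [add_div] at hX2
  have e2 : (2 : ℝ) / D = 2 * (1 / D) := by ring
  have e3 : (3 : ℝ) / D = 3 * (1 / D) := by ring
  rw [e2, e3]
  constructor <;> linarith [h1.1, h1.2, h3.1, h3.2]

theorem k2b_mass_floor_time (k : ℕ) (J : Finset ℕ) (hJ : J ⊆ Finset.range (2 ^ k)) :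
    (volume.restrict (Set.Icc (0 : ℝ) 1)) (⋃ j ∈ J, Set.Ico ((j : ℝ) / 2 ^ k) (((j : ℝ) + 1) / 2 ^ k))
      = ENNReal.ofReal ((J.card : ℝ) / 2 ^ k) := by
  have hD0 : (0 : ℝ) < 2 ^ k := by positivity
  rw [measure_biUnion_finset]
  · have e : ∀ j ∈ J, (volume.restrict (Set.Icc (0 : ℝ) 1)) (Set.Ico ((j : ℝ) / 2 ^ k) (((j : ℝ) + 1) / 2 ^ k))
        = ENNReal.ofReal (1 / 2 ^ k) := by
      intro j hj
      have hj' : j < 2 ^ k := Finset.mem_range.1 (hJ hj)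
      have hsub : Set.Ico ((j : ℝ) / 2 ^ k) (((j : ℝ) + 1) / 2 ^ k) ⊆ Set.Icc (0 : ℝ) 1 := by
        intro x hx
        refine ⟨le_trans (by positivity) hx.1, hx.2.le.trans ?_⟩
        rw [div_le_one hD0]
        exact_mod_cast hj'
      rw [Measure.restrict_apply measurableSet_Ico, Set.inter_eq_left.2 hsub, Real.volume_Ico]
      congr 1
      rw [← sub_div]
      congr 1
      ring
    rw [Finset.sum_congr rfl e, Finset.sum_const, nsmul_eq_mul]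
    have e2 : ((J.card : ℕ) : ℝ≥0∞) = ENNReal.ofReal (J.card : ℝ) := (ENNReal.ofReal_natCast _).symm
    rw [e2, ← ENNReal.ofReal_mul (Nat.cast_nonneg _)]
    congr 1
    ring
  · intro j _ j' _ hne
    rw [Function.onFun, Set.disjoint_left]
    intro x hx hx'
    apply hne
    have a1 : (j : ℝ) / 2 ^ k < ((j' : ℝ) + 1) / 2 ^ k := lt_of_le_of_lt hx.1 hx'.2
    have a2 : (j' : ℝ) / 2 ^ k < ((j : ℝ) + 1) / 2 ^ k := lt_of_le_of_lt hx'.1 hx.2
    rw [div_lt_div_iff_of_pos_right hD0] at a1 a2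
    have b1 : j < j' + 1 := by exact_mod_cast a1
    have b2 : j' < j + 1 := by exact_mod_cast a2
    omega
  · intro j _
    exact measurableSet_Ico

/-- **LEAF L-252-S2b-MIX6: the selected mass** (02 l.1258-1262).   For `i`, `j ∈ J i`, `p ∈ closedBall (b i, s i) ϱ`, `t ∈ [j δ, (j+1) δ)`: `|x_p(t) a - (b i a + j δ s i a)| ≤ ϱ + t ϱ + δ ≤ 3 δ / 2`, and `b i a + j δ s i a ∈ [z δ, (z+1) δ)` for the visited cell `(j, z)`;
so `closedBall (b i, s i) ϱ ×ˢ Ico (j δ) ((j+1) δ) ⊆ k2bEv k Vis`, and these time intervals are disjoint subsets of `[0,1]`.   `Measure.prod` of the finite sum: `Measure.prod_apply` or `Measure.prod_prod` on the rectangles + `measure_biUnion_finset`. -/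
theorem k2b_mass_floor {ι : Type} [Fintype ι] (k : ℕ) (b s : ι → Fin 3 → ℝ) (J : ι → Finset ℕ) (Vis : Finset (ℕ × (Fin 3 → ℤ)))
    (hs : ∀ i a, 0 ≤ s i a ∧ s i a ≤ 1) (hJ : ∀ i, J i ⊆ Finset.range (2 ^ k))
    (hVis : ∀ i, ∀ j ∈ J i, ((j, fun a => ⌊(b i a + (j : ℝ) / 2 ^ k * s i a) * 2 ^ k⌋) : ℕ × (Fin 3 → ℤ)) ∈ Vis) :
    ENNReal.ofReal ((∑ i, ((J i).card : ℝ)) / ((Fintype.card ι : ℝ) * 2 ^ k))
      ≤ ((k2bPrior b s (1 / 2 ^ (k + 2))).prod (volume.restrict (Set.Icc (0 : ℝ) 1))) (k2bEv k Vis) := by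
  obtain ⟨ϱ, hϱdef⟩ : ∃ ϱ : ℝ, ϱ = 1 / 2 ^ (k + 2) := ⟨_, rfl⟩
  have hϱ : 0 < ϱ := by rw [hϱdef]; positivity
  rw [← hϱdef]
  have hprod : (k2bPrior b s ϱ).prod (volume.restrict (Set.Icc (0 : ℝ) 1))
      = ∑ i, ENNReal.ofReal (1 / ((Fintype.card ι : ℝ) * (2 * ϱ) ^ 6)) •
          ((volume.restrict (Metric.closedBall (b i, s i) ϱ)).prod (volume.restrict (Set.Icc (0 : ℝ) 1))) := by
    unfold k2bPrior
    rw [← Measure.sum_fintype, Measure.prod_sum_left, Measure.sum_fintype]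
    refine Finset.sum_congr rfl fun i _ => ?_
    rw [Measure.prod_smul_left]
  rw [hprod, Measure.finsetSum_apply, Finset.sum_div, ENNReal.ofReal_sum_of_nonneg (fun i _ => by positivity)]
  refine Finset.sum_le_sum fun i _ => ?_
  rw [Measure.smul_apply, smul_eq_mul]
  have hc : (0 : ℝ) < (Fintype.card ι : ℝ) := by exact_mod_cast Fintype.card_pos_iff.2 ⟨i⟩
  have hsub : Metric.closedBall (b i, s i) ϱ ×ˢ (⋃ j ∈ J i, Set.Ico ((j : ℝ) / 2 ^ k) (((j : ℝ) + 1) / 2 ^ k)) ⊆ k2bEv k Vis := by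
    rintro ⟨p, t⟩ ⟨hp, ht⟩
    simp only [Set.mem_iUnion] at ht
    obtain ⟨j, hj, ht⟩ := ht
    rw [hϱdef] at hp
    exact k2b_mass_floor_incl k b s Vis hs i j (Finset.mem_range.1 (hJ i hj)) (hVis i j hj) ⟨hp, ht⟩
  calc ENNReal.ofReal (((J i).card : ℝ) / ((Fintype.card ι : ℝ) * 2 ^ k))
      = ENNReal.ofReal (1 / ((Fintype.card ι : ℝ) * (2 * ϱ) ^ 6)) * (ENNReal.ofReal ((2 * ϱ) ^ 6) * ENNReal.ofReal (((J i).card : ℝ) / 2 ^ k)) := by
        rw [← ENNReal.ofReal_mul (by positivity), ← ENNReal.ofReal_mul (by positivity)]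
        congr 1
        field_simp
    _ = ENNReal.ofReal (1 / ((Fintype.card ι : ℝ) * (2 * ϱ) ^ 6)) *
          ((volume.restrict (Metric.closedBall (b i, s i) ϱ)).prod (volume.restrict (Set.Icc (0 : ℝ) 1)))
            (Metric.closedBall (b i, s i) ϱ ×ˢ (⋃ j ∈ J i, Set.Ico ((j : ℝ) / 2 ^ k) (((j : ℝ) + 1) / 2 ^ k))) := by
        rw [Measure.prod_prod, Measure.restrict_apply_self, k2b_vol_ball6 _ _ ϱ hϱ.le, k2b_mass_floor_time k (J i) (hJ i)]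
    _ ≤ _ := by gcongr

/-- the footprint of one cell -/
def k2bFoot (k : ℕ) (c : ℕ × (Fin 3 → ℤ)) : Set (ℝ × (Fin 2 → ℝ) × ℤ) :=
  Set.Ico ((c.1 : ℝ) / 2 ^ k) (((c.1 : ℝ) + 1) / 2 ^ k) ×ˢ
    ((Set.pi Set.univ fun a : Fin 2 => Set.Ico (((c.2 (Fin.castSucc a) : ℝ) - 2) / 2 ^ k) (((c.2 (Fin.castSucc a) : ℝ) + 3) / 2 ^ k)) ×ˢ
      ((Finset.Icc (c.2 2 - 2) (c.2 2 + 2) : Finset ℤ) : Set ℤ))

theorem k2b_foot_meas (k : ℕ) (c : ℕ × (Fin 3 → ℤ)) : MeasurableSet (k2bFoot k c) := by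
  unfold k2bFoot
  exact measurableSet_Ico.prod ((MeasurableSet.univ_pi fun _ => measurableSet_Ico).prod (Finset.measurableSet _))

theorem k2b_foot_vol (k : ℕ) (c : ℕ × (Fin 3 → ℤ)) :
    ((volume : Measure ℝ).prod ((volume : Measure (Fin 2 → ℝ)).prod Measure.count)) (k2bFoot k c)
      = ENNReal.ofReal (125 / 2 ^ (3 * k)) := by
  unfold k2bFoot
  rw [Measure.prod_prod, Measure.prod_prod, Real.volume_Ico, Real.volume_pi_Ico, Measure.count_apply_finset, Int.card_Icc,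
    Fin.prod_univ_two]
  have e1 : (c.2 2 + 2 + 1 - (c.2 2 - 2)).toNat = 5 := by
    have : c.2 2 + 2 + 1 - (c.2 2 - 2) = 5 := by ring
    rw [this]
    rfl
  rw [e1]
  have e2 : ((5 : ℕ) : ℝ≥0∞) = ENNReal.ofReal 5 := by
    rw [← ENNReal.ofReal_natCast]
    norm_num
  have h2 : (0 : ℝ) < 2 ^ k := by positivity
  rw [e2, ← ENNReal.ofReal_mul (by rw [← sub_div]; apply div_nonneg _ h2.le; linarith),
    ← ENNReal.ofReal_mul (by apply mul_nonneg <;> (rw [← sub_div]; apply div_nonneg _ h2.le; linarith)),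
    ← ENNReal.ofReal_mul (by rw [← sub_div]; apply div_nonneg _ h2.le; linarith)]
  congr 1
  rw [mul_comm 3 k, pow_mul]
  field_simp
  ring

/-- **LEAF L-252-S2b-MIX7: the footprint of the event in the observation space at depth `1`** (02 l.1297-1306; gives `g(1,0) ≥ σ`).
`F = ⋃_{c ∈ Vis} ⋃_{o ∈ {-2..2}} Ico (c.1 δ) ((c.1+1) δ) ×ˢ (box of side 5 δ in ℝ²) ×ˢ {c.2 2 + o}`: measure `≤ 5 · 25 δ³` for each cell. -/
theorem k2b_footprint (k : ℕ) (Vis : Finset (ℕ × (Fin 3 → ℤ))) :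
    ∃ F : Set (ℝ × (Fin 2 → ℝ) × ℤ), MeasurableSet F ∧ (∀ x ∈ k2bEv k Vis, k2bObs (2 ^ k) x ∈ F) ∧
      ((volume : Measure ℝ).prod ((volume : Measure (Fin 2 → ℝ)).prod Measure.count)) F
        ≤ ENNReal.ofReal (125 * (Vis.card : ℝ) / 2 ^ (3 * k)) := by
  have h2 : (0 : ℝ) < 2 ^ k := by positivity
  refine ⟨⋃ c ∈ Vis, k2bFoot k c, Finset.measurableSet_biUnion _ fun c _ => k2b_foot_meas k c, ?_, ?_⟩
  · rintro x ⟨c, hc, h1, h2', h3⟩
    simp only [Set.mem_iUnion]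
    refine ⟨c, hc, ?_⟩
    unfold k2bFoot k2bObs
    refine ⟨⟨h1, h2'⟩, ?_, ?_⟩
    · intro a _
      exact h3 (Fin.castSucc a)
    · have h4 := h3 2
      rw [div_le_iff₀ h2, lt_div_iff₀ h2] at h4
      simp only [Finset.coe_Icc, Set.mem_Icc]
      constructor
      · rw [Int.le_floor]
        push_cast
        exact h4.1
      · rw [← Int.lt_add_one_iff, Int.floor_lt]
        push_cast
        linarith [h4.2]
  · refine (measure_biUnion_finset_le _ _).trans (le_of_eq ?_)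
    rw [Finset.sum_congr rfl fun c _ => k2b_foot_vol k c, Finset.sum_const, nsmul_eq_mul, ← ENNReal.ofReal_natCast,
      ← ENNReal.ofReal_mul (Nat.cast_nonneg _)]
    congr 1
    ring

/-- **LEAF L-252-S2b-MIX8: mass of a chart against the slope ceiling** (02 l.1626-1632).   `E' ⊆ {p | p.2 ∈ Sig} ×ˢ I`, `Measure.prod_prod_le` (no measurability), `k2b_slope_ceiling`. -/
theorem k2b_mass_le_slope {ι : Type} [Fintype ι] (b s : ι → Fin 3 → ℝ) (δ ϱ q : ℝ) (hϱ : 0 < ϱ) (hϱδ : 2 * ϱ ≤ δ) (hq : 0 ≤ q)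
    (hsep : K2bSep δ s) (Sig : Set (Fin 3 → ℝ)) (I : Set ℝ) (hI : volume I ≤ ENNReal.ofReal q)
    (E' : Set (((Fin 3 → ℝ) × (Fin 3 → ℝ)) × ℝ)) (hE : ∀ x ∈ E', x.1.2 ∈ Sig ∧ x.2 ∈ I) :
    ((k2bPrior b s ϱ).prod volume) E'
      ≤ ENNReal.ofReal (q / ((Fintype.card ι : ℝ) * (2 * ϱ) ^ 3)) * volume Sig := by
  have hsub : E' ⊆ {p : (Fin 3 → ℝ) × (Fin 3 → ℝ) | p.2 ∈ Sig} ×ˢ I := fun x hx => ⟨(hE x hx).1, (hE x hx).2⟩
  refine (measure_mono hsub).trans ((Measure.prod_prod_le _ _).trans ?_)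
  refine (mul_le_mul' (k2b_slope_ceiling b s δ ϱ hϱ hϱδ hsep Sig) hI).trans (le_of_eq ?_)
  rw [mul_right_comm, ← ENNReal.ofReal_mul (by positivity)]
  congr 2
  ring

/-- **LEAF L-252-S2b-MIX9: the arithmetic of the positive horizon** (02 l.1633-1645).   `floor`: the true floor returned to the original prior, `m₀ / q ≥ n J / K`, `n = m a`;  `ceil`: `m₀ ≤ q K |Σ|`, `|Σ| ≤ K a J / q^3`.
Then `m ≤ K^3 / q^3`; with `m ≥ N^{σ/2}`: `q ≤ K N^{-σ/6}`. -/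
theorem k2b_horizon_arith (K N σ q a Jp m m0 Sg : ℝ) (hK : 1 ≤ K) (hN : 1 ≤ N) (hq : 0 < q) (ha : 0 < a) (hJ : 0 < Jp)
    (hfloor : m * a * Jp / K ≤ m0 / q) (hceil : m0 ≤ q * K * Sg) (hSg : Sg ≤ K * a * Jp / q ^ 3) (hm : N ^ (σ / 2) ≤ m) :
    q ≤ K * N ^ (-(σ / 6)) := by
  have hK0 : 0 < K := by linarith
  have hN0 : 0 < N := by linarith
  have hx : 0 < N ^ (-(σ / 6)) := Real.rpow_pos_of_pos hN0 _
  have hq3 : 0 < q ^ 3 := by positivity
  have haJ : 0 < a * Jp := mul_pos ha hJ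
  -- m ≤ K^3 / q^3
  have h1 : m0 / q ≤ K * Sg := by
    rw [div_le_iff₀ hq]
    linarith
  have h2 : K * Sg ≤ K * (K * a * Jp / q ^ 3) := mul_le_mul_of_nonneg_left hSg hK0.le
  have h3 : m * a * Jp / K ≤ K * (K * a * Jp / q ^ 3) := hfloor.trans (h1.trans h2)
  have h4 : m * q ^ 3 ≤ K ^ 3 := by
    rw [div_le_iff₀ hK0] at h3
    have e : K * (K * a * Jp / q ^ 3) * K = K ^ 3 * (a * Jp) / q ^ 3 := by ring
    rw [e, le_div_iff₀ hq3] at h3
    have e2 : m * a * Jp * q ^ 3 = m * q ^ 3 * (a * Jp) := by ring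
    rw [e2] at h3
    exact le_of_mul_le_mul_right h3 haJ
  have h5 : N ^ (σ / 2) * (N ^ (-(σ / 6))) ^ 3 = 1 := by
    rw [← Real.rpow_natCast, ← Real.rpow_mul hN0.le, ← Real.rpow_add hN0]
    have : σ / 2 + -(σ / 6) * ((3 : ℕ) : ℝ) = 0 := by
      push_cast
      ring
    rw [this, Real.rpow_zero]
  have h6 : q ^ 3 ≤ (K * N ^ (-(σ / 6))) ^ 3 := by
    rw [mul_pow]
    have h7 : N ^ (σ / 2) * q ^ 3 ≤ K ^ 3 := (mul_le_mul_of_nonneg_right hm hq3.le).trans h4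
    have h8 := mul_le_mul_of_nonneg_right h7 (pow_pos hx 3).le
    have e3 : N ^ (σ / 2) * q ^ 3 * (N ^ (-(σ / 6))) ^ 3 = (N ^ (σ / 2) * (N ^ (-(σ / 6))) ^ 3) * q ^ 3 := by ring
    rw [e3, h5, one_mul] at h8
    exact h8
  exact le_of_pow_le_pow_left₀ (by norm_num) (by positivity) h6

end Claimed.Agent.R252
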