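import Claimed.Agent.R252.Base.Sanity
import Claimed.Agent.R252.Glue.Defs
import Claimed.Agent.R252.S2b.MixContract

/-!
# Row 252 (S0492), unit S2b-INIT, file 1: the initial weighted problem at ONE scale      (helper171, prefix `k2i_`)

02-framework.tex l.1252-1270 ("Smoothing").   From the data of `GluBad σ C k` (unit GLUE) we build the one-scale problem `D.pb k : KbPb KbVer.two` of unit BASE:
one world, `Lam = ℝ³ × ℝ³` (lines `x(t) = b + t s`), prior `k2bPrior b s (δ/4)`, `co = k2iCo` (`y₀ = (b 0, b 1)`, `V = (s 0, s 1)`, `w(t) = b 2 + t s 2`), `Sp` = union of the boxes,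
`Ev = k2bEv k Vis ∩ (Sp × [0,1])`, `B = 1`, `P_* = w`.
EXITS: `k2i_bad_iff`, `k2i_mp_co` (`k2iCo` preserves Lebesgue measure), `k2i_wf`, `k2i_ntv` (slack `≥ 7`, `≥ C k²`), `k2i_tmp` (`Q ≥ 2^(6k+6)`).
-/

set_option autoImplicit false

namespace Claimed.Agent.R252

open MeasureTheory
open scoped ENNReal BigOperators

noncomputable section

/-- the space of lines `(b, s)` -/
abbrev K2iLn := (Fin 3 → ℝ) × (Fin 3 → ℝ)

/-- the data of a finite-scale counterexample (no proofs) -/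
structure K2iDat where
  ι : Type
  fι : Fintype ι
  b : ι → Fin 3 → ℝ
  s : ι → Fin 3 → ℝ
  J : ι → Finset ℕ

attribute [instance] K2iDat.fι

namespace K2iDat

variable (D : K2iDat)

open Classical in
/-- the visited cells -/
def Vis (k : ℕ) : Finset (ℕ × (Fin 3 → ℤ)) := Finset.univ.biUnion fun i => (D.J i).image (gluCell k (D.b i) (D.s i))

/-- the six requirements of `GluBad` -/
structure Bad (σ C : ℝ) (k : ℕ) : Prop where
  hb : ∀ i a, 0 ≤ D.b i a ∧ D.b i a ≤ 4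
  hs : ∀ i a, 0 ≤ D.s i a ∧ D.s i a ≤ 1
  sep : ∀ i i', i ≠ i' → ∃ a, 1 / (2 : ℝ) ^ k < |D.s i a - D.s i' a|
  card : (2 : ℝ) ^ (3 * k) ≤ C * (k : ℝ) ^ 2 * Fintype.card D.ι
  hJ : ∀ i, D.J i ⊆ Finset.range (2 ^ k) ∧ (2 : ℝ) ^ k ≤ C * (k : ℝ) ^ 2 * (D.J i).card
  vis : ((D.Vis k).card : ℝ) ≤ C * (2 : ℝ) ^ ((4 - σ) * (k : ℝ))

/-- the union of the boxes of radius `δ / 4` -/
def Sp (k : ℕ) : Set K2iLn := ⋃ i, Metric.closedBall (D.b i, D.s i) (1 / 2 ^ (k + 2))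

end K2iDat

theorem k2i_bad_iff (σ C : ℝ) (k : ℕ) : GluBad σ C k ↔ ∃ D : K2iDat, D.Bad σ C k := by
  constructor
  · rintro ⟨ι, fι, b, s, J, h1, h2, h3, h4, h5, h6⟩
    exact ⟨⟨ι, fι, b, s, J⟩, ⟨h1, h2, h3, h4, h5, h6⟩⟩
  · rintro ⟨⟨ι, fι, b, s, J⟩, ⟨h1, h2, h3, h4, h5, h6⟩⟩
    exact ⟨ι, fι, b, s, J, h1, h2, h3, h4, h5, h6⟩

/-- coefficients of a line in the model coordinates of version 2 -/
def k2iCo (p : K2iLn) : KbTj KbVer.two := (k2bY p.1, k2bY p.2, ![p.1 2, p.2 2])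

theorem k2i_co_Y (p : K2iLn) (t : ℝ) : kbY (k2iCo p) t = k2bY (k2bPos p t) := by
  funext a
  rfl

theorem k2i_co_V (p : K2iLn) : kbV (k2iCo p) = k2bY p.2 := rfl

theorem k2i_co_W (p : K2iLn) (t : ℝ) : kbW (k2iCo p) t = k2bPos p t 2 := by
  unfold kbW
  show ∑ i : Fin 2, (![p.1 2, p.2 2] : Fin 2 → ℝ) i * t ^ (i : ℕ) = k2bPos p t 2
  rw [Fin.sum_univ_two]
  simp [k2bPos]
  ring

theorem k2i_mp_co : MeasurePreserving k2iCo volume volume := by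
  have h1 := k2b_mp_psi 0
  have h2 := measurePreserving_prodAssoc (volume : Measure (Fin 2 → ℝ)) (volume : Measure (Fin 2 → ℝ)) (volume : Measure (ℝ × ℝ))
  have h3 : MeasurePreserving (Prod.map id (Prod.map id (MeasurableEquiv.finTwoArrow (α := ℝ)).symm))
      ((volume : Measure (Fin 2 → ℝ)).prod ((volume : Measure (Fin 2 → ℝ)).prod (volume : Measure (ℝ × ℝ))))
      ((volume : Measure (Fin 2 → ℝ)).prod ((volume : Measure (Fin 2 → ℝ)).prod (volume : Measure (Fin 2 → ℝ)))) :=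
    (MeasurePreserving.id _).prod ((MeasurePreserving.id _).prod (volume_preserving_finTwoArrow ℝ).symm)
  have h := h3.comp (h2.comp h1)
  have e : k2iCo = (Prod.map id (Prod.map id (MeasurableEquiv.finTwoArrow (α := ℝ)).symm)) ∘
      ((MeasurableEquiv.prodAssoc : ((Fin 2 → ℝ) × (Fin 2 → ℝ)) × (ℝ × ℝ) ≃ᵐ _) ∘ k2bPsi 0) := by
    funext p
    refine Prod.ext ?_ (Prod.ext ?_ ?_)
    · funext a
      simp [k2iCo, k2bPsi, k2bY, k2bPos, MeasurableEquiv.prodAssoc]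
    · rfl
    · funext a
      fin_cases a <;> simp [k2iCo, k2bPsi, MeasurableEquiv.prodAssoc, MeasurableEquiv.finTwoArrow]
  rw [e]
  exact h


theorem k2i_co_meas : Measurable k2iCo := k2i_mp_co.measurable

/-! ## The problem -/

/-- **the initial problem at the scale `δ = 2^{-k}`** -/
def K2iDat.pb (D : K2iDat) (k : ℕ) : KbPb KbVer.two where
  W := Unit
  fW := inferInstance
  Lam := K2iLn
  mLam := inferInstance
  om := fun _ => 1
  nu := fun _ => k2bPrior D.b D.s (1 / 2 ^ (k + 2))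
  co := fun _ => k2iCo
  Sp := fun _ => D.Sp k
  Ev := fun _ => k2bEv k (D.Vis k) ∩ (D.Sp k ×ˢ Set.Icc (0 : ℝ) 1)
  B := fun _ => 1
  Pst := fun _ => kbsT KbVer.two

theorem k2i_eqns_cite : True := by
  have := @K2iDat.Vis.eq_1
  have := @K2iDat.Sp.eq_1
  have := @K2iDat.pb.eq_1
  have := @k2iCo.eq_1
  trivial

theorem k2i_rad_pos (k : ℕ) : (0 : ℝ) < 1 / 2 ^ (k + 2) := by positivity

theorem k2i_rad_le (k : ℕ) : (1 : ℝ) / 2 ^ (k + 2) ≤ 1 / 4 := by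
  have h : (1 : ℝ) ≤ 2 ^ k := one_le_pow₀ (by norm_num)
  rw [pow_add, div_le_div_iff₀ (by positivity) (by norm_num)]
  nlinarith

theorem k2i_rad_two (k : ℕ) : 2 * ((1 : ℝ) / 2 ^ (k + 2)) = 1 / 2 ^ (k + 1) := by
  rw [pow_succ (2 : ℝ) (k + 1)]
  field_simp

theorem k2i_pos_meas (a : Fin 3) : Measurable fun x : K2iLn × ℝ => k2bPos x.1 x.2 a := by
  unfold k2bPos
  fun_prop

theorem k2i_ev_meas (k : ℕ) (Vis : Finset (ℕ × (Fin 3 → ℤ))) : MeasurableSet (k2bEv k Vis) := by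
  have e : k2bEv k Vis = ⋃ c ∈ Vis, ({x : K2iLn × ℝ | (c.1 : ℝ) / 2 ^ k ≤ x.2} ∩ ({x | x.2 < ((c.1 : ℝ) + 1) / 2 ^ k} ∩
      ⋂ a : Fin 3, ({x | ((c.2 a : ℝ) - 2) / 2 ^ k ≤ k2bPos x.1 x.2 a} ∩ {x | k2bPos x.1 x.2 a < ((c.2 a : ℝ) + 3) / 2 ^ k}))) := by
    ext x
    constructor
    · rintro ⟨c, hc, h1, h2, h3⟩
      exact Set.mem_biUnion hc ⟨h1, h2, Set.mem_iInter.2 fun a => h3 a⟩
    · intro hx
      obtain ⟨c, hc, h1, h2, h3⟩ := Set.mem_iUnion₂.1 hx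
      exact ⟨c, hc, h1, h2, fun a => Set.mem_iInter.1 h3 a⟩
  rw [e]
  refine Finset.measurableSet_biUnion _ fun c _ => ?_
  refine (measurableSet_le measurable_const measurable_snd).inter ((measurableSet_lt measurable_snd measurable_const).inter ?_)
  exact MeasurableSet.iInter fun a =>
    (measurableSet_le measurable_const (k2i_pos_meas a)).inter (measurableSet_lt (k2i_pos_meas a) measurable_const)

theorem k2i_sp_meas (D : K2iDat) (k : ℕ) : MeasurableSet (D.Sp k) :=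
  MeasurableSet.iUnion fun _ => Metric.isClosed_closedBall.measurableSet

variable {D : K2iDat} {σ C : ℝ} {k : ℕ}

theorem k2i_A_pos (h : D.Bad σ C k) : 0 < C * (k : ℝ) ^ 2 ∧ 0 < (Fintype.card D.ι : ℝ) := by
  have h1 : (0 : ℝ) < C * (k : ℝ) ^ 2 * Fintype.card D.ι := lt_of_lt_of_le (by positivity) h.card
  have h2 : (0 : ℝ) ≤ (Fintype.card D.ι : ℝ) := Nat.cast_nonneg _
  have h3 : (0 : ℝ) < (Fintype.card D.ι : ℝ) := by
    rcases h2.lt_or_eq with h | h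
    · exact h
    · rw [← h, mul_zero] at h1
      exact absurd h1 (lt_irrefl _)
  exact ⟨(pos_iff_pos_of_mul_pos h1).2 h3, h3⟩

theorem k2i_nonempty (h : D.Bad σ C k) : Nonempty D.ι := by
  have h1 := (k2i_A_pos h).2
  exact Fintype.card_pos_iff.1 (by exact_mod_cast h1)

theorem k2i_sep (h : D.Bad σ C k) : K2bSep (1 / 2 ^ k) D.s := h.sep

theorem k2i_sp_bd (h : D.Bad σ C k) {l : K2iLn} (hl : l ∈ D.Sp k) (a : Fin 3) :
    (-(1 / 4) ≤ l.1 a ∧ l.1 a ≤ 17 / 4) ∧ (-(1 / 4) ≤ l.2 a ∧ l.2 a ≤ 5 / 4) := by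
  obtain ⟨i, hi⟩ := Set.mem_iUnion.1 hl
  rw [k2b_mem_box _ _ _ (k2i_rad_pos k).le] at hi
  have h1 := abs_le.1 ((hi.1 a).trans (k2i_rad_le k))
  have h2 := abs_le.1 ((hi.2 a).trans (k2i_rad_le k))
  have h3 := h.hb i a
  have h4 := h.hs i a
  refine ⟨⟨?_, ?_⟩, ⟨?_, ?_⟩⟩ <;> linarith [h1.1, h1.2, h2.1, h2.2, h3.1, h3.2, h4.1, h4.2]

theorem k2i_pos_bd (h : D.Bad σ C k) {l : K2iLn} (hl : l ∈ D.Sp k) {t : ℝ} (ht : t ∈ Set.Icc (0 : ℝ) 1) (a : Fin 3) :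
    |k2bPos l t a| ≤ 11 / 2 := by
  obtain ⟨⟨h1, h2⟩, ⟨h3, h4⟩⟩ := k2i_sp_bd h hl a
  unfold k2bPos
  rw [abs_le]
  constructor <;> nlinarith [ht.1, ht.2]

theorem k2i_Y_norm (h : D.Bad σ C k) {l : K2iLn} (hl : l ∈ D.Sp k) {t : ℝ} (ht : t ∈ Set.Icc (0 : ℝ) 1) :
    ‖kbY (k2iCo l) t‖ ≤ 11 / 2 := by
  rw [pi_norm_le_iff_of_nonneg (by norm_num)]
  intro a
  exact k2i_pos_bd h hl ht (Fin.castSucc (a : Fin 2))

theorem k2i_V_norm (h : D.Bad σ C k) {l : K2iLn} (hl : l ∈ D.Sp k) : ‖kbV (k2iCo l)‖ ≤ 5 / 4 := by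
  rw [pi_norm_le_iff_of_nonneg (by norm_num)]
  intro a
  obtain ⟨-, ⟨h3, h4⟩⟩ := k2i_sp_bd h hl (Fin.castSucc (a : Fin 2))
  rw [Real.norm_eq_abs, abs_le]
  constructor
  · show -(5 / 4) ≤ l.2 (Fin.castSucc (a : Fin 2))
    linarith
  · exact h4

theorem k2i_co_norm (h : D.Bad σ C k) {l : K2iLn} (hl : l ∈ D.Sp k) : ‖k2iCo l‖ ≤ 17 / 4 := by
  have hx : ∀ x : Fin 3 → ℝ, (∀ a, -(1 / 4) ≤ x a ∧ x a ≤ 17 / 4) → ‖k2bY x‖ ≤ 17 / 4 := by
    intro x hx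
    rw [pi_norm_le_iff_of_nonneg (by norm_num)]
    intro a
    rw [Real.norm_eq_abs, abs_le]
    have := hx (Fin.castSucc a)
    constructor
    · show -(17 / 4) ≤ x (Fin.castSucc a)
      linarith [this.1]
    · exact this.2
  refine max_le (hx _ fun a => (k2i_sp_bd h hl a).1) (max_le (hx _ fun a => ?_) ?_)
  · have := (k2i_sp_bd h hl a).2
    exact ⟨this.1, by linarith [this.2]⟩
  · show ‖(![l.1 2, l.2 2] : Fin 2 → ℝ)‖ ≤ 17 / 4
    rw [pi_norm_le_iff_of_nonneg (by norm_num)]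
    have h2 := k2i_sp_bd h hl 2
    intro a
    rw [Real.norm_eq_abs, abs_le]
    fin_cases a
    · exact ⟨by show -(17 / 4) ≤ l.1 2; linarith [h2.1.1], h2.1.2⟩
    · exact ⟨by show -(17 / 4) ≤ l.2 2; linarith [h2.2.1], by show l.2 2 ≤ 17 / 4; linarith [h2.2.2]⟩

/-- the push-forward of the prior has a polynomially bounded density -/
theorem k2i_dens (D : K2iDat) (k : ℕ) :
    (k2bPrior D.b D.s (1 / 2 ^ (k + 2))).map k2iCo ≤ ENNReal.ofReal (2 ^ (6 * k + 6)) • volume := by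
  have h1 := k2b_prior_le D.b D.s (1 / 2 ^ (k + 2)) (k2i_rad_pos k)
  have e : (1 : ℝ) / (2 * (1 / 2 ^ (k + 2))) ^ 6 = 2 ^ (6 * k + 6) := by
    rw [k2i_rad_two, div_pow, one_pow, one_div_one_div, ← pow_mul]
    congr 1
    ring
  rw [e] at h1
  calc (k2bPrior D.b D.s (1 / 2 ^ (k + 2))).map k2iCo ≤ (ENNReal.ofReal (2 ^ (6 * k + 6)) • volume).map k2iCo :=
        Measure.map_mono h1 k2i_co_meas
    _ = ENNReal.ofReal (2 ^ (6 * k + 6)) • volume := by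
        rw [Measure.map_smul, k2i_mp_co.map_eq]

theorem k2i_wf (h : D.Bad σ C k) : (D.pb k).WF where
  om_sum := by
    show ∑ _γ : Unit, (1 : ℝ≥0∞) = 1
    simp
  prob := fun _ => by
    have := k2i_nonempty h
    exact k2b_prior_prob D.b D.s _ (k2i_rad_pos k)
  co_meas := fun _ => k2i_co_meas
  Sp_meas := fun _ => k2i_sp_meas D k
  Sp_full := fun _ => k2b_prior_supp D.b D.s _
  Ev_meas := fun _ => (k2i_ev_meas k _).inter ((k2i_sp_meas D k).prod measurableSet_Icc)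
  Ev_sub := fun _ => Set.inter_subset_right
  B_pos := fun _ => one_pos
  Pst_adm := fun _ => kbs_T_adm _
  v1 := fun h => by cases h
  ac := fun _ => Measure.absolutelyContinuous_of_le_smul (k2i_dens D k)

theorem k2i_tm_compl : KbPb.tm (Set.Icc (0 : ℝ) 1)ᶜ = 0 := by
  unfold KbPb.tm
  rw [Measure.restrict_apply measurableSet_Icc.compl, Set.compl_inter_self, measure_empty]

theorem k2i_conull (D : K2iDat) (k : ℕ) :
    ((k2bPrior D.b D.s (1 / 2 ^ (k + 2))).prod KbPb.tm) (D.Sp k ×ˢ Set.Icc (0 : ℝ) 1)ᶜ = 0 := by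
  have hsub : (D.Sp k ×ˢ Set.Icc (0 : ℝ) 1)ᶜ ⊆ ((D.Sp k)ᶜ ×ˢ Set.univ) ∪ (Set.univ ×ˢ (Set.Icc (0 : ℝ) 1)ᶜ) := by
    intro x hx
    by_cases h1 : x.1 ∈ D.Sp k
    · right
      exact ⟨trivial, fun h2 => hx ⟨h1, h2⟩⟩
    · left
      exact ⟨h1, trivial⟩
  have h0 : k2bPrior D.b D.s (1 / 2 ^ (k + 2)) (D.Sp k)ᶜ = 0 := k2b_prior_supp D.b D.s _
  refine measure_mono_null hsub (measure_union_null ?_ ?_)
  · exact le_antisymm ((Measure.prod_prod_le _ _).trans (by rw [h0, zero_mul])) zero_le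
  · exact le_antisymm ((Measure.prod_prod_le _ _).trans (by rw [k2i_tm_compl, mul_zero])) zero_le

theorem k2i_mu (D : K2iDat) (k : ℕ) (γ : (D.pb k).W) : (D.pb k).mu γ
    = ((k2bPrior D.b D.s (1 / 2 ^ (k + 2))).prod KbPb.tm).restrict (k2bEv k (D.Vis k) ∩ (D.Sp k ×ˢ Set.Icc (0 : ℝ) 1)) := rfl

theorem k2i_mass_eq (D : K2iDat) (k : ℕ) (S : (D.pb k).W → Set ((D.pb k).Lam × ℝ)) (γ : (D.pb k).W) :
    (D.pb k).mass S = (D.pb k).mu γ (S γ) := by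
  have h : ∀ (F : Unit → ℝ≥0∞) (u : Unit), ∑ γ' : Unit, (1 : ℝ≥0∞) * F γ' = F u := by
    intro F u
    simp
  exact h (fun γ' => (D.pb k).mu γ' (S γ')) γ

theorem k2i_tot (D : K2iDat) (k : ℕ) : (D.pb k).tot = ((k2bPrior D.b D.s (1 / 2 ^ (k + 2))).prod KbPb.tm) (k2bEv k (D.Vis k)) := by
  have e : (D.pb k).tot = (((k2bPrior D.b D.s (1 / 2 ^ (k + 2))).prod KbPb.tm).restrict
      (k2bEv k (D.Vis k) ∩ (D.Sp k ×ˢ Set.Icc (0 : ℝ) 1))) Set.univ := k2i_mass_eq D k _ ()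
  rw [e, Measure.restrict_apply_univ, measure_inter_conull (k2i_conull D k)]

theorem k2i_vis_mem (D : K2iDat) (k : ℕ) (i : D.ι) (j : ℕ) (hj : j ∈ D.J i) : gluCell k (D.b i) (D.s i) j ∈ D.Vis k := by
  unfold K2iDat.Vis
  exact Finset.mem_biUnion.2 ⟨i, Finset.mem_univ _, Finset.mem_image.2 ⟨j, hj, rfl⟩⟩

/-- the selected mass is at least `1 / (C k²)` -/
theorem k2i_mass (h : D.Bad σ C k) : ENNReal.ofReal (1 / (C * (k : ℝ) ^ 2)) ≤ (D.pb k).tot := by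
  rw [k2i_tot]
  refine le_trans (ENNReal.ofReal_le_ofReal ?_)
    (k2b_mass_floor k D.b D.s D.J (D.Vis k) h.hs (fun i => (h.hJ i).1) fun i j hj => k2i_vis_mem D k i j hj)
  obtain ⟨hA, hc⟩ := k2i_A_pos h
  rw [div_le_div_iff₀ hA (by positivity)]
  calc 1 * ((Fintype.card D.ι : ℝ) * 2 ^ k) = ∑ _i : D.ι, (2 : ℝ) ^ k := by
        rw [Finset.sum_const, Finset.card_univ, nsmul_eq_mul, one_mul]
    _ ≤ ∑ i : D.ι, C * (k : ℝ) ^ 2 * ((D.J i).card : ℝ) := Finset.sum_le_sum fun i _ => (h.hJ i).2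
    _ = (∑ i : D.ι, ((D.J i).card : ℝ)) * (C * (k : ℝ) ^ 2) := by rw [← Finset.mul_sum, mul_comm]

theorem k2i_ntv (h : D.Bad σ C k) {K : ℝ} (h7 : 7 ≤ K) (hK : C * (k : ℝ) ^ 2 ≤ K) : (D.pb k).Ntv K where
  base := fun _ (l : K2iLn) hl t ht => by
    have h1 := k2i_Y_norm h hl ht
    have h2 := k2i_V_norm h hl
    show ‖kbY (k2iCo l) t‖ + ‖kbV (k2iCo l)‖ ≤ K
    linarith
  sig := fun _ (l : K2iLn) hl t ht => by
    show |kbW (k2iCo l) t| ≤ K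
    rw [k2i_co_W]
    linarith [k2i_pos_bd h hl ht 2]
  dw := fun _ (l : K2iLn) hl t ht => by
    show |kbDw (kbsT KbVer.two) t (kbY (k2iCo l) t) (kbW (k2iCo l) t)| ≤ K * 1
    rw [kbs_T_dw, abs_one]
    linarith
  dw_low := fun _ (x : K2iLn × ℝ) hx => by
    show (1 : ℝ) ≤ K * |kbDw (kbsT KbVer.two) x.2 (kbY (k2iCo x.1) x.2) (kbW (k2iCo x.1) x.2)|
    rw [kbs_T_dw, abs_one]
    linarith
  dww := fun _ t y w => by
    show |kbDww (kbsT KbVer.two) t y w| ≤ K * 1 ^ 2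
    rw [kbs_T_dww, abs_zero]
    linarith
  mass := by
    have hA := (k2i_A_pos h).1
    calc (1 : ℝ≥0∞) = ENNReal.ofReal 1 := ENNReal.ofReal_one.symm
      _ ≤ ENNReal.ofReal (K * (1 / (C * (k : ℝ) ^ 2))) :=
          ENNReal.ofReal_le_ofReal (by rw [mul_one_div, le_div_iff₀ hA]; linarith)
      _ = ENNReal.ofReal K * ENNReal.ofReal (1 / (C * (k : ℝ) ^ 2)) := ENNReal.ofReal_mul (by linarith)
      _ ≤ _ := by
          gcongr
          exact k2i_mass h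

theorem k2i_tmp (h : D.Bad σ C k) {Q : ℝ} (hQ : 2 ^ (6 * k + 6) ≤ Q) : (D.pb k).Tmp Q := by
  have h64 : (64 : ℝ) ≤ Q := by
    refine le_trans ?_ hQ
    have h1 : (1 : ℝ) ≤ 2 ^ (6 * k) := one_le_pow₀ (by norm_num)
    rw [pow_add]
    linarith
  refine ⟨?_, fun _ => ⟨?_, ?_⟩, fun _ l hl => (k2i_co_norm h hl).trans (by linarith), fun _ => (k2i_dens D k).trans ?_⟩
  · show ((Fintype.card Unit : ℕ) : ℝ) ≤ Q
    rw [Fintype.card_unit]
    push_cast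
    linarith
  · show (1 : ℝ) ≤ Q
    linarith
  · show (1 : ℝ) ≤ Q * 1
    linarith
  · refine Measure.le_iff'.2 fun s => ?_
    rw [Measure.smul_apply, Measure.smul_apply, smul_eq_mul, smul_eq_mul]
    gcongr

end

end Claimed.Agent.R252
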