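import Claimed.Agent.R252.S2b.Defs

/-!
# Row 252, unit S2b, file 5: the endpoint and the angular scale      (architect helper264)

02-framework.tex l.1367-1396 and l.1438-1452: pure real analysis on the limiting exponent `g(r,u) = r - f(r,u)`.
-/

set_option autoImplicit false

namespace Claimed.Agent.R252

/-- **Selecting an endpoint and an angular scale** (02 (2.37)-(2.38), (2.40)).   `g` continuous on `[0,1] × [0,4]`, `g(1,0) ≥ σ`, `g(0,0) ≤ 0`, `g(r,u) ≤ r + 2 - 2u`, `g` nonincreasing in `u`.   A maximiser `(r₀,u₀)` of `g - R r + S u` has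
`r₀ > 0`, `u₀ < 4`, `g(r₀,u₀) ≥ σ/2`, and with `f = r - g`: the endpoint cap with `d = 1 - R` and the angular growth with `S`. -/
theorem k2b_maximiser (g : ℝ → ℝ → ℝ) (σ R S : ℝ) (hR : 0 < R) (hS : 0 < S) (hRS : R + 4 * S < σ / 2)
    (hS1 : S < 1 / 10)
    (hcont : ContinuousOn (fun p : ℝ × ℝ => g p.1 p.2) (Set.Icc (0 : ℝ) 1 ×ˢ Set.Icc (0 : ℝ) 4))
    (h10 : σ ≤ g 1 0) (h00 : g 0 0 ≤ 0)
    (hub : ∀ r ∈ Set.Icc (0 : ℝ) 1, g r 4 ≤ r + 2 - 2 * 4)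
    (hmono : ∀ u ∈ Set.Icc (0 : ℝ) 4, g 0 u ≤ g 0 0) :
    ∃ r0 u0 : ℝ, 0 < r0 ∧ r0 ≤ 1 ∧ 0 ≤ u0 ∧ u0 < 4 ∧ σ / 2 ≤ g r0 u0 ∧
      (∀ s ∈ Set.Icc (0 : ℝ) r0, (r0 - g r0 u0) - (s - g s u0) ≤ (1 - R) * (r0 - s)) ∧
      (∀ u, 0 ≤ u → u ≤ 4 - u0 → S * u ≤ (r0 - g r0 (u0 + u)) - (r0 - g r0 u0)) := by
  have hcomp : IsCompact (Set.Icc (0 : ℝ) 1 ×ˢ Set.Icc (0 : ℝ) 4) := isCompact_Icc.prod isCompact_Icc
  have hne : (Set.Icc (0 : ℝ) 1 ×ˢ Set.Icc (0 : ℝ) 4).Nonempty :=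
    ⟨(0, 0), ⟨⟨le_refl _, by norm_num⟩, ⟨le_refl _, by norm_num⟩⟩⟩
  have hc2 : ContinuousOn (fun p : ℝ × ℝ => g p.1 p.2 - R * p.1 + S * p.2)
      (Set.Icc (0 : ℝ) 1 ×ˢ Set.Icc (0 : ℝ) 4) := by
    refine (hcont.sub ?_).add ?_
    · exact (continuous_const.mul continuous_fst).continuousOn
    · exact (continuous_const.mul continuous_snd).continuousOn
  obtain ⟨⟨r0, u0⟩, ⟨⟨hr0a, hr0b⟩, ⟨hu0a, hu0b⟩⟩, hmax⟩ := hcomp.exists_isMaxOn hne hc2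
  have hmax' : ∀ r ∈ Set.Icc (0 : ℝ) 1, ∀ u ∈ Set.Icc (0 : ℝ) 4,
      g r u - R * r + S * u ≤ g r0 u0 - R * r0 + S * u0 := fun r hr u hu =>
    hmax (a := (r, u)) ⟨hr, hu⟩
  simp only at hr0a hr0b hu0a hu0b
  have h1 := hmax' 1 ⟨by norm_num, le_refl _⟩ 0 ⟨le_refl _, by norm_num⟩
  have hr0 : 0 < r0 := by
    rcases hr0a.lt_or_eq with h | h
    · exact h
    · exfalso
      have h2 := hmono u0 ⟨hu0a, hu0b⟩
      rw [← h] at h1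
      nlinarith
  have hu0 : u0 < 4 := by
    rcases hu0b.lt_or_eq with h | h
    · exact h
    · exfalso
      have h2 := hub r0 ⟨hr0a, hr0b⟩
      rw [h] at h1
      nlinarith
  refine ⟨r0, u0, hr0, hr0b, hu0a, hu0, ?_, ?_, ?_⟩
  · nlinarith
  · intro s hs
    have := hmax' s ⟨hs.1, hs.2.trans hr0b⟩ u0 ⟨hu0a, hu0b⟩
    nlinarith
  · intro u hu1 hu2
    have := hmax' r0 ⟨hr0a, hr0b⟩ (u0 + u) ⟨by linarith, by linarith⟩
    nlinarith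

/-- continuity of the exponent from the Lipschitz bounds of homogenisation (02 Lemma 2.5: `f` is `1`-Lipschitz in `r` and `2`-Lipschitz in `u`) -/
theorem k2b_cont_of_lip (f : ℝ → ℝ → ℝ) (A B : Set ℝ)
    (h1 : ∀ r ∈ A, ∀ r' ∈ A, ∀ u ∈ B, |f r u - f r' u| ≤ |r - r'|)
    (h2 : ∀ r ∈ A, ∀ u ∈ B, ∀ u' ∈ B, |f r u - f r u'| ≤ 2 * |u - u'|) :
    ContinuousOn (fun p : ℝ × ℝ => p.1 - f p.1 p.2) (A ×ˢ B) := by
  refine continuous_fst.continuousOn.sub ?_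
  rw [Metric.continuousOn_iff]
  rintro ⟨r, u⟩ ⟨hr, hu⟩ ε hε
  refine ⟨ε / 4, by positivity, ?_⟩
  rintro ⟨r', u'⟩ ⟨hr', hu'⟩ hd
  simp only at hr hu hr' hu'
  rw [Prod.dist_eq, max_lt_iff, Real.dist_eq, Real.dist_eq] at hd
  simp only at hd
  rw [Real.dist_eq]
  have e1 := h1 r' hr' r hr u' hu'
  have e2 := h2 r hr u' hu' u hu
  calc |f r' u' - f r u| = |(f r' u' - f r u') + (f r u' - f r u)| := by ring_nf
    _ ≤ |f r' u' - f r u'| + |f r u' - f r u| := abs_add_le _ _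
    _ ≤ |r' - r| + 2 * |u' - u| := add_le_add e1 e2
    _ < ε := by linarith [hd.1, hd.2]

end Claimed.Agent.R252
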