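import Claimed.Agent.R252.S2b.InitProf
import Claimed.Agent.R252.S2b.Max

/-!
# Row 252 (S0492), unit S2b-INIT, file 5: the homogeneous initial problem, its endpoint and its angular scale      (helper171, prefix `k2i_`)

02-framework.tex l.1286-1296 and l.1367-1396, l.1438-1452.   Homogenisation (`k2a_hub_homog`) of the initial exact problem `Q.ex`, the three inequalities `k2i_profile`, continuity of the profile (`k2a_hub_profile_*`) and `k2b_maximiser`.
EXIT: `k2i_endpoint`.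
-/

set_option autoImplicit false

namespace Claimed.Agent.R252

open MeasureTheory Filter Topology
open Claimed.Agent.R255 (uf)
open scoped ENNReal BigOperators

noncomputable section

/-- a function on a rectangle which is monotone and Lipschitz in each variable is continuous -/
theorem k2i_cont (f : ℝ → ℝ → ℝ) (A B : ℝ)
    (h1 : ∀ r r' u : ℝ, 0 ≤ r → r ≤ r' → r' ≤ A → 0 ≤ u → f r u ≤ f r' u ∧ f r' u - f r u ≤ r' - r)
    (h2 : ∀ r u u' : ℝ, 0 ≤ r → r ≤ A → 0 ≤ u → u ≤ u' → f r u ≤ f r u' ∧ f r u' - f r u ≤ 2 * (u' - u)) :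
    ContinuousOn (fun p : ℝ × ℝ => p.1 - f p.1 p.2) (Set.Icc (0 : ℝ) A ×ˢ Set.Icc (0 : ℝ) B) := by
  have hr : ∀ r r' u : ℝ, 0 ≤ r → r ≤ A → 0 ≤ r' → r' ≤ A → 0 ≤ u → |f r u - f r' u| ≤ |r - r'| := by
    intro r r' u a1 a2 a3 a4 a5
    rcases le_total r r' with h | h
    · have := h1 r r' u a1 h a4 a5
      rw [abs_sub_comm, abs_of_nonneg (by linarith [this.1]), abs_sub_comm, abs_of_nonneg (by linarith)]
      exact this.2
    · have := h1 r' r u a3 h a2 a5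
      rw [abs_of_nonneg (by linarith [this.1]), abs_of_nonneg (by linarith)]
      exact this.2
  have hu : ∀ r u u' : ℝ, 0 ≤ r → r ≤ A → 0 ≤ u → 0 ≤ u' → |f r u - f r u'| ≤ 2 * |u - u'| := by
    intro r u u' a1 a2 a3 a4
    rcases le_total u u' with h | h
    · have := h2 r u u' a1 a2 a3 h
      rw [abs_sub_comm, abs_of_nonneg (by linarith [this.1]), abs_sub_comm, abs_of_nonneg (by linarith)]
      exact this.2
    · have := h2 r u' u a1 a2 a4 h
      rw [abs_of_nonneg (by linarith [this.1]), abs_of_nonneg (by linarith)]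
      exact this.2
  refine LipschitzOnWith.continuousOn (K := 4) (LipschitzOnWith.of_dist_le_mul ?_)
  rintro ⟨r, u⟩ ⟨⟨a1, a2⟩, ⟨a3, -⟩⟩ ⟨r', u'⟩ ⟨⟨b1, b2⟩, ⟨b3, -⟩⟩
  simp only at a1 a2 a3 b1 b2 b3
  rw [Real.dist_eq, Prod.dist_eq, Real.dist_eq, Real.dist_eq]
  have c1 := hr r r' u a1 a2 b1 b2 a3
  have c2 := hu r' u u' b1 b2 a3 b3
  have c3 : |r - r'| ≤ max |r - r'| |u - u'| := le_max_left _ _
  have c4 : |u - u'| ≤ max |r - r'| |u - u'| := le_max_right _ _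
  have e : r - f r u - (r' - f r' u') = (r - r') - (f r u - f r' u) - (f r' u - f r' u') := by ring
  show |r - f r u - (r' - f r' u')| ≤ ((4 : NNReal) : ℝ) * max |r - r'| |u - u'|
  rw [e]
  have d1 := abs_sub ((r - r') - (f r u - f r' u)) (f r' u - f r' u')
  have d2 := abs_sub (r - r') (f r u - f r' u)
  push_cast
  linarith

variable {σ C : ℝ}

/-- **the homogeneous initial problem with its endpoint `(r₀, u₀)`** : cap constants `d = 1 - R`, `S₀`; `g(r₀,u₀) = r₀ - f(r₀,u₀) ≥ σ/2` -/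
theorem k2i_endpoint (H : K2bPlankFin) (hσ : 0 < σ) (Q : K2iSeq σ C) :
    ∃ (S : Q.ex.Sel) (f : ℝ → ℝ → ℝ) (r0 u0 R S0 : ℝ),
      (∀ᶠ n in uf, ∀ γ, MeasurableSet (S n γ)) ∧ (Q.ex.sel S).Ok ∧ (Q.ex.sel S).Hom f ∧
      0 < r0 ∧ r0 ≤ 1 ∧ 0 ≤ u0 ∧ u0 < 4 ∧ 0 < R ∧ R < 1 ∧ 0 < S0 ∧ σ / 2 ≤ r0 - f r0 u0 ∧
      (∀ s ∈ Set.Icc (0 : ℝ) r0, f r0 u0 - f s u0 ≤ (1 - R) * (r0 - s)) ∧
      (∀ u, 0 ≤ u → u ≤ 4 - u0 → S0 * u ≤ f r0 (u0 + u) - f r0 u0) := by
  obtain ⟨S, f, ⟨hSm, hSd⟩, hf⟩ := k2a_hub_homog Q.ex (k2i_ok Q)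
  have hF : (Q.ex.sel S).Ok := k2a_hub_sel_ok Q.ex (k2i_ok Q) S hSm hSd
  obtain ⟨p1, p2, p3⟩ := k2i_profile H S hF f hf
  have hL : (Q.ex.sel S).L = 1 := rfl
  obtain ⟨m, hm⟩ : ∃ m : ℝ, m = min σ 1 := ⟨_, rfl⟩
  have hm0 : 0 < m := by rw [hm]; exact lt_min hσ one_pos
  have hmσ : m ≤ σ := by rw [hm]; exact min_le_left _ _
  have hm1 : m ≤ 1 := by rw [hm]; exact min_le_right _ _
  have hcont := k2i_cont f 1 4
    (fun r r' u a1 a2 a3 a4 => ⟨k2a_hub_profile_r_mono _ hF f hf r r' u a1 a2 (by rw [hL]; exact a3) a4,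
      k2a_hub_profile_r_lip _ hF f hf r r' u a1 a2 (by rw [hL]; exact a3) a4⟩)
    (fun r u u' a1 a2 a3 a4 => ⟨k2a_hub_profile_u_mono _ hF f hf r u u' a1 (by rw [hL]; exact a2) a3 a4, by
      have := k2a_hub_profile_u_lip _ hF f hf r u u' a1 (by rw [hL]; exact a2) a3 a4
      have e : ((KbVer.two.j : ℕ) : ℝ) = 2 := by norm_num [KbVer.j]
      rw [e] at this
      exact this⟩)
  obtain ⟨r0, u0, h1, h2, h3, h4, h5, h6, h7⟩ := k2b_maximiser (fun r u => r - f r u) σ (m / 8) (m / 40) (by positivity) (by positivity)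
    (by linarith) (by linarith) hcont (by show σ ≤ 1 - f 1 0; linarith) (by show 0 - f 0 0 ≤ 0; linarith)
    (fun r hr => by
      have := p3 r hr 4 (by norm_num)
      show r - f r 4 ≤ r + 2 - 2 * 4
      linarith)
    (fun u hu => by
      have := k2a_hub_profile_u_mono _ hF f hf 0 0 u le_rfl (by rw [hL]; exact zero_le_one) le_rfl hu.1
      show 0 - f 0 u ≤ 0 - f 0 0
      linarith)
  refine ⟨S, f, r0, u0, m / 8, m / 40, hSm, hF, hf, h1, h2, h3, h4, by positivity, by linarith, by positivity, h5, ?_, ?_⟩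
  · intro s hs
    have := h6 s hs
    linarith
  · intro u a1 a2
    have := h7 u a1 a2
    linarith

end

end Claimed.Agent.R252
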