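import Claimed.Agent.R252.S2b.Init

/-!
# Row 252 (S0492), unit S2b-INIT, file 2: the initial EXACT problem      (helper171, prefix `k2i_`)

`K2iSeq σ C` = a sequence of bad scales `k n ≥ n + 1` with their data (EVERY index carries a bad scale: no subsequences);  `k2i_seq_exists` : it exists under the hypothesis of `kb_reduction`.
`Q.res` : `N n = 2^(k n)`;   `Q.ex : KbEx KbVer.two` (`L = 1`);   **`k2i_ok : Q.ex.Ok`**.
-/

set_option autoImplicit false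

namespace Claimed.Agent.R252

open MeasureTheory Filter Topology
open Claimed.Agent.R255 (uf)
open scoped ENNReal BigOperators

noncomputable section

/-- a sequence of bad scales -/
structure K2iSeq (σ C : ℝ) where
  k : ℕ → ℕ
  D : ℕ → K2iDat
  k_ge : ∀ n, n + 1 ≤ k n
  bad : ∀ n, (D n).Bad σ C (k n)

theorem k2i_seq_exists (σ C : ℝ) (h : ∀ k0 : ℕ, ∃ k, k0 ≤ k ∧ GluBad σ C k) : Nonempty (K2iSeq σ C) := by
  have h1 : ∀ n : ℕ, ∃ (k : ℕ) (D : K2iDat), n + 1 ≤ k ∧ D.Bad σ C k := by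
    intro n
    obtain ⟨k, hk, hb⟩ := h (n + 1)
    obtain ⟨D, hD⟩ := (k2i_bad_iff σ C k).1 hb
    exact ⟨k, D, hk, hD⟩
  choose k D hk hD using h1
  exact ⟨⟨k, D, hk, hD⟩⟩

namespace K2iSeq

variable {σ C : ℝ} (Q : K2iSeq σ C)

/-- the resolution `N = δ^{-1} = 2^k` -/
def res : KbRes where
  N := fun n => 2 ^ Q.k n
  two_le := fun n => by
    have h1 : 1 ≤ Q.k n := le_trans (Nat.le_add_left 1 n) (Q.k_ge n)
    calc (2 : ℝ) = 2 ^ 1 := (pow_one _).symm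
      _ ≤ 2 ^ Q.k n := pow_le_pow_right₀ (by norm_num) h1
  lim := by
    have h1 : Tendsto Q.k atTop atTop := tendsto_atTop_mono (fun n => le_trans (Nat.le_succ n) (Q.k_ge n)) tendsto_id
    exact ((tendsto_pow_atTop_atTop_of_one_lt (by norm_num : (1 : ℝ) < 2)).comp h1).mono_left Claimed.Agent.R255.uf_le_atTop

/-- **the initial exact problem** -/
def ex : KbEx KbVer.two where
  R := Q.res
  L := 1
  P := fun n => (Q.D n).pb (Q.k n)

theorem N_eq (n : ℕ) : Q.ex.R.N n = 2 ^ Q.k n := rfl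

theorem P_eq (n : ℕ) : Q.ex.P n = (Q.D n).pb (Q.k n) := rfl

theorem L_eq : Q.ex.L = 1 := rfl

end K2iSeq

theorem k2i_seq_eqns_cite : True := by
  have := @K2iSeq.res.eq_1
  have := @K2iSeq.ex.eq_1
  trivial

variable {σ C : ℝ} (Q : K2iSeq σ C)

/-- `k ≤ 2 log N` -/
theorem k2i_k_le_log (n : ℕ) : (Q.k n : ℝ) ≤ 2 * Real.log (Q.ex.R.N n) := by
  rw [Q.N_eq, Real.log_pow]
  have h1 : (0.5 : ℝ) < Real.log 2 := lt_trans (by norm_num) Real.log_two_gt_d9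
  have h2 : (0 : ℝ) ≤ Q.k n := Nat.cast_nonneg _
  nlinarith

/-- the slack of the native bounds is subpower -/
theorem k2i_slack_subp : KbSubP Q.ex.R fun n => max 7 (C * (Q.k n : ℝ) ^ 2) := by
  have h0 : KbSubP Q.ex.R fun n => (7 + 4 * |C|) * ((1 + Real.log (Q.ex.R.N n)) * (1 + Real.log (Q.ex.R.N n))) :=
    kb_subp_mul _ (kb_subp_const _ (by have := abs_nonneg C; linarith)) (kb_subp_mul _ (kb_subp_log _) (kb_subp_log _))
  refine kb_subp_mono _ h0 (Eventually.of_forall fun n => ⟨le_trans (by norm_num) (le_max_left _ _), ?_⟩)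
  have hl : 0 ≤ Real.log (Q.ex.R.N n) := Real.log_nonneg (kb_res_one_le _ n)
  have hk := k2i_k_le_log Q n
  have hk0 : (0 : ℝ) ≤ Q.k n := Nat.cast_nonneg _
  have hC := abs_nonneg C
  have hsq : (1 : ℝ) ≤ (1 + Real.log (Q.ex.R.N n)) * (1 + Real.log (Q.ex.R.N n)) := by nlinarith
  refine max_le ?_ ?_
  · nlinarith
  · have h1 : C * (Q.k n : ℝ) ^ 2 ≤ |C| * (Q.k n : ℝ) ^ 2 := mul_le_mul_of_nonneg_right (le_abs_self C) (by positivity)
    have h2 : (Q.k n : ℝ) ^ 2 ≤ 4 * ((1 + Real.log (Q.ex.R.N n)) * (1 + Real.log (Q.ex.R.N n))) := by nlinarith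
    have h3 : |C| * (Q.k n : ℝ) ^ 2 ≤ |C| * (4 * ((1 + Real.log (Q.ex.R.N n)) * (1 + Real.log (Q.ex.R.N n)))) :=
      mul_le_mul_of_nonneg_left h2 hC
    nlinarith

theorem k2i_wf_all (n : ℕ) : (Q.ex.P n).WF := k2i_wf (Q.bad n)

theorem k2i_tmp_all (n : ℕ) : (Q.ex.P n).Tmp (Q.ex.R.N n ^ (12 : ℝ)) := by
  refine k2i_tmp (Q.bad n) ?_
  have h1 : 1 ≤ Q.k n := le_trans (Nat.le_add_left 1 n) (Q.k_ge n)
  rw [Q.N_eq]
  have e : ((2 : ℝ) ^ Q.k n) ^ (12 : ℝ) = 2 ^ (12 * Q.k n) := by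
    rw [show (12 : ℝ) = ((12 : ℕ) : ℝ) by norm_num, Real.rpow_natCast, ← pow_mul, mul_comm]
  rw [e]
  exact pow_le_pow_right₀ (by norm_num) (by omega)

theorem k2i_ntv_ev (τ : ℝ) (hτ : 0 < τ) : ∀ᶠ n in uf, (Q.ex.P n).Ntv (Q.ex.R.N n ^ τ) := by
  filter_upwards [k2i_slack_subp Q τ hτ] with n hn
  exact k2i_ntv (Q.bad n) ((le_max_left _ _).trans hn.2) ((le_max_right _ _).trans hn.2)

/-- **the initial exact problem is a tempered exact problem** (Def 2.1 + 2.2) -/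
theorem k2i_ok : Q.ex.Ok :=
  ⟨one_pos, ⟨12, Eventually.of_forall fun n => ⟨k2i_wf_all Q n, k2i_tmp_all Q n⟩⟩, k2i_ntv_ev Q⟩

end

end Claimed.Agent.R252
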