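-- KEEP
import Claimed.Agent.R252.Base.Sys
import Claimed.Agent.R252.S2b.Defs
import Claimed.Agent.R252.S2b.Init
import Claimed.Agent.R252.Norm.Coord
import Claimed.Agent.R252.S2b.InitSeq
import Claimed.Agent.R252.Norm.Seq
import Claimed.Agent.R252.Slope.Exit
import Claimed.Agent.R252.S2b.InitEnd

/-! PACKED FILE (helper123, closed unit S2b-HOR + assembly of T2.17): parts S2b.HorDefs, S2b.HorCore, S2b.HorSeq, S2b.HorSlope, S2b.Assembly.  Each part is wrapped in its own `section`. -/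

section PkS2bHorDefs

/-!
# Row 252 (S0492), unit S2b-HOR (positive horizon, 02-framework.tex l.1456-1652), file 1: definitions      (helper123, prefix `k2h`)

* `k2hSig` : the set `Σ` of the eligible slopes of a chart (02 l.1496-1512): geometric tests only, in the words of unit BASE and in the coordinates of `S2b/Defs`.
* `K2hSlope C` : the slope-volume bound (2.42) AS A PROPOSITION = the exit of unit SLOPE (box 7).  It is a hypothesis of `HorCore`, `HorSeq` and is PROVED in `HorSlope.lean` (`k2h_slope`) from `slr_exit`.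
-/

set_option autoImplicit false

namespace Claimed.Agent.R252

open MeasureTheory
open scoped ENNReal

/-- eligible slopes of a chart with test `T`, centre `y0 + t y1`, inverse matrix `Di`, interval `[t0, t0 + q)`, slack `K`, thickness `a`; `R` bounds slope, intercept and the hidden coordinate on the interval -/
def k2hSig (T : KbTest KbVer.two) (y0 y1 : Fin 2 → ℝ) (Di : Matrix (Fin 2) (Fin 2) ℝ) (t0 q K a R : ℝ) : Set (Fin 3 → ℝ) :=
  {s | (∀ i, |s i| ≤ R) ∧ ∃ b : Fin 3 → ℝ, (∀ i, |b i| ≤ R) ∧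
      (∀ t ∈ Set.Ico t0 (t0 + q),
          ‖Di.mulVec (k2bY (k2bPos (b, s) t) - (y0 + t • y1))‖ ≤ K ∧
          |T t (k2bY (k2bPos (b, s) t)) (k2bPos (b, s) t 2)| ≤ K * a ∧
          |kbDw T t (k2bY (k2bPos (b, s) t)) (k2bPos (b, s) t 2)| ≤ K ∧
          |k2bPos (b, s) t 2| ≤ R) ∧
      ∃ t ∈ Set.Ico t0 (t0 + q), 1 ≤ K * |kbDw T t (k2bY (k2bPos (b, s) t)) (k2bPos (b, s) t 2)|}

/-- **the slope-volume bound** (02 (2.42), with a logarithmic loss), as a proposition.   `volume` of an arbitrary set is the outer measure. -/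
def K2hSlope (C : ℝ) : Prop :=
  ∀ (T : KbTest KbVer.two) (y0 y1 : Fin 2 → ℝ) (D Di : Matrix (Fin 2) (Fin 2) ℝ) (t0 q K a R : ℝ),
    KbIsQuad T → D * Di = 1 → 0 < q → q ≤ 1 → |t0| ≤ 1 → 1 ≤ K → 0 < a → 1 ≤ R →
    volume (k2hSig T y0 y1 Di t0 q K a R)
      ≤ ENNReal.ofReal (C * K ^ C * (a * |D.det| / q ^ 3) * (1 + Real.log (1 + R / a)))

theorem k2h_eqns_cite : True := by
  have := @k2hSig.eq_1
  have := @K2hSlope.eq_1
  trivial

end Claimed.Agent.R252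

end PkS2bHorDefs

section PkS2bHorCore

/-!
# Row 252 (S0492), unit S2b-HOR (positive horizon, 02-framework.tex l.1456-1652), file 2: the ONE-SCALE core      (helper123, prefix `k2h`)

`P = (D.pb k).sel S0` = a further selection of the initial problem at the scale `δ = 2^{-k}`;  `Y` a chart system of `P` with `WF`, `Geo K a`.
* `k2h_mem_sig`  : the slope of every trajectory with a selected incidence in the chart `c` is eligible (02 l.1483-1492, 1513-1517);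
* `k2h_chart`    : `m_c ≤ 8 C k² q |Σ_c|`, and with the slope-volume bound `m_c ≤ 8 C k² C_s K^{C_s} a J_c q^{-2} (1 + log (1 + 6/a))`  (02 l.1626-1632);
* `k2h_core`     : with the true floor `n J_c q ≤ K m_c` :  `n q³ ≤ 8 C k² C_s K^{C_s} K a (1 + log (1 + 6/a))`  (02 l.1633-1640).
-/

set_option autoImplicit false

namespace Claimed.Agent.R252

open MeasureTheory
open scoped ENNReal BigOperators

noncomputable section

variable {σ C : ℝ} {k : ℕ} {D : K2iDat}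

/-- the interval of a chart as `[t_c, t_c + q)` -/
theorem k2h_I_eq {v : KbVer} {P : KbPb v} (Y : KbSys P) (c : Y.C) : Y.I c = Set.Ico (Y.tc c) (Y.tc c + Y.q) := by
  unfold KbSys.I kbI KbSys.tc KbSys.q
  congr 1
  ring

theorem k2h_I_vol {v : KbVer} {P : KbPb v} (Y : KbSys P) (c : Y.C) : volume (Y.I c) = ENNReal.ofReal Y.q := by
  rw [k2h_I_eq, Real.volume_Ico]
  congr 1
  ring

theorem k2h_tc_abs {v : KbVer} {P : KbPb v} (Y : KbSys P) (hY : Y.WF) (c : Y.C) : |Y.tc c| ≤ 1 := by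
  have h1 : (Y.iv c : ℝ) < 2 ^ Y.n := by exact_mod_cast hY.iv_lt c
  unfold KbSys.tc kbQ
  rw [abs_of_nonneg (by positivity), one_div, inv_pow, ← div_eq_mul_inv, div_le_one (by positivity)]
  exact h1.le

/-- **eligibility** -/
theorem k2h_mem_sig (hD : D.Bad σ C k) (S0 : (D.pb k).W → Set ((D.pb k).Lam × ℝ)) (Y : KbSys ((D.pb k).sel S0)) (hY : Y.WF)
    (K a : ℝ) (hG : Y.Geo K a) (c : Y.C) (x : K2iLn × ℝ) (hx : x ∈ Y.S c) :
    x.1.2 ∈ k2hSig (Y.ch c).T (Y.ch c).y0 (Y.ch c).y1 (Y.ch c).Di (Y.tc c) Y.q K a 6 ∧ x.2 ∈ Y.I c := by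
  have h1 := hY.S_sub c hx
  have hA : x.1 ∈ Y.A c := h1.2.1
  have hI : x.2 ∈ Y.I c := h1.2.2
  have hSp : x.1 ∈ D.Sp k := hY.A_sub c hA
  refine ⟨⟨fun i => ?_, x.1.1, fun i => ?_, ?_, ?_⟩, hI⟩
  · have := (k2i_sp_bd hD hSp i).2
    rw [abs_le]
    constructor <;> linarith [this.1, this.2]
  · have := (k2i_sp_bd hD hSp i).1
    rw [abs_le]
    constructor <;> linarith [this.1, this.2]
  · intro t ht
    rw [← k2h_I_eq] at ht
    have ht01 : t ∈ Set.Icc (0 : ℝ) 1 := by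
      have := Y.k2n_I_sub c (hY.iv_lt c) ht
      exact ⟨this.1, this.2.le⟩
    have e1 := hG.box c x.1 hA t ht
    have e2 := hG.val c x.1 hA t ht
    have e3 := hG.dw c x.1 hA t ht
    have e4 := k2i_pos_bd hD hSp ht01 2
    refine ⟨?_, ?_, ?_, e4.trans (by norm_num)⟩
    · have : kbY (((D.pb k).sel S0).co (Y.wd c) x.1) t = k2bY (k2bPos x.1 t) := k2i_co_Y x.1 t
      rw [this] at e1
      exact e1
    · have : kbX (Y.ch c).T (((D.pb k).sel S0).co (Y.wd c) x.1) t = (Y.ch c).T t (k2bY (k2bPos x.1 t)) (k2bPos x.1 t 2) := by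
        show (Y.ch c).T t (kbY (k2iCo x.1) t) (kbW (k2iCo x.1) t) = _
        rw [k2i_co_Y, k2i_co_W]
      rw [this] at e2
      exact e2
    · have : kbX (kbDw (Y.ch c).T) (((D.pb k).sel S0).co (Y.wd c) x.1) t
          = kbDw (Y.ch c).T t (k2bY (k2bPos x.1 t)) (k2bPos x.1 t 2) := by
        show kbDw (Y.ch c).T t (kbY (k2iCo x.1) t) (kbW (k2iCo x.1) t) = _
        rw [k2i_co_Y, k2i_co_W]
      rw [this] at e3
      have hB : ((D.pb k).sel S0).B (Y.wd c) = 1 := rfl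
      rw [hB, mul_one] at e3
      exact e3
  · refine ⟨x.2, by rw [← k2h_I_eq]; exact hI, ?_⟩
    have e5 := hG.dw_low c x hx
    have : kbX (kbDw (Y.ch c).T) (((D.pb k).sel S0).co (Y.wd c) x.1) x.2
        = kbDw (Y.ch c).T x.2 (k2bY (k2bPos x.1 x.2)) (k2bPos x.1 x.2 2) := by
      show kbDw (Y.ch c).T x.2 (kbY (k2iCo x.1) x.2) (kbW (k2iCo x.1) x.2) = _
      rw [k2i_co_Y, k2i_co_W]
    rw [this] at e5
    exact e5

/-- the height of the slope ceiling: `1 / (#ι (2ϱ)³) ≤ 8 C k²` -/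
theorem k2h_height (hD : D.Bad σ C k) :
    1 / ((Fintype.card D.ι : ℝ) * (2 * (1 / 2 ^ (k + 2))) ^ 3) ≤ 8 * (C * (k : ℝ) ^ 2) := by
  obtain ⟨hA, hc⟩ := k2i_A_pos hD
  have h1 := hD.card
  rw [k2i_rad_two]
  have e : ((1 : ℝ) / 2 ^ (k + 1)) ^ 3 = 1 / (8 * 2 ^ (3 * k)) := by
    rw [div_pow, one_pow, ← pow_mul]
    congr 1
    rw [show (k + 1) * 3 = 3 * k + 3 by ring, pow_add]
    norm_num
    ring
  rw [e]
  have h2 : (0 : ℝ) < 2 ^ (3 * k) := by positivity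
  rw [div_le_iff₀ (by positivity)]
  have e2 : 8 * (C * (k : ℝ) ^ 2) * ((Fintype.card D.ι : ℝ) * (1 / (8 * 2 ^ (3 * k))))
      = (C * (k : ℝ) ^ 2 * Fintype.card D.ι) / 2 ^ (3 * k) := by
    field_simp
  rw [e2, le_div_iff₀ h2, one_mul]
  exact h1

/-- **mass of a chart against the slope ceiling** -/
theorem k2h_chart_sig (hD : D.Bad σ C k) (S0 : (D.pb k).W → Set ((D.pb k).Lam × ℝ)) (Y : KbSys ((D.pb k).sel S0)) (hY : Y.WF)
    (K a : ℝ) (hG : Y.Geo K a) (c : Y.C) :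
    Y.mC c ≤ ENNReal.ofReal (8 * (C * (k : ℝ) ^ 2)) *
      volume (k2hSig (Y.ch c).T (Y.ch c).y0 (Y.ch c).y1 (Y.ch c).Di (Y.tc c) Y.q K a 6) * ENNReal.ofReal Y.q := by
  set Sig := k2hSig (Y.ch c).T (Y.ch c).y0 (Y.ch c).y1 (Y.ch c).Di (Y.tc c) Y.q K a 6 with hSig
  have hsub : Y.S c ⊆ {p : K2iLn | p.2 ∈ Sig} ×ˢ Y.I c := fun x hx =>
    ⟨(k2h_mem_sig hD S0 Y hY K a hG c x hx).1, (k2h_mem_sig hD S0 Y hY K a hG c x hx).2⟩
  have h1 : Y.mC c ≤ ((k2bPrior D.b D.s (1 / 2 ^ (k + 2))).prod KbPb.tm) (Y.S c) := by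
    show (((k2bPrior D.b D.s (1 / 2 ^ (k + 2))).prod KbPb.tm).restrict _) (Y.S c) ≤ _
    exact Measure.restrict_apply_le _ _
  have h2 : KbPb.tm (Y.I c) ≤ ENNReal.ofReal Y.q := by
    rw [← k2h_I_vol Y c]
    exact Measure.restrict_apply_le _ _
  have h3 := k2b_slope_ceiling D.b D.s (1 / 2 ^ k) (1 / 2 ^ (k + 2)) (k2i_rad_pos k)
    (by rw [k2i_rad_two]; exact one_div_le_one_div_of_le (by positivity) (pow_le_pow_right₀ (by norm_num) (Nat.le_succ k)))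
    (k2i_sep hD) Sig
  refine h1.trans ((measure_mono hsub).trans ((Measure.prod_prod_le _ _).trans ?_))
  refine mul_le_mul' (h3.trans ?_) h2
  exact mul_le_mul' (ENNReal.ofReal_le_ofReal (k2h_height hD)) le_rfl

/-- **mass ceiling of a chart** (02 l.1626-1632) -/
theorem k2h_chart {Cs : ℝ} (H : K2hSlope Cs) (hCs : 0 ≤ Cs) (hD : D.Bad σ C k) (S0 : (D.pb k).W → Set ((D.pb k).Lam × ℝ))
    (Y : KbSys ((D.pb k).sel S0)) (hY : Y.WF) (K a : ℝ) (hK : 1 ≤ K) (ha : 0 < a) (hG : Y.Geo K a) (c : Y.C) :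
    Y.mC c ≤ ENNReal.ofReal (8 * (C * (k : ℝ) ^ 2) * (Cs * K ^ Cs * (a * (Y.ch c).J / Y.q ^ 3) * (1 + Real.log (1 + 6 / a))) * Y.q) := by
  obtain ⟨hA, -⟩ := k2i_A_pos hD
  have hq := Y.k2n_q_pos
  have hq1 : Y.q ≤ 1 := k2n_kbQ_le_one _
  have h1 := k2h_chart_sig hD S0 Y hY K a hG c
  have h2 := H (Y.ch c).T (Y.ch c).y0 (Y.ch c).y1 (Y.ch c).D (Y.ch c).Di (Y.tc c) Y.q K a 6 (hY.adm c).1 (hY.inv c) hq hq1
    (k2h_tc_abs Y hY c) hK ha (by norm_num)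
  refine h1.trans ?_
  have h6 : 0 < 6 / a := by positivity
  have hlog : 0 ≤ Real.log (1 + 6 / a) := Real.log_nonneg (by linarith)
  have hJ : 0 ≤ (Y.ch c).J := abs_nonneg _
  have hX : 0 ≤ Cs * K ^ Cs * (a * (Y.ch c).J / Y.q ^ 3) * (1 + Real.log (1 + 6 / a)) := by
    have : 0 ≤ K ^ Cs := Real.rpow_nonneg (by linarith) _
    positivity
  have h8 : 0 ≤ 8 * (C * (k : ℝ) ^ 2) := by positivity
  rw [ENNReal.ofReal_mul (mul_nonneg h8 hX), ENNReal.ofReal_mul h8]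
  exact mul_le_mul' (mul_le_mul' le_rfl h2) le_rfl

/-- **the one-scale core of the positive horizon** (02 l.1633-1640): true floor against mass ceiling -/
theorem k2h_core {Cs : ℝ} (H : K2hSlope Cs) (hCs : 0 ≤ Cs) (hD : D.Bad σ C k) (S0 : (D.pb k).W → Set ((D.pb k).Lam × ℝ))
    (Y : KbSys ((D.pb k).sel S0)) (hY : Y.WF) (K a n : ℝ) (hK : 1 ≤ K) (ha : 0 < a) (hG : Y.Geo K a) (hT : Y.Tru K n) (c : Y.C) :
    n * Y.q ^ 3 ≤ 8 * (C * (k : ℝ) ^ 2) * (Cs * K ^ Cs) * K * (a * (1 + Real.log (1 + 6 / a))) := by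
  obtain ⟨hA, -⟩ := k2i_A_pos hD
  have hq := Y.k2n_q_pos
  have hJ : 0 < (Y.ch c).J := by
    have h1 : (Y.ch c).D.det * (Y.ch c).Di.det = 1 := by rw [← Matrix.det_mul, hY.inv c, Matrix.det_one]
    have h2 : (Y.ch c).D.det ≠ 0 := fun h0 => by rw [h0, zero_mul] at h1; exact zero_ne_one h1
    exact abs_pos.2 h2
  have h6 : 0 < 6 / a := by positivity
  have hlog : 0 ≤ Real.log (1 + 6 / a) := Real.log_nonneg (by linarith)
  have hKC : 0 ≤ K ^ Cs := Real.rpow_nonneg (by linarith) _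
  have h1 := (hT c).trans (mul_le_mul' le_rfl (k2h_chart H hCs hD S0 Y hY K a hK ha hG c))
  rw [← ENNReal.ofReal_mul (by linarith)] at h1
  have hX : 0 ≤ K * (8 * (C * (k : ℝ) ^ 2) * (Cs * K ^ Cs * (a * (Y.ch c).J / Y.q ^ 3) * (1 + Real.log (1 + 6 / a))) * Y.q) := by
    positivity
  have h2 := (ENNReal.ofReal_le_ofReal_iff hX).1 h1
  have e : K * (8 * (C * (k : ℝ) ^ 2) * (Cs * K ^ Cs * (a * (Y.ch c).J / Y.q ^ 3) * (1 + Real.log (1 + 6 / a))) * Y.q)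
      = (8 * (C * (k : ℝ) ^ 2) * (Cs * K ^ Cs) * K * (a * (1 + Real.log (1 + 6 / a)))) * (Y.ch c).J / Y.q ^ 2 := by
    field_simp
  rw [e, le_div_iff₀ (by positivity)] at h2
  have e2 : n * (Y.ch c).J * Y.q * Y.q ^ 2 = n * Y.q ^ 3 * (Y.ch c).J := by ring
  rw [e2] at h2
  exact le_of_mul_le_mul_right h2 hJ

end

end Claimed.Agent.R252

end PkS2bHorCore

section PkS2bHorSeq

/-!
# Row 252 (S0492), unit S2b-HOR (positive horizon, 02-framework.tex l.1456-1652), file 3: the SEQUENCE level      (helper123, prefix `k2h`)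

`E = Q.ex.sel S` = a further selection of the initial exact problem (`N = 2^k`).
* `k2h_sys`      : a chart system of `E` at depth `r`, time cost `h`, true against the density `N^{-X}`, has `r - X ≤ 3 h`   (`m = N^{r - X} ≤ K₀ q^{-3}`, 02 l.1633-1640);
* `k2h_cost`     : `Y₀` any chart system of `E` at depth `0` (the crop), `e` the exponent of `J_c / ν_c`; every true system `Y'` of `E.norm Y₀ 0` at depth `r₀`, cost `h`, true against `N^{-(X + e)}`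
                   has `r₀ - X ≤ 3 (h₀ + h)`     ((2.41) = `k2n_lift_true` of unit NORM, then `k2h_sys`);
* `k2h_hor_pos`  : `σ / 6 ≤ H(E₁)` for `E₁ = (E.norm Y₀ 0).coarsen r₀` as soon as `f₁ r₀ 0 = X + e`, `σ / 2 ≤ r₀ - X`, the crop has time cost `0` and `E₁` has a true terminal system.
-/

set_option autoImplicit false

namespace Claimed.Agent.R252

open MeasureTheory Filter Topology
open Claimed.Agent.R255 (uf)
open scoped ENNReal BigOperators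

noncomputable section

variable {σ C : ℝ} (Q : K2iSeq σ C)

/-- the logarithmic loss is subpower -/
theorem k2h_log_subp (R : KbRes) (r : ℝ) : KbSubP R fun n => 1 + Real.log (1 + 6 / R.N n ^ (-r)) := by
  have h0 : KbSubP R fun n => (7 + |r|) * (1 + Real.log (R.N n)) :=
    kb_subp_mul _ (kb_subp_const _ (by have := abs_nonneg r; linarith)) (kb_subp_log _)
  refine kb_subp_mono _ h0 (Eventually.of_forall fun n => ?_)
  have hN0 := kb_res_pos R n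
  have hN1 := kb_res_one_le R n
  have hl : 0 ≤ Real.log (R.N n) := Real.log_nonneg hN1
  have hp : 0 < R.N n ^ (-r) := Real.rpow_pos_of_pos hN0 _
  have h6 : 0 < 6 / R.N n ^ (-r) := by positivity
  have e1 : 6 / R.N n ^ (-r) = 6 * R.N n ^ r := by
    rw [Real.rpow_neg hN0.le]
    field_simp
  have h2 : R.N n ^ r ≤ R.N n ^ |r| := Real.rpow_le_rpow_of_exponent_le hN1 (le_abs_self r)
  have h3 : 1 ≤ R.N n ^ |r| := Real.one_le_rpow hN1 (abs_nonneg r)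
  have h4 : 1 + 6 / R.N n ^ (-r) ≤ 7 * R.N n ^ |r| := by rw [e1]; linarith
  have h5 : Real.log (1 + 6 / R.N n ^ (-r)) ≤ Real.log 7 + |r| * Real.log (R.N n) := by
    calc Real.log (1 + 6 / R.N n ^ (-r)) ≤ Real.log (7 * R.N n ^ |r|) := Real.log_le_log (by linarith) h4
      _ = Real.log 7 + |r| * Real.log (R.N n) := by
        rw [Real.log_mul (by norm_num) (by positivity), Real.log_rpow hN0]
  have h7 : Real.log 7 ≤ 6 := by
    have := Real.log_le_sub_one_of_pos (show (0 : ℝ) < 7 by norm_num)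
    linarith
  refine ⟨by have := Real.log_nonneg (show (1 : ℝ) ≤ 1 + 6 / R.N n ^ (-r) by linarith); linarith, ?_⟩
  have := abs_nonneg r
  nlinarith

/-- a system with positive mass has a chart -/
theorem k2h_chart_ex {v : KbVer} {P : KbPb v} (Y : KbSys P) (K : ℝ) (hB : Y.Big K) : Nonempty Y.C := by
  by_contra hne
  rw [not_nonempty_iff] at hne
  unfold KbSys.Big KbSys.mass at hB
  rw [Finset.univ_eq_empty, Finset.sum_empty, mul_zero] at hB
  exact absurd hB (by norm_num)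

/-- **`m(r, ·) ≤ K₀ q^{-3}`** in exponents: a true chart system of a selection of the initial problem -/
theorem k2h_sys {Cs : ℝ} (H : K2hSlope Cs) (hCs : 1 ≤ Cs) (S : Q.ex.Sel) (Y : (Q.ex.sel S).Sys) (r h X : ℝ)
    (hY : (Q.ex.sel S).IsSys Y r h) (hT : (Q.ex.sel S).IsTrue Y X) : r - X ≤ 3 * h := by
  obtain ⟨⟨M, hM⟩, hG, hq⟩ := hY
  have hne := Claimed.Agent.R255.uf_neBot
  refine le_of_forall_pos_le_add fun ε hε => ?_
  set τ := ε / (7 + Cs) with hτd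
  have hτ : 0 < τ := by positivity
  have hev := (hM.and ((hG τ hτ).and ((hT τ hτ).and ((hq τ hτ).and ((k2i_slack_subp Q τ hτ).and
    ((k2h_log_subp Q.ex.R r τ hτ).and (kb_subp_const Q.ex.R (show (1 : ℝ) ≤ 8 * Cs by linarith) τ hτ))))))).exists
  obtain ⟨n, h1, h2, h3, h4, h5, h6, h7⟩ := hev
  obtain ⟨c⟩ := k2h_chart_ex (Y n) _ h2.2
  set N := Q.ex.R.N n with hN
  have hN0 : 0 < N := kb_res_pos _ n
  have hN1 : 1 < N := by have := Q.ex.R.two_le n; linarith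
  have hK : 1 ≤ N ^ τ := Real.one_le_rpow hN1.le hτ.le
  have ha : 0 < N ^ (-r) := Real.rpow_pos_of_pos hN0 _
  have core := k2h_core H (by linarith) (Q.bad n) (S n) (Y n) h1.1 (N ^ τ) (N ^ (-r)) (N ^ (-X)) hK ha h2.1 h3 c
  obtain ⟨hA, -⟩ := k2i_A_pos (Q.bad n)
  have b1 : C * (Q.k n : ℝ) ^ 2 ≤ N ^ τ := (le_max_right _ _).trans h5.2
  have b2 : 1 + Real.log (1 + 6 / N ^ (-r)) ≤ N ^ τ := h6.2
  have b3 : 8 * Cs ≤ N ^ τ := h7.2
  have b4 : N ^ (-h - τ) ≤ (Y n).q := h4.1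
  have p0 : 0 < N ^ τ := by linarith
  have pX : 0 < N ^ (-X) := Real.rpow_pos_of_pos hN0 _
  have pq : 0 < N ^ (-h - τ) := Real.rpow_pos_of_pos hN0 _
  have l1 : N ^ (-X) * (N ^ (-h - τ)) ^ 3 ≤ N ^ (-X) * (Y n).q ^ 3 :=
    mul_le_mul_of_nonneg_left (pow_le_pow_left₀ pq.le b4 3) pX.le
  have pKC : 0 < (N ^ τ) ^ Cs := Real.rpow_pos_of_pos p0 _
  have l2 : 8 * (C * (Q.k n : ℝ) ^ 2) * (Cs * (N ^ τ) ^ Cs) * N ^ τ * (N ^ (-r) * (1 + Real.log (1 + 6 / N ^ (-r))))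
      ≤ N ^ τ * N ^ τ * (N ^ τ) ^ Cs * N ^ τ * (N ^ (-r) * N ^ τ) := by
    have e : 8 * (C * (Q.k n : ℝ) ^ 2) * (Cs * (N ^ τ) ^ Cs) * N ^ τ * (N ^ (-r) * (1 + Real.log (1 + 6 / N ^ (-r))))
        = (8 * Cs) * (C * (Q.k n : ℝ) ^ 2) * (N ^ τ) ^ Cs * N ^ τ * (N ^ (-r) * (1 + Real.log (1 + 6 / N ^ (-r)))) := by ring
    rw [e]
    have : 0 ≤ 1 + Real.log (1 + 6 / N ^ (-r)) := by linarith [h6.1]
    gcongr
  have l3 := l1.trans (core.trans l2)
  have e1 : N ^ (-X) * (N ^ (-h - τ)) ^ 3 = N ^ (-X + (-h - τ) * 3) := by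
    rw [← Real.rpow_natCast (N ^ (-h - τ)) 3, ← Real.rpow_mul hN0.le, ← Real.rpow_add hN0]
    norm_num
  have e2 : N ^ τ * N ^ τ * (N ^ τ) ^ Cs * N ^ τ * (N ^ (-r) * N ^ τ) = N ^ (τ + τ + τ * Cs + τ + (-r + τ)) := by
    rw [← Real.rpow_mul hN0.le, ← Real.rpow_add hN0, ← Real.rpow_add hN0, ← Real.rpow_add hN0, ← Real.rpow_add hN0,
      ← Real.rpow_add hN0]
  rw [e1, e2, Real.rpow_le_rpow_left_iff hN1] at l3
  have e3 : τ * (7 + Cs) = ε := by
    rw [hτd]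
    field_simp
  nlinarith

/-- **the original-prior floor and the comparison** (02 l.1456-1645): `Y₀` = the crop (any chart system at depth `0`), `Y'` a true system of the cropped problem -/
theorem k2h_cost {Cs : ℝ} (H : K2hSlope Cs) (hCs : 1 ≤ Cs) (S : Q.ex.Sel) (hE : (Q.ex.sel S).Ok) (Y₀ : (Q.ex.sel S).Sys) (h₀ e : ℝ)
    (hY₀ : (Q.ex.sel S).IsSys Y₀ 0 h₀) (he : (Q.ex.sel S).ChExp Y₀ ((Q.ex.sel S).k2nXJ Y₀) e)
    (Y' : ((Q.ex.sel S).norm Y₀ 0).Sys) (r₀ h X : ℝ) (hY' : ((Q.ex.sel S).norm Y₀ 0).IsSys Y' r₀ h)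
    (hT : ((Q.ex.sel S).norm Y₀ 0).IsTrue Y' (X + e)) : r₀ - X ≤ 3 * (h₀ + h) := by
  have h1 := (Q.ex.sel S).k2n_lift_sys hE Y₀ 0 h₀ hY₀ r₀ h Y' hY'
  have h2 := (Q.ex.sel S).k2n_lift_true hE Y₀ 0 h₀ e hY₀ he r₀ h X Y' hY' hT
  have h3 := k2h_sys Q H hCs S _ _ _ _ h1 h2
  linarith

/-- every cost of a true terminal system of the cropped and coarsened problem is at least `σ / 6` -/
theorem k2h_costs_ge {Cs : ℝ} (H : K2hSlope Cs) (hCs : 1 ≤ Cs) (S : Q.ex.Sel) (hE : (Q.ex.sel S).Ok) (Y₀ : (Q.ex.sel S).Sys) (e : ℝ)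
    (hY₀ : (Q.ex.sel S).IsSys Y₀ 0 0) (he : (Q.ex.sel S).ChExp Y₀ ((Q.ex.sel S).k2nXJ Y₀) e)
    (f₁ : ℝ → ℝ → ℝ) (r₀ X : ℝ) (hX : f₁ r₀ 0 = X + e) (hg : σ / 2 ≤ r₀ - X) :
    ∀ h ∈ (((Q.ex.sel S).norm Y₀ 0).coarsen r₀).costs f₁, σ / 6 ≤ h := by
  rintro h ⟨-, Y', hs, ht⟩
  have hs' : ((Q.ex.sel S).norm Y₀ 0).IsSys Y' r₀ h := hs
  have ht' : ((Q.ex.sel S).norm Y₀ 0).IsTrue Y' (X + e) := by
    rw [← hX]
    exact ht
  have := k2h_cost Q H hCs S hE Y₀ 0 e hY₀ he Y' r₀ h X hs' ht'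
  linarith

/-- **positive horizon** (02 l.1641-1648): `H(E₁) ≥ σ / 6` -/
theorem k2h_hor_ge {Cs : ℝ} (H : K2hSlope Cs) (hCs : 1 ≤ Cs) (S : Q.ex.Sel) (hE : (Q.ex.sel S).Ok) (Y₀ : (Q.ex.sel S).Sys) (e : ℝ)
    (hY₀ : (Q.ex.sel S).IsSys Y₀ 0 0) (he : (Q.ex.sel S).ChExp Y₀ ((Q.ex.sel S).k2nXJ Y₀) e)
    (f₁ : ℝ → ℝ → ℝ) (r₀ X : ℝ) (hX : f₁ r₀ 0 = X + e) (hg : σ / 2 ≤ r₀ - X)
    (hne : ((((Q.ex.sel S).norm Y₀ 0).coarsen r₀).costs f₁).Nonempty) :
    σ / 6 ≤ (((Q.ex.sel S).norm Y₀ 0).coarsen r₀).Hor f₁ :=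
  le_csInf hne (k2h_costs_ge Q H hCs S hE Y₀ e hY₀ he f₁ r₀ X hX hg)

end

end Claimed.Agent.R252

end PkS2bHorSeq

section PkS2bHorSlope

/-!
# Row 252 (S0492), unit S2b-HOR (positive horizon, 02-framework.tex l.1456-1652), file 4: the slope-volume bound is DISCHARGED      (helper123, prefix `k2h`; the bridge lemmas `k2hQ`, `k2h_cont_*`, `k2h_closure` are helper171's)

* `k2h_slope : K2hSlope k2hCs`  from `slr_exit` (unit T2-SLOPE, helper17 + helper6);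
* `k2h_hor_pos` : `k2h_hor_ge` without any hypothesis on slopes = EXIT of the unit.
-/

set_option autoImplicit false

namespace Claimed.Agent.R252

open MeasureTheory
open scoped ENNReal BigOperators

noncomputable section

/-- the coefficients of a test of version 2, in the format of unit T2-SLOPE -/
def k2hQ (Qd : KbQuad KbVer.two) : SlrQ := ⟨Qd.c0, Qd.ct, Qd.cy, Qd.cw, Qd.ctt, Qd.cty, Qd.ctw, Qd.cyy, Qd.cyw, Qd.cww⟩

theorem k2h_ev (Qd : KbQuad KbVer.two) (t : ℝ) (y : Fin 2 → ℝ) (w : ℝ) : (k2hQ Qd).ev t y w = Qd.ev t y w := rfl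

theorem k2h_cont_Y (b s : Fin 3 → ℝ) (j : Fin 2) : Continuous fun t : ℝ => slrY b s t j := by
  unfold slrY
  fun_prop

theorem k2h_cont_W (b s : Fin 3 → ℝ) : Continuous fun t : ℝ => slrW b s t := by
  unfold slrW
  fun_prop

theorem k2h_cont_ev (Q : SlrQ) (b s : Fin 3 → ℝ) : Continuous fun t : ℝ => Q.ev t (slrY b s t) (slrW b s t) := by
  have h0 := k2h_cont_Y b s 0
  have h1 := k2h_cont_Y b s 1
  have hw := k2h_cont_W b s
  simp only [SlrQ.ev, dotProduct, Matrix.mulVec, Fin.sum_univ_two]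
  fun_prop

theorem k2h_cont_dw (Q : SlrQ) (b s : Fin 3 → ℝ) : Continuous fun t : ℝ => Q.dw t (slrY b s t) (slrW b s t) := by
  have h0 := k2h_cont_Y b s 0
  have h1 := k2h_cont_Y b s 1
  have hw := k2h_cont_W b s
  simp only [SlrQ.dw, dotProduct, Fin.sum_univ_two]
  fun_prop

theorem k2h_cont_box (Di : Matrix (Fin 2) (Fin 2) ℝ) (y0 y1 : Fin 2 → ℝ) (b s : Fin 3 → ℝ) (i : Fin 2) :
    Continuous fun t : ℝ => Di.mulVec (fun j => slrY b s t j - (y0 j + t * y1 j)) i := by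
  have h0 := k2h_cont_Y b s 0
  have h1 := k2h_cont_Y b s 1
  simp only [dotProduct, Matrix.mulVec, Fin.sum_univ_two]
  fun_prop

/-- bounds on a half-open interval extend to the closed interval -/
theorem k2h_closure {g : ℝ → ℝ} (hg : Continuous g) {t0 q M : ℝ} (hq : 0 < q) (h : ∀ t ∈ Set.Ico t0 (t0 + q), |g t| ≤ M) :
    ∀ t ∈ Set.Icc t0 (t0 + q), |g t| ≤ M := by
  have hc : IsClosed {t | |g t| ≤ M} := isClosed_le hg.abs continuous_const
  have h1 : closure (Set.Ico t0 (t0 + q)) ⊆ {t | |g t| ≤ M} := hc.closure_subset_iff.2 h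
  rw [closure_Ico (by linarith)] at h1
  exact h1

/-- the two formats of `Σ` -/
theorem k2h_sig_sub (T : KbTest KbVer.two) (Qd : KbQuad KbVer.two) (hT : ∀ t y w, T t y w = Qd.ev t y w) (y0 y1 : Fin 2 → ℝ)
    (Di : Matrix (Fin 2) (Fin 2) ℝ) (t0 q K a R : ℝ) (hq : 0 < q) (hK : 0 < K) :
    k2hSig T y0 y1 Di t0 q K a R ⊆ slrSig (k2hQ Qd) Di y0 y1 t0 q K a R := by
  rintro s ⟨hs, b, hb, hall, t1, ht1, hlow⟩
  have eY : ∀ t, k2bY (k2bPos (b, s) t) = slrY b s t := fun t => rfl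
  have eW : ∀ t, k2bPos (b, s) t 2 = slrW b s t := fun t => rfl
  have eT : ∀ t, T t (k2bY (k2bPos (b, s) t)) (k2bPos (b, s) t 2) = (k2hQ Qd).ev t (slrY b s t) (slrW b s t) := fun t =>
    hT t _ _
  have eD : ∀ t, kbDw T t (k2bY (k2bPos (b, s) t)) (k2bPos (b, s) t 2) = (k2hQ Qd).dw t (slrY b s t) (slrW b s t) := fun t => by
    have e0 : kbDw T t (k2bY (k2bPos (b, s) t)) (k2bPos (b, s) t 2)
        = (T t (k2bY (k2bPos (b, s) t)) (k2bPos (b, s) t 2 + 1) - T t (k2bY (k2bPos (b, s) t)) (k2bPos (b, s) t 2 - 1)) / 2 := rfl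
    rw [e0, slr_dw_eq]
    exact congrArg₂ (fun x y : ℝ => (x - y) / 2) (hT t _ _) (hT t _ _)
  refine ⟨hs, b, hb, fun t ht => ⟨fun i => ?_, ?_, ?_⟩, t1, ⟨ht1.1, ht1.2.le⟩, ?_⟩
  · refine k2h_closure (k2h_cont_box Di y0 y1 b s i) hq (fun t' ht' => ?_) t ht
    have h1 := (hall t' ht').1
    exact (norm_le_pi_norm _ i).trans h1
  · refine k2h_closure (k2h_cont_ev (k2hQ Qd) b s) hq (fun t' ht' => ?_) t ht
    rw [← eT]
    exact (hall t' ht').2.1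
  · refine k2h_closure (k2h_cont_dw (k2hQ Qd) b s) hq (fun t' ht' => ?_) t ht
    rw [← eD]
    exact (hall t' ht').2.2.1
  · rw [← eD, div_le_iff₀ hK, mul_comm]
    exact hlow

/-- the constant of the slope-volume bound -/
def k2hCs : ℝ := 3 * (8 * (2 * 10 ^ 6) * 2 ^ 7)

theorem k2h_Cs_ge : 8 ≤ k2hCs := by
  unfold k2hCs
  norm_num

theorem k2h_log3 (x : ℝ) (hx : 0 ≤ x) : 1 + Real.log (1 + 3 * x) ≤ 3 * (1 + Real.log (1 + x)) := by
  have h1 : Real.log (1 + 3 * x) ≤ Real.log ((1 + x) ^ 3) := Real.log_le_log (by linarith) (by nlinarith [mul_nonneg hx hx, mul_nonneg (mul_nonneg hx hx) hx])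
  rw [Real.log_pow] at h1
  push_cast at h1
  linarith

/-- **the slope-volume bound** (02 (2.42) with a logarithmic loss) in the format of this unit -/
theorem k2h_slope : K2hSlope k2hCs := by
  intro T y0 y1 D Di t0 q K a R hT hD hq hq1 ht0 hK ha hR
  obtain ⟨Qd, hQ⟩ := hT
  have hK0 : 0 < K := by linarith
  refine (measure_mono (k2h_sig_sub T Qd hQ y0 y1 Di t0 q K a R hq hK0)).trans
    ((slr_exit (k2hQ Qd) D Di hD y0 y1 t0 q K a R hq hq1 ht0 hK ha hR).trans (ENNReal.ofReal_le_ofReal ?_))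
  have hx : 0 ≤ R / a := by positivity
  have h1 := k2h_log3 (R / a) hx
  have e1 : 3 * R / a = 3 * (R / a) := by ring
  have h2 : K ^ 8 ≤ K ^ k2hCs := by
    rw [← Real.rpow_natCast]
    exact Real.rpow_le_rpow_of_exponent_le hK (by exact_mod_cast k2h_Cs_ge)
  have hJ : 0 ≤ a * |D.det| / q ^ 3 := by positivity
  have hl : 0 ≤ Real.log (1 + R / a) := Real.log_nonneg (by linarith)
  rw [e1]
  calc 8 * (2 * 10 ^ 6) * 2 ^ 7 * K ^ 8 * a * |D.det| / q ^ 3 * (1 + Real.log (1 + 3 * (R / a)))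
      = 8 * (2 * 10 ^ 6) * 2 ^ 7 * K ^ 8 * (a * |D.det| / q ^ 3) * (1 + Real.log (1 + 3 * (R / a))) := by ring
    _ ≤ 8 * (2 * 10 ^ 6) * 2 ^ 7 * K ^ 8 * (a * |D.det| / q ^ 3) * (3 * (1 + Real.log (1 + R / a))) :=
        mul_le_mul_of_nonneg_left h1 (by positivity)
    _ = k2hCs * K ^ 8 * (a * |D.det| / q ^ 3) * (1 + Real.log (1 + R / a)) := by
        unfold k2hCs
        ring
    _ ≤ k2hCs * K ^ k2hCs * (a * |D.det| / q ^ 3) * (1 + Real.log (1 + R / a)) := by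
        have hc : 0 ≤ k2hCs := by linarith [k2h_Cs_ge]
        gcongr

variable {σ C : ℝ} (Q : K2iSeq σ C)

/-- **EXIT of unit S2b-HOR: positive horizon** (02 l.1456-1652), no hypothesis left: `H(E₁) ≥ σ / 6` for the cropped (`Y₀`, exponent `e`) and coarsened (`r₀`) problem -/
theorem k2h_hor_pos (S : Q.ex.Sel) (hE : (Q.ex.sel S).Ok) (Y₀ : (Q.ex.sel S).Sys) (e : ℝ)
    (hY₀ : (Q.ex.sel S).IsSys Y₀ 0 0) (he : (Q.ex.sel S).ChExp Y₀ ((Q.ex.sel S).k2nXJ Y₀) e)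
    (f₁ : ℝ → ℝ → ℝ) (r₀ X : ℝ) (hX : f₁ r₀ 0 = X + e) (hg : σ / 2 ≤ r₀ - X)
    (hne : ((((Q.ex.sel S).norm Y₀ 0).coarsen r₀).costs f₁).Nonempty) :
    σ / 6 ≤ (((Q.ex.sel S).norm Y₀ 0).coarsen r₀).Hor f₁ :=
  k2h_hor_ge Q k2h_slope (by linarith [k2h_Cs_ge]) S hE Y₀ e hY₀ he f₁ r₀ X hX hg hne

end

end Claimed.Agent.R252

end PkS2bHorSlope

section PkS2bAssembly

/-!
# Row 252 (S0492), unit S2b: ASSEMBLY of Theorem 2.17 (02-framework.tex l.1284-1652) = hub `kb_reduction` / `KtHubRed`      (helper123, prefix `k2z`)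

No `sorry`.   The three blocks which are still in work enter as PROPOSITIONS:
* `K2bPlankFin`  (L2.15; proved: `k2b_plank_fin`, `S2b/PlankAdapt.lean`);
* `K2zCrop`      = the exit of the crop (helper171, `k2r_crop`, `S2b/CropExit.lean`), verbatim;
* `K2zHorLe`     = P2.16 (helper264, `k2b_horizon_le`, `S2b/P216Main.lean`), in version 2.
Everything else is proved: `k2i_seq_exists`, `k2i_endpoint` (helper171), `k2h_hor_pos` (positive horizon; slope volume = `slr_exit`).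
EXIT: `k2z_reduction : K2bPlankFin → K2zCrop → K2zHorLe → (statement of kb_reduction)`.
-/

set_option autoImplicit false

namespace Claimed.Agent.R252

open MeasureTheory Filter Topology
open Claimed.Agent.R255 (uf)
open scoped ENNReal BigOperators

noncomputable section

/-- the exit of the crop (02 l.1397-1437): full-time atlas `Y₀` in `(y₀, V)`-boxes of side `a_{u₀}`, common exponent `e` of `J_c / ν_c`, profile `f₁(s,u) = f(s, u₀ + u) + e` -/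
def K2zCrop : Prop :=
  ∀ (σ C : ℝ) (Q : K2iSeq σ C) (S : Q.ex.Sel), (∀ᶠ n in uf, ∀ γ, MeasurableSet (S n γ)) → (Q.ex.sel S).Ok →
    ∀ f : ℝ → ℝ → ℝ, (Q.ex.sel S).Hom f → ∀ u0 : ℝ, 0 ≤ u0 → u0 ≤ 4 →
      ∃ (Y₀ : (Q.ex.sel S).Sys) (e : ℝ), (Q.ex.sel S).IsSys Y₀ 0 0 ∧ (Q.ex.sel S).ChExp Y₀ ((Q.ex.sel S).k2nXJ Y₀) e ∧
        ((Q.ex.sel S).norm Y₀ 0).Ok ∧ ((Q.ex.sel S).norm Y₀ 0).Hom fun s u => f s (u0 + u) + e

/-- P2.16 in version 2 -/
def K2zHorLe : Prop :=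
  ∀ (E : KbEx KbVer.two), E.Ok → ∀ f : ℝ → ℝ → ℝ, E.Hom f → ∃ Y : E.Sys, E.IsTrueSys f Y E.L E.L

theorem k2z_eqns_cite : True := by
  have := @K2zCrop.eq_1
  have := @K2zHorLe.eq_1
  trivial

/-- coarsening keeps `Ok` -/
theorem k2z_coarsen_ok {v : KbVer} (E : KbEx v) (hE : E.Ok) (r : ℝ) (hr : 0 < r) : (E.coarsen r).Ok := ⟨hr, hE.2.1, hE.2.2⟩

/-- coarsening keeps `Hom` -/
theorem k2z_coarsen_hom {v : KbVer} (E : KbEx v) (f : ℝ → ℝ → ℝ) (hf : E.Hom f) (r : ℝ) (hr : r ≤ E.L) : (E.coarsen r).Hom f where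
  pure := fun s hs => hf.pure s ⟨hs.1, hs.2.trans hr⟩
  joint := fun s hs u hu => hf.joint s ⟨hs.1, hs.2.trans hr⟩ u hu

/-- **Theorem 2.17** from its blocks -/
theorem k2z_reduction (H : K2bPlankFin) (hCrop : K2zCrop) (hHor : K2zHorLe) (σ C : ℝ) (hσ : 0 < σ)
    (h : ∀ k0 : ℕ, ∃ k, k0 ≤ k ∧ GluBad σ C k) : ∃ d S η : ℝ, 0 < S ∧ 0 < η ∧ KbBad KbVer.two S η d := by
  obtain ⟨Q⟩ := k2i_seq_exists σ C h
  obtain ⟨S, f, r0, u0, R, S0, hSm, hE, hf, hr0, hr1, hu0, hu4, hR0, hR1, hS0, hgap, hend, hang⟩ := k2i_endpoint H hσ Q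
  obtain ⟨Y₀, e, hY₀, he, hOk, hHom⟩ := hCrop σ C Q S hSm hE f hf u0 hu0 hu4.le
  have hL : ((Q.ex.sel S).norm Y₀ 0).L = 1 := by
    show (1 : ℝ) - 0 = 1
    norm_num
  have hok1 := k2z_coarsen_ok _ hOk r0 hr0
  have hhom1 := k2z_coarsen_hom _ _ hHom r0 (by rw [hL]; exact hr1)
  have hη : 0 < (4 - u0) / r0 := div_pos (by linarith) hr0
  refine ⟨1 - R, S0, (4 - u0) / r0, hS0, hη, ((Q.ex.sel S).norm Y₀ 0).coarsen r0, fun s u => f s (u0 + u) + e, ?_, ?_⟩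
  · refine ⟨hok1, hhom1, by linarith, ?_, ?_⟩
    · intro s hs
      show f r0 (u0 + 0) + e - (f s (u0 + 0) + e) ≤ (1 - R) * (r0 - s)
      rw [add_zero]
      have := hend s hs
      linarith
    · intro u hu hu'
      have hu'' : u ≤ 4 - u0 := by
        have e1 : (4 - u0) / r0 * r0 = 4 - u0 := by field_simp
        rw [← e1]
        exact hu'
      show f r0 (u0 + 0) + e + S0 * u ≤ f r0 (u0 + u) + e
      rw [add_zero]
      have := hang u hu.le hu''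
      linarith
  · obtain ⟨Y, hY⟩ := hHor _ hok1 _ hhom1
    have hne : ((((Q.ex.sel S).norm Y₀ 0).coarsen r0).costs fun s u => f s (u0 + u) + e).Nonempty := ⟨r0, hr0.le, Y, hY⟩
    have := k2h_hor_pos Q S hE Y₀ e hY₀ he (fun s u => f s (u0 + u) + e) r0 (f r0 u0) (by show f r0 (u0 + 0) + e = _; rw [add_zero]) hgap hne
    linarith

end

end Claimed.Agent.R252

end PkS2bAssembly
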