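import Mathlib

/-!
# Row 252, unit S2b, file 7 (CONTRACT): X-RAY SMOOTHING = the flattening of the base density of a prior, FOR FREE      (architect helper264)

WHY.  Proposition 2.16 (02 l.1008-1016) flattens at a polynomial mesh `ρ = N^{-D}`; the paper uses temperedness (semialgebraic pieces).  In the measurable model of `Base/Pb.lean` only `Tmp.dens` is available: the law of the coefficients has a density `≤ Q`.
That is enough: the base density `ρ₀(τ, y) = ∫ f(y - τ u, u) du` of a prior with a BOUNDED density `f` is regular on average over `τ` (the X-ray transform gains half a derivative).  Elementary `T T^*` proof, no Fourier analysis: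
with `H(b,u) = f(b + sh u, u) - f(b, u)`, `Φ(τ,y) = ∫ H(y - τ u, u) du`:
  `∫₀¹∫ Φ² dy dτ = ∫∫ H(b,u) [∫ du' ∫₀¹ H(b + τ (u - u'), u') dτ] db du`,   `|∫₀¹ H(b + τ υ, u') dτ| ≤ 2 Q min(1, σ / |υ|)`   (the two integrals over an interval of length `|υ|` differ only near the end points),
  `∫_{-1}^{1} min(1, σ/|u - u'|) du' ≤ 4 √σ`,   so   `∫∫ Φ² ≤ ‖H‖₁ · 8 Q √σ ≤ 128 Q² √σ`,   and `∫∫ |Φ| ≤ 32 Q σ^{1/4}` (`|Φ| ≤ λ/2 + Φ²/(2λ)` on the support, area `8`).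
Several base coordinates: freeze the other coordinates `(b_{a'}, u_{a'})` (Minkowski + the substitution `b_{a'} = y_{a'} - τ u_{a'}`).
Mathlib only, paper-free.
-/

set_option autoImplicit false

namespace Claimed.Agent.R252

open MeasureTheory
open scoped ENNReal

theorem k2b_xr_ii (g : ℝ → ℝ) (hg : Measurable g) (Q : ℝ) (hQ : ∀ x, |g x| ≤ Q) (a b : ℝ) :
    IntervalIntegrable g volume a b := by
  rw [intervalIntegrable_iff]
  exact Measure.integrableOn_of_bounded (by simp) hg.aestronglyMeasurable (M := Q)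
    (ae_of_all _ fun x => by simpa using hQ x)

/-- **LEAF L-252-S2b-XR1.**  `∫₀¹ g(b + τ υ) dτ = υ⁻¹ ∫_b^{b+υ} g` (`intervalIntegral.integral_comp_add_mul` / `integral_comp_mul_add`), so `υ ∫₀¹ (g(b + τυ + σ) - g(b + τυ)) dτ = ∫_{b+σ}^{b+υ+σ} g - ∫_b^{b+υ} g = ∫_{b+υ}^{b+υ+σ} g - ∫_b^{b+σ} g`
(`intervalIntegral.integral_add_adjacent_intervals`; `g` is interval integrable: bounded + measurable), each `≤ Q |σ|` (`intervalIntegral.norm_integral_le_of_norm_le_const`).  `υ = 0`: trivial. -/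
theorem k2b_xr_interval (g : ℝ → ℝ) (hg : Measurable g) (Q : ℝ) (hQ : ∀ x, |g x| ≤ Q) (b υ σ : ℝ) :
    |∫ τ in (0 : ℝ)..1, (g (b + τ * υ + σ) - g (b + τ * υ))| * |υ| ≤ 2 * Q * |σ| ∧
      |∫ τ in (0 : ℝ)..1, (g (b + τ * υ + σ) - g (b + τ * υ))| ≤ 2 * Q := by
  have hQ0 : 0 ≤ Q := le_trans (abs_nonneg _) (hQ 0)
  have h2 : |∫ τ in (0 : ℝ)..1, (g (b + τ * υ + σ) - g (b + τ * υ))| ≤ 2 * Q := by
    have := intervalIntegral.norm_integral_le_of_norm_le_const (a := (0 : ℝ)) (b := 1) (C := 2 * Q)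
      (f := fun τ => g (b + τ * υ + σ) - g (b + τ * υ)) (fun τ _ => by
        rw [Real.norm_eq_abs]
        refine (abs_sub _ _).trans ?_
        have := hQ (b + τ * υ + σ)
        have := hQ (b + τ * υ)
        linarith)
    simpa using this
  refine ⟨?_, h2⟩
  by_cases hυ : υ = 0
  · rw [hυ, abs_zero, mul_zero]; positivity
  have hii := k2b_xr_ii g hg Q hQ
  have e1 : ∫ τ in (0 : ℝ)..1, g (b + τ * υ + σ) = υ⁻¹ • ∫ x in (b + σ)..(b + σ + υ), g x := by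
    have := intervalIntegral.integral_comp_add_mul (a := (0 : ℝ)) (b := 1) g hυ (b + σ)
    rw [mul_zero, add_zero, mul_one] at this
    rw [← this]
    refine intervalIntegral.integral_congr fun τ _ => ?_
    show g _ = g _
    congr 1; ring
  have e2 : ∫ τ in (0 : ℝ)..1, g (b + τ * υ) = υ⁻¹ • ∫ x in b..(b + υ), g x := by
    have := intervalIntegral.integral_comp_add_mul (a := (0 : ℝ)) (b := 1) g hυ b
    rw [mul_zero, add_zero, mul_one] at this
    rw [← this]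
    refine intervalIntegral.integral_congr fun τ _ => ?_
    show g _ = g _
    congr 1; ring
  have hm1 : Measurable fun τ : ℝ => g (b + τ * υ + σ) := hg.comp (by fun_prop)
  have hm2 : Measurable fun τ : ℝ => g (b + τ * υ) := hg.comp (by fun_prop)
  have e3 : ∫ τ in (0 : ℝ)..1, (g (b + τ * υ + σ) - g (b + τ * υ)) =
      υ⁻¹ * ((∫ x in (b + υ)..(b + σ + υ), g x) - ∫ x in b..(b + σ), g x) := by
    rw [intervalIntegral.integral_sub (k2b_xr_ii _ hm1 Q (fun _ => hQ _) _ _)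
      (k2b_xr_ii _ hm2 Q (fun _ => hQ _) _ _), e1, e2, smul_eq_mul, smul_eq_mul, ← mul_sub]
    congr 1
    have a1 := intervalIntegral.integral_add_adjacent_intervals (hii b (b + σ)) (hii (b + σ) (b + σ + υ))
    have a2 := intervalIntegral.integral_add_adjacent_intervals (hii b (b + υ)) (hii (b + υ) (b + σ + υ))
    linarith
  have b1 : |∫ x in (b + υ)..(b + σ + υ), g x| ≤ Q * |σ| := by
    have := intervalIntegral.norm_integral_le_of_norm_le_const (a := b + υ) (b := b + σ + υ) (C := Q)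
      (f := g) (fun x _ => by rw [Real.norm_eq_abs]; exact hQ x)
    rw [Real.norm_eq_abs] at this
    convert this using 3
    ring
  have b2 : |∫ x in b..(b + σ), g x| ≤ Q * |σ| := by
    have := intervalIntegral.norm_integral_le_of_norm_le_const (a := b) (b := b + σ) (C := Q)
      (f := g) (fun x _ => by rw [Real.norm_eq_abs]; exact hQ x)
    rw [Real.norm_eq_abs] at this
    convert this using 3
    ring
  rw [e3, abs_mul, abs_inv, mul_right_comm, inv_mul_cancel₀ (abs_ne_zero.2 hυ), one_mul]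
  refine (abs_sub _ _).trans ?_
  linarith

/-- scaled form of the kernel bound -/
theorem k2b_xr_kernelA (A σ u : ℝ) (hA : 0 ≤ A) (hσ : 0 ≤ σ) (k : ℝ → ℝ) (hk : Measurable k) (h0 : ∀ u', 0 ≤ k u')
    (h1 : ∀ u', k u' ≤ A) (h2 : ∀ u', k u' * |u - u'| ≤ A * σ) :
    ∫ u' in Set.Icc (-1 : ℝ) 1, k u' ≤ 4 * A * Real.sqrt σ := by
  set s := Real.sqrt σ with hs
  have hs0 : 0 ≤ s := Real.sqrt_nonneg _
  have hss : s * s = σ := Real.mul_self_sqrt hσ
  have hpt : ∀ u', k u' ≤ (Set.Icc (u - s) (u + s)).indicator (fun _ => A) u' + A * s := by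
    intro u'
    by_cases hu : u' ∈ Set.Icc (u - s) (u + s)
    · rw [Set.indicator_of_mem hu]
      have := h1 u'
      have : 0 ≤ A * s := by positivity
      linarith
    · rw [Set.indicator_of_notMem hu, zero_add]
      have hgt : s < |u - u'| := by
        by_contra hcon
        push Not at hcon
        rw [abs_le] at hcon
        exact hu ⟨by linarith [hcon.2], by linarith [hcon.1]⟩
      have h3 := h2 u'
      by_contra hcon
      push Not at hcon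
      have h4 : A * s * s ≤ k u' * |u - u'| := by
        refine mul_le_mul hcon.le hgt.le hs0 (h0 u')
      have h5 : k u' * s < k u' * |u - u'| := by
        refine mul_lt_mul_of_pos_left hgt (lt_of_le_of_lt (by positivity) hcon)
      have h6 : A * s * s ≤ k u' * s := mul_le_mul_of_nonneg_right hcon.le hs0
      rw [mul_assoc, hss] at h6
      linarith
  have hki : IntegrableOn k (Set.Icc (-1 : ℝ) 1) :=
    Measure.integrableOn_of_bounded (by simp) hk.aestronglyMeasurable (M := A)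
      (ae_of_all _ fun x => by rw [Real.norm_eq_abs, abs_of_nonneg (h0 x)]; exact h1 x)
  have hind : IntegrableOn ((Set.Icc (u - s) (u + s)).indicator (fun _ => A)) (Set.Icc (-1 : ℝ) 1) :=
    (integrable_const A).indicator measurableSet_Icc
  have hri : IntegrableOn (fun u' => (Set.Icc (u - s) (u + s)).indicator (fun _ => A) u' + A * s) (Set.Icc (-1 : ℝ) 1) :=
    hind.add (integrable_const _)
  refine (setIntegral_mono hki hri hpt).trans ?_
  rw [integral_add hind (integrable_const _), integral_indicator_const _ measurableSet_Icc, integral_const]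
  have hv1 : (volume.restrict (Set.Icc (-1 : ℝ) 1)).real (Set.Icc (u - s) (u + s)) ≤ 2 * s := by
    have h7 : (volume.restrict (Set.Icc (-1 : ℝ) 1)) (Set.Icc (u - s) (u + s)) ≤ ENNReal.ofReal (2 * s) := by
      refine (Measure.restrict_apply_le _ _).trans (le_of_eq ?_)
      rw [Real.volume_Icc]; congr 1; ring
    exact ENNReal.toReal_le_of_le_ofReal (by positivity) h7
  have hv2 : (volume.restrict (Set.Icc (-1 : ℝ) 1)).real Set.univ = 2 := by
    rw [measureReal_def, Measure.restrict_apply_univ, Real.volume_Icc]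
    norm_num
  rw [hv2, smul_eq_mul, smul_eq_mul]
  have := mul_le_mul_of_nonneg_right hv1 hA
  linarith

/-- **LEAF L-252-S2b-XR1.**  On `{|u - u'| ≤ √σ}` (length `≤ 2√σ`) use `k ≤ 1`; elsewhere `k ≤ σ / √σ = √σ` on a set of length `≤ 2`. -/
theorem k2b_xr_kernel (σ u : ℝ) (hσ : 0 ≤ σ) (k : ℝ → ℝ) (hk : Measurable k) (h0 : ∀ u', 0 ≤ k u') (h1 : ∀ u', k u' ≤ 1)
    (h2 : ∀ u', k u' * |u - u'| ≤ σ) : ∫ u' in Set.Icc (-1 : ℝ) 1, k u' ≤ 4 * Real.sqrt σ := by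
  have := k2b_xr_kernelA 1 σ u zero_le_one hσ k hk h0 h1 (fun u' => by rw [one_mul]; exact h2 u')
  rwa [mul_one] at this

/-- bounded + measurable + carried by a set of finite measure ⟹ integrable -/
theorem k2b_xr_intg {α : Type*} [MeasurableSpace α] {m : Measure α} {F : α → ℝ} (hF : Measurable F) (C : ℝ)
    (hb : ∀ x, |F x| ≤ C) (S : Set α) (hS : MeasurableSet S) (hm : m S ≠ ⊤) (hs : ∀ᵐ x ∂m, x ∉ S → F x = 0) :
    Integrable F m := by
  have h1 : IntegrableOn F S m :=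
    Measure.integrableOn_of_bounded hm hF.aestronglyMeasurable (M := C) (ae_of_all _ fun x => by simpa using hb x)
  have h2 : Integrable (S.indicator F) m := h1.integrable_indicator hS
  refine h2.congr ?_
  filter_upwards [hs] with x hx
  by_cases h : x ∈ S
  · rw [Set.indicator_of_mem h]
  · rw [Set.indicator_of_notMem h, hx h]

/-- the abstract `T T^*` identity and bound. -/
theorem k2b_xr_tt (H : ℝ → ℝ → ℝ) (hH : Measurable (Function.uncurry H)) (Q P : ℝ) (hb : ∀ b u, |H b u| ≤ Q)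
    (hs : ∀ b u, H b u ≠ 0 → |b| ≤ 3)
    (hP : ∀ b u, |∫ u' in Set.Icc (-1 : ℝ) 1, ∫ τ in Set.Icc (0 : ℝ) 1, H (b + τ * u - τ * u') u'| ≤ P) :
    Measurable (fun p : ℝ × ℝ => ∫ u in Set.Icc (-1 : ℝ) 1, H (p.2 - p.1 * u) u) ∧
    (∀ τ y, |∫ u in Set.Icc (-1 : ℝ) 1, H (y - τ * u) u| ≤ 2 * Q) ∧
    (∀ τ ∈ Set.Icc (0 : ℝ) 1, ∀ y, y ∉ Set.Icc (-4 : ℝ) 4 → ∫ u in Set.Icc (-1 : ℝ) 1, H (y - τ * u) u = 0) ∧
    Integrable (fun p : ℝ × ℝ => (∫ u in Set.Icc (-1 : ℝ) 1, H (p.2 - p.1 * u) u) ^ 2)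
      ((volume.restrict (Set.Icc (0 : ℝ) 1)).prod volume) ∧
    ∫ p : ℝ × ℝ, (∫ u in Set.Icc (-1 : ℝ) 1, H (p.2 - p.1 * u) u) ^ 2 ∂((volume.restrict (Set.Icc (0 : ℝ) 1)).prod volume)
      ≤ 12 * Q * P := by
  set μ : Measure ℝ := volume.restrict (Set.Icc (0 : ℝ) 1) with hμ
  set ν : Measure ℝ := volume.restrict (Set.Icc (-1 : ℝ) 1) with hν
  have hQ0 : 0 ≤ Q := le_trans (abs_nonneg _) (hb 0 0)
  have hP0 : 0 ≤ P := le_trans (abs_nonneg _) (hP 0 0)
  have hμu : μ Set.univ = 1 := by rw [hμ, Measure.restrict_apply_univ, Real.volume_Icc]; norm_num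
  have hνu : ν Set.univ = 2 := by
    rw [hν, Measure.restrict_apply_univ, Real.volume_Icc]; norm_num
  set Φ : ℝ → ℝ → ℝ := fun τ y => ∫ u, H (y - τ * u) u ∂ν with hΦ
  have hHc : ∀ {α : Type} [MeasurableSpace α] (a b : α → ℝ), Measurable a → Measurable b →
      Measurable fun x => H (a x) (b x) := fun a b ha hb => hH.comp (ha.prodMk hb)
  have hΦm : Measurable (fun p : ℝ × ℝ => Φ p.1 p.2) := by
    have h1 : Measurable (Function.uncurry (fun (p : ℝ × ℝ) (u : ℝ) => H (p.2 - p.1 * u) u)) :=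
      hHc (fun q : (ℝ × ℝ) × ℝ => q.1.2 - q.1.1 * q.2) (fun q => q.2) (by fun_prop) (by fun_prop)
    exact (StronglyMeasurable.integral_prod_right (ν := ν) h1.stronglyMeasurable).measurable
  have hΦc : ∀ {α : Type} [MeasurableSpace α] (a b : α → ℝ), Measurable a → Measurable b →
      Measurable fun x => Φ (a x) (b x) := fun a b ha hb => hΦm.comp (ha.prodMk hb)
  have hΦb : ∀ τ y, |Φ τ y| ≤ 2 * Q := by
    intro τ y
    have := norm_setIntegral_le_of_norm_le_const (μ := volume) (s := Set.Icc (-1 : ℝ) 1) (C := Q)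
      (f := fun u => H (y - τ * u) u) (by simp) (fun u _ => by rw [Real.norm_eq_abs]; exact hb _ _)
    rw [Real.norm_eq_abs, measureReal_def, Real.volume_Icc] at this
    norm_num at this
    linarith
  have hΦs : ∀ τ ∈ Set.Icc (0 : ℝ) 1, ∀ y, y ∉ Set.Icc (-4 : ℝ) 4 → Φ τ y = 0 := by
    intro τ hτ y hy
    refine setIntegral_eq_zero_of_forall_eq_zero fun u hu => ?_
    by_contra hne
    have h3 := abs_le.1 (hs _ _ hne)
    apply hy
    have h4 : |τ * u| ≤ 1 := by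
      rw [abs_mul]
      have h5 : |τ| ≤ 1 := abs_le.2 ⟨by linarith [hτ.1], hτ.2⟩
      have h6 : |u| ≤ 1 := abs_le.2 hu
      calc |τ| * |u| ≤ 1 * 1 := mul_le_mul h5 h6 (abs_nonneg _) zero_le_one
        _ = 1 := one_mul 1
    have h7 := abs_le.1 h4
    exact ⟨by linarith [h3.1, h7.1], by linarith [h3.2, h7.2]⟩
  have hae : ∀ᵐ p ∂(μ.prod (volume : Measure ℝ)), p.1 ∈ Set.Icc (0 : ℝ) 1 :=
    (Measure.quasiMeasurePreserving_fst (μ := μ) (ν := (volume : Measure ℝ))).ae (ae_restrict_mem measurableSet_Icc)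
  -- (i1)
  have i1 : Integrable (fun p : ℝ × ℝ => Φ p.1 p.2 ^ 2) (μ.prod volume) := by
    refine k2b_xr_intg (hΦm.pow_const 2) ((2 * Q) ^ 2) (fun p => ?_) (Set.univ ×ˢ Set.Icc (-4 : ℝ) 4)
      (MeasurableSet.univ.prod measurableSet_Icc) ?_ ?_
    · rw [abs_pow]; exact pow_le_pow_left₀ (abs_nonneg _) (hΦb _ _) 2
    · rw [Measure.prod_prod, hμu, Real.volume_Icc]; simp
    · filter_upwards [hae] with p hp hpS
      rw [hΦs p.1 hp p.2 (fun h => hpS ⟨trivial, h⟩)]; norm_num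
  refine ⟨hΦm, hΦb, hΦs, i1, ?_⟩
  -- the inner identity for fixed `τ`
  have hstep : ∀ τ ∈ Set.Icc (0 : ℝ) 1, ∫ y, Φ τ y ^ 2 =
      ∫ w, Φ τ (w.2 + τ * w.1) * H w.2 w.1 ∂(ν.prod volume) := by
    intro τ hτ
    have hΦτ : Measurable (Φ τ) := hΦm.comp (measurable_const.prodMk measurable_id)
    have i2 : Integrable (Function.uncurry fun (y u : ℝ) => Φ τ y * H (y - τ * u) u) ((volume : Measure ℝ).prod ν) := by
      refine k2b_xr_intg ?_ (2 * Q * Q) (fun p => ?_) (Set.Icc (-4 : ℝ) 4 ×ˢ Set.univ)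
        (measurableSet_Icc.prod MeasurableSet.univ) ?_ (ae_of_all _ fun p hp => ?_)
      · exact (hΦτ.comp measurable_fst).mul
          (hHc (fun q : ℝ × ℝ => q.1 - τ * q.2) (fun q => q.2) (by fun_prop) (by fun_prop))
      · simp only [Function.uncurry]
        rw [abs_mul]
        exact mul_le_mul (hΦb _ _) (hb _ _) (abs_nonneg _) (by positivity)
      · rw [Measure.prod_prod, hνu, Real.volume_Icc]
        exact ENNReal.mul_ne_top ENNReal.ofReal_ne_top (by norm_num)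
      · simp only [Function.uncurry]
        rw [hΦs τ hτ p.1 (fun h => hp ⟨h, trivial⟩), zero_mul]
    have i3 : Integrable (fun w : ℝ × ℝ => Φ τ (w.2 + τ * w.1) * H w.2 w.1) (ν.prod volume) := by
      refine k2b_xr_intg ?_ (2 * Q * Q) (fun p => ?_) (Set.univ ×ˢ Set.Icc (-3 : ℝ) 3)
        (MeasurableSet.univ.prod measurableSet_Icc) ?_ (ae_of_all _ fun p hp => ?_)
      · exact (hΦc (fun _ : ℝ × ℝ => τ) (fun q => q.2 + τ * q.1) (by fun_prop) (by fun_prop)).mul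
          (hHc (fun q : ℝ × ℝ => q.2) (fun q => q.1) (by fun_prop) (by fun_prop))
      · rw [abs_mul]
        exact mul_le_mul (hΦb _ _) (hb _ _) (abs_nonneg _) (by positivity)
      · rw [Measure.prod_prod, hνu, Real.volume_Icc]
        exact ENNReal.mul_ne_top (by norm_num) ENNReal.ofReal_ne_top
      · by_contra hne
        have h1 : H p.2 p.1 ≠ 0 := fun h => hne (by rw [h, mul_zero])
        exact hp ⟨trivial, abs_le.1 (hs _ _ h1)⟩
    calc ∫ y, Φ τ y ^ 2 = ∫ y, ∫ u, Φ τ y * H (y - τ * u) u ∂ν := by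
          refine integral_congr_ae (ae_of_all _ fun y => ?_)
          simp only
          rw [integral_const_mul, sq]
      _ = ∫ u, (∫ y, Φ τ y * H (y - τ * u) u) ∂ν := integral_integral_swap i2
      _ = ∫ u, (∫ b, Φ τ (b + τ * u) * H b u) ∂ν := by
          refine integral_congr_ae (ae_of_all _ fun u => ?_)
          simp only
          rw [← integral_add_right_eq_self (fun y => Φ τ y * H (y - τ * u) u) (τ * u)]
          simp only [add_sub_cancel_right]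
      _ = _ := (integral_prod _ i3).symm
  have i4 : Integrable (Function.uncurry fun (τ : ℝ) (w : ℝ × ℝ) => Φ τ (w.2 + τ * w.1) * H w.2 w.1)
      (μ.prod (ν.prod volume)) := by
    refine k2b_xr_intg ?_ (2 * Q * Q) (fun p => ?_) (Set.univ ×ˢ (Set.univ ×ˢ Set.Icc (-3 : ℝ) 3))
      (MeasurableSet.univ.prod (MeasurableSet.univ.prod measurableSet_Icc)) ?_ (ae_of_all _ fun p hp => ?_)
    · exact (hΦc (fun q : ℝ × (ℝ × ℝ) => q.1) (fun q => q.2.2 + q.1 * q.2.1) (by fun_prop) (by fun_prop)).mul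
        (hHc (fun q : ℝ × (ℝ × ℝ) => q.2.2) (fun q => q.2.1) (by fun_prop) (by fun_prop))
    · simp only [Function.uncurry]
      rw [abs_mul]
      exact mul_le_mul (hΦb _ _) (hb _ _) (abs_nonneg _) (by positivity)
    · rw [Measure.prod_prod, Measure.prod_prod, hμu, hνu, Real.volume_Icc]
      exact ENNReal.mul_ne_top (by norm_num) (ENNReal.mul_ne_top (by norm_num) ENNReal.ofReal_ne_top)
    · simp only [Function.uncurry]
      by_contra hne
      have h1 : H p.2.2 p.2.1 ≠ 0 := fun h => hne (by rw [h, mul_zero])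
      exact hp ⟨trivial, trivial, abs_le.1 (hs _ _ h1)⟩
  have hΨ : ∀ b u, ∫ τ, Φ τ (b + τ * u) ∂μ = ∫ u', (∫ τ, H (b + τ * u - τ * u') u' ∂μ) ∂ν := by
    intro b u
    have i5 : Integrable (Function.uncurry fun (τ u' : ℝ) => H (b + τ * u - τ * u') u') (μ.prod ν) := by
      refine k2b_xr_intg (hHc (fun q : ℝ × ℝ => b + q.1 * u - q.1 * q.2) (fun q => q.2) (by fun_prop) (by fun_prop))
        Q (fun p => hb _ _) Set.univ MeasurableSet.univ ?_
        (ae_of_all _ fun p hp => absurd trivial hp)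
      rw [← Set.univ_prod_univ, Measure.prod_prod, hμu, hνu]; norm_num
    exact integral_integral_swap i5
  calc ∫ p : ℝ × ℝ, Φ p.1 p.2 ^ 2 ∂(μ.prod volume) = ∫ τ, (∫ y, Φ τ y ^ 2) ∂μ := integral_prod _ i1
    _ = ∫ τ, (∫ w, Φ τ (w.2 + τ * w.1) * H w.2 w.1 ∂(ν.prod volume)) ∂μ :=
        setIntegral_congr_fun measurableSet_Icc hstep
    _ = ∫ w, (∫ τ, Φ τ (w.2 + τ * w.1) * H w.2 w.1 ∂μ) ∂(ν.prod volume) := integral_integral_swap i4
    _ ≤ ‖∫ w, (∫ τ, Φ τ (w.2 + τ * w.1) * H w.2 w.1 ∂μ) ∂(ν.prod volume)‖ := le_abs_self _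
    _ ≤ ∫ w, (Set.univ ×ˢ Set.Icc (-3 : ℝ) 3 : Set (ℝ × ℝ)).indicator (fun _ => P * Q) w ∂(ν.prod volume) := by
        refine norm_integral_le_of_norm_le ?_ (ae_of_all _ fun w => ?_)
        · refine (integrable_indicator_iff (MeasurableSet.univ.prod measurableSet_Icc)).2 ?_
          refine integrableOn_const ?_
          rw [Measure.prod_prod, hνu, Real.volume_Icc]
          exact ENNReal.mul_ne_top (by norm_num) ENNReal.ofReal_ne_top
        · rw [integral_mul_const, hΨ, Real.norm_eq_abs, abs_mul]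
          by_cases hw : w ∈ (Set.univ ×ˢ Set.Icc (-3 : ℝ) 3 : Set (ℝ × ℝ))
          · rw [Set.indicator_of_mem hw]
            exact mul_le_mul (hP _ _) (hb _ _) (abs_nonneg _) hP0
          · rw [Set.indicator_of_notMem hw]
            have : H w.2 w.1 = 0 := by
              by_contra hne
              exact hw ⟨trivial, abs_le.1 (hs _ _ hne)⟩
            rw [this, abs_zero, mul_zero]
    _ = 12 * Q * P := by
        rw [integral_indicator_const _ (MeasurableSet.univ.prod measurableSet_Icc), measureReal_def,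
          Measure.prod_prod, hνu, Real.volume_Icc, smul_eq_mul]
        norm_num
        ring

/-- **LEAF L-252-S2b-XR2: the `T T^*` estimate, one base coordinate.**  See the header.  All functions are bounded, measurable, with bounded support: every Fubini step is legitimate (`integrable` on a product of finite-measure sets).
`‖H‖_{L¹} ≤ 2 · Q · 4 · 2`.   You may first prove the `L²` bound `∫ τ in Icc 0 1, ∫ y, Φ² ≤ 128 Q² √σ`. -/
theorem k2b_xr_one (f : ℝ → ℝ → ℝ) (hf : Measurable (Function.uncurry f)) (Q σ : ℝ) (hQ : ∀ b u, 0 ≤ f b u ∧ f b u ≤ Q)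
    (hsupp : ∀ b u, f b u ≠ 0 → |b| ≤ 2 ∧ |u| ≤ 1) (sh : ℝ → ℝ) (hsh : Measurable sh) (hσ : ∀ u, |sh u| ≤ σ) (hσ1 : σ ≤ 1) :
    ∫⁻ τ in Set.Icc (0 : ℝ) 1, ∫⁻ y, ‖∫ u in Set.Icc (-1 : ℝ) 1, (f (y - τ * u + sh u) u - f (y - τ * u) u)‖ₑ
      ≤ ENNReal.ofReal (32 * Q * σ ^ (1 / 4 : ℝ)) := by
  have hQ0 : 0 ≤ Q := le_trans (hQ 0 0).1 (hQ 0 0).2
  have hσ0 : 0 ≤ σ := le_trans (abs_nonneg _) (hσ 0)
  set H : ℝ → ℝ → ℝ := fun b u => f (b + sh u) u - f b u with hHdef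
  have hfc : ∀ {α : Type} [MeasurableSpace α] (a b : α → ℝ), Measurable a → Measurable b →
      Measurable fun x => f (a x) (b x) := fun a b ha hb => hf.comp (ha.prodMk hb)
  have hH : Measurable (Function.uncurry H) :=
    (hfc (fun q : ℝ × ℝ => q.1 + sh q.2) (fun q => q.2) (measurable_fst.add (hsh.comp measurable_snd)) measurable_snd).sub
      (hfc (fun q : ℝ × ℝ => q.1) (fun q => q.2) measurable_fst measurable_snd)
  have hHc : ∀ {α : Type} [MeasurableSpace α] (a b : α → ℝ), Measurable a → Measurable b →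
      Measurable fun x => H (a x) (b x) := fun a b ha hb => hH.comp (ha.prodMk hb)
  have hb : ∀ b u, |H b u| ≤ Q := fun b u => by
    rw [abs_le]
    have h1 := hQ (b + sh u) u
    have h2 := hQ b u
    exact ⟨by simp only [hHdef]; linarith [h1.1, h2.2], by simp only [hHdef]; linarith [h1.2, h2.1]⟩
  have hs : ∀ b u, H b u ≠ 0 → |b| ≤ 3 := by
    intro b u hne
    have h3 := abs_le.1 (hσ u)
    by_cases h1 : f b u = 0
    · have h2 : f (b + sh u) u ≠ 0 := fun h => hne (by simp only [hHdef]; rw [h, h1, sub_zero])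
      have h4 := abs_le.1 (hsupp _ _ h2).1
      exact abs_le.2 ⟨by linarith [h4.1, h3.2], by linarith [h4.2, h3.1]⟩
    · exact (hsupp _ _ h1).1.trans (by norm_num)
  have hP : ∀ b u, |∫ u' in Set.Icc (-1 : ℝ) 1, ∫ τ in Set.Icc (0 : ℝ) 1, H (b + τ * u - τ * u') u'| ≤
      8 * Q * Real.sqrt σ := by
    intro b u
    have hkm : Measurable fun u' : ℝ => ∫ τ in Set.Icc (0 : ℝ) 1, H (b + τ * u - τ * u') u' := by
      have h1 : Measurable (Function.uncurry (fun (u' τ : ℝ) => H (b + τ * u - τ * u') u')) :=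
        hHc (fun q : ℝ × ℝ => b + q.2 * u - q.2 * q.1) (fun q => q.1) (by fun_prop) (by fun_prop)
      exact (StronglyMeasurable.integral_prod_right (ν := volume.restrict (Set.Icc (0 : ℝ) 1))
        h1.stronglyMeasurable).measurable
    have hx : ∀ u', |∫ τ in Set.Icc (0 : ℝ) 1, H (b + τ * u - τ * u') u'| * |u - u'| ≤ 2 * Q * |sh u'| ∧
        |∫ τ in Set.Icc (0 : ℝ) 1, H (b + τ * u - τ * u') u'| ≤ 2 * Q := by
      intro u'
      have h1 := k2b_xr_interval (fun x => f x u') (hfc (fun x : ℝ => x) (fun _ => u') measurable_id measurable_const) Q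
        (fun x => by rw [abs_of_nonneg (hQ x u').1]; exact (hQ x u').2) b (u - u') (sh u')
      have e : ∫ τ in Set.Icc (0 : ℝ) 1, H (b + τ * u - τ * u') u' =
          ∫ τ in (0 : ℝ)..1, (f (b + τ * (u - u') + sh u') u' - f (b + τ * (u - u')) u') := by
        rw [intervalIntegral.integral_of_le zero_le_one, integral_Icc_eq_integral_Ioc]
        refine integral_congr_ae (ae_of_all _ fun τ => ?_)
        simp only [hHdef]
        rw [show b + τ * u - τ * u' = b + τ * (u - u') by ring]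
      rw [e]
      exact h1
    rw [← Real.norm_eq_abs]
    refine (norm_integral_le_integral_norm (fun u' : ℝ => ∫ τ in Set.Icc (0 : ℝ) 1, H (b + τ * u - τ * u') u')).trans ?_
    have := k2b_xr_kernelA (2 * Q) σ u (by positivity) hσ0
      (fun u' => ‖∫ τ in Set.Icc (0 : ℝ) 1, H (b + τ * u - τ * u') u'‖) hkm.norm (fun _ => norm_nonneg _)
      (fun u' => (hx u').2) (fun u' => (hx u').1.trans (mul_le_mul_of_nonneg_left (hσ u') (by positivity)))
    linarith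
  obtain ⟨hΦm, hΦb, hΦs, hΦi, hI⟩ := k2b_xr_tt H hH Q (8 * Q * Real.sqrt σ) hb hs hP
  set μ : Measure ℝ := volume.restrict (Set.Icc (0 : ℝ) 1) with hμ
  have hμu : μ Set.univ = 1 := by rw [hμ, Measure.restrict_apply_univ, Real.volume_Icc]; norm_num
  set Φ : ℝ × ℝ → ℝ := fun p => ∫ u in Set.Icc (-1 : ℝ) 1, H (p.2 - p.1 * u) u with hΦ
  set I₂ := ∫ p, Φ p ^ 2 ∂(μ.prod volume) with hI₂
  have hae : ∀ᵐ p ∂(μ.prod (volume : Measure ℝ)), p.1 ∈ Set.Icc (0 : ℝ) 1 :=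
    (Measure.quasiMeasurePreserving_fst (μ := μ) (ν := (volume : Measure ℝ))).ae (ae_restrict_mem measurableSet_Icc)
  have hL : ∫⁻ τ in Set.Icc (0 : ℝ) 1, ∫⁻ y, ‖∫ u in Set.Icc (-1 : ℝ) 1, (f (y - τ * u + sh u) u - f (y - τ * u) u)‖ₑ =
      ∫⁻ p, ‖Φ p‖ₑ ∂(μ.prod volume) := (lintegral_prod _ hΦm.enorm.aemeasurable).symm
  rw [hL]
  -- the bound for every `lam > 0`
  have hlam : ∀ lam : ℝ, 0 < lam → ∫⁻ p, ‖Φ p‖ₑ ∂(μ.prod volume) ≤ ENNReal.ofReal (4 * lam + I₂ / (2 * lam)) := by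
    intro lam hl
    set S : Set (ℝ × ℝ) := Set.univ ×ˢ Set.Icc (-4 : ℝ) 4 with hS
    have hSm : MeasurableSet S := MeasurableSet.univ.prod measurableSet_Icc
    have h1 : ∀ᵐ p ∂(μ.prod (volume : Measure ℝ)), ‖Φ p‖ₑ ≤
        S.indicator (fun _ => ENNReal.ofReal (lam / 2)) p + ENNReal.ofReal (Φ p ^ 2 / (2 * lam)) := by
      filter_upwards [hae] with p hp
      by_cases hpS : p ∈ S
      · rw [Set.indicator_of_mem hpS, ← ENNReal.ofReal_add (by positivity) (by positivity), ← ofReal_norm,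
          Real.norm_eq_abs]
        refine ENNReal.ofReal_le_ofReal ?_
        have h2 : 0 ≤ (|Φ p| - lam) ^ 2 := sq_nonneg _
        have h3 : Φ p ^ 2 = |Φ p| ^ 2 := (sq_abs _).symm
        rw [h3, div_add_div _ _ (by norm_num) (by positivity), le_div_iff₀ (by positivity)]
        nlinarith
      · have : Φ p = 0 := hΦs p.1 hp p.2 (fun h => hpS ⟨trivial, h⟩)
        rw [this, enorm_zero]; exact zero_le
    refine (lintegral_mono_ae h1).trans ?_
    rw [lintegral_add_left (measurable_const.indicator hSm), lintegral_indicator_const hSm, hS, Measure.prod_prod,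
      hμu, Real.volume_Icc, ← ofReal_integral_eq_lintegral_ofReal (hΦi.div_const _)
        (ae_of_all _ fun p => by positivity), integral_div, one_mul, ← ENNReal.ofReal_mul (by positivity),
      ← ENNReal.ofReal_add (by positivity) (div_nonneg (integral_nonneg fun p => by positivity) (by positivity))]
    refine ENNReal.ofReal_le_ofReal (le_of_eq ?_)
    rw [← hI₂]
    ring
  set m₀ := 16 * Q * σ ^ (1 / 4 : ℝ) with hm₀
  have hm₀0 : 0 ≤ m₀ := by positivity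
  have hsq : (σ ^ (1 / 4 : ℝ)) ^ 2 = Real.sqrt σ := by
    rw [← Real.rpow_natCast, ← Real.rpow_mul hσ0, Real.sqrt_eq_rpow]; norm_num
  have hI' : I₂ ≤ m₀ ^ 2 / 2 := by
    have h4 : m₀ ^ 2 = 256 * Q ^ 2 * Real.sqrt σ := by rw [hm₀, mul_pow, mul_pow, hsq]; norm_num
    rw [h4]
    have h5 : 0 ≤ Q ^ 2 * Real.sqrt σ := by positivity
    calc I₂ ≤ 12 * Q * (8 * Q * Real.sqrt σ) := hI
      _ = 96 * (Q ^ 2 * Real.sqrt σ) := by ring
      _ ≤ 256 * Q ^ 2 * Real.sqrt σ / 2 := by linarith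
  have e32 : 32 * Q * σ ^ (1 / 4 : ℝ) = 2 * m₀ := by rw [hm₀]; ring
  rw [e32]
  rcases hm₀0.eq_or_lt with h0 | h0
  · rw [← h0, mul_zero, ENNReal.ofReal_zero]
    refine ENNReal.le_of_forall_pos_le_add fun ε hε _ => ?_
    have hε' : (0 : ℝ) < (ε : ℝ) / 4 := by positivity
    refine (hlam _ hε').trans ?_
    rw [zero_add]
    have h6 : I₂ ≤ 0 := by rw [← h0] at hI'; simpa using hI'
    have h7 : I₂ / (2 * ((ε : ℝ) / 4)) ≤ 0 := div_nonpos_of_nonpos_of_nonneg h6 (by positivity)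
    calc ENNReal.ofReal (4 * ((ε : ℝ) / 4) + I₂ / (2 * ((ε : ℝ) / 4))) ≤ ENNReal.ofReal (ε : ℝ) :=
          ENNReal.ofReal_le_ofReal (by linarith)
      _ = ε := ENNReal.ofReal_coe_nnreal
  · refine (hlam (m₀ / 4) (by positivity)).trans (ENNReal.ofReal_le_ofReal ?_)
    have h8 : I₂ / (2 * (m₀ / 4)) ≤ m₀ := by
      rw [div_le_iff₀ (by positivity)]
      calc I₂ ≤ m₀ ^ 2 / 2 := hI'
        _ = m₀ * (2 * (m₀ / 4)) := by ring
    linarith

/-- insertion of the coordinate `a` -/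
def k2bIns {n : ℕ} (a : Fin (n + 1)) (x : ℝ) (r : Fin n → ℝ) : Fin (n + 1) → ℝ := a.insertNth (α := fun _ => ℝ) x r

theorem k2bIns_eqns_cite : True := by
  have := @k2bIns.eq_1
  trivial

theorem k2b_ins_same {n : ℕ} (a : Fin (n + 1)) (x : ℝ) (r : Fin n → ℝ) : k2bIns a x r a = x := by
  simp [k2bIns]

theorem k2b_ins_succ {n : ℕ} (a : Fin (n + 1)) (x : ℝ) (r : Fin n → ℝ) (j : Fin n) : k2bIns a x r (a.succAbove j) = r j := by
  simp [k2bIns]

theorem k2b_ins_ext {n : ℕ} (a : Fin (n + 1)) {v w : Fin (n + 1) → ℝ} (h0 : v a = w a)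
    (h1 : ∀ j, v (a.succAbove j) = w (a.succAbove j)) : v = w := by
  ext i
  exact Fin.succAboveCases (α := fun i => v i = w i) a h0 h1 i

theorem k2b_ins_add {n : ℕ} (a : Fin (n + 1)) (x x' : ℝ) (r r' : Fin n → ℝ) :
    k2bIns a x r + k2bIns a x' r' = k2bIns a (x + x') (r + r') := by
  refine k2b_ins_ext a ?_ fun j => ?_
  · simp only [Pi.add_apply, k2b_ins_same]
  · simp only [Pi.add_apply, k2b_ins_succ]

theorem k2b_ins_shift {n : ℕ} (a : Fin (n + 1)) (y : Fin (n + 1) → ℝ) (τ ua s : ℝ) (ur : Fin n → ℝ) :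
    y - τ • k2bIns a ua ur + Pi.single a s = y - τ • k2bIns a 0 ur + k2bIns a (-(τ * ua) + s) 0 := by
  refine k2b_ins_ext a ?_ fun j => ?_
  · simp only [Pi.add_apply, Pi.sub_apply, Pi.smul_apply, k2b_ins_same, Pi.single_eq_same, smul_eq_mul]
    ring
  · simp only [Pi.add_apply, Pi.sub_apply, Pi.smul_apply, k2b_ins_succ, smul_eq_mul, Pi.zero_apply]
    rw [Pi.single_eq_of_ne (Fin.succAbove_ne a j)]

theorem k2b_ins_shift0 {n : ℕ} (a : Fin (n + 1)) (y : Fin (n + 1) → ℝ) (τ ua : ℝ) (ur : Fin n → ℝ) :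
    y - τ • k2bIns a ua ur = y - τ • k2bIns a 0 ur + k2bIns a (-(τ * ua)) 0 := by
  have := k2b_ins_shift a y τ ua 0 ur
  rwa [Pi.single_zero, add_zero, add_zero] at this

theorem k2b_ins_meas {n : ℕ} (a : Fin (n + 1)) : Measurable (fun p : ℝ × (Fin n → ℝ) => k2bIns a p.1 p.2) :=
  (MeasurableEquiv.piFinSuccAbove (fun _ => ℝ) a).symm.measurable

theorem k2b_ins_meas' {α : Type*} [MeasurableSpace α] {n : ℕ} (a : Fin (n + 1)) {g : α → ℝ} {h : α → Fin n → ℝ}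
    (hg : Measurable g) (hh : Measurable h) : Measurable fun x => k2bIns a (g x) (h x) :=
  (k2b_ins_meas a).comp (hg.prodMk hh)

theorem k2b_ins_norm {n : ℕ} (a : Fin (n + 1)) (x : ℝ) (r : Fin n → ℝ) : |x| ≤ ‖k2bIns a x r‖ ∧ ‖r‖ ≤ ‖k2bIns a x r‖ := by
  constructor
  · have := norm_le_pi_norm (k2bIns a x r) a
    rwa [k2b_ins_same, Real.norm_eq_abs] at this
  · rw [pi_norm_le_iff_of_nonneg (norm_nonneg _)]
    intro j
    have := norm_le_pi_norm (k2bIns a x r) (a.succAbove j)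
    rwa [k2b_ins_succ] at this

theorem k2b_ins_lintegral {n : ℕ} (a : Fin (n + 1)) (G : (Fin (n + 1) → ℝ) → ℝ≥0∞) (hG : Measurable G) :
    ∫⁻ y, G y = ∫⁻ yr, ∫⁻ ya, G (k2bIns a ya yr) := by
  have hp := (volume_preserving_piFinSuccAbove (fun _ : Fin (n + 1) => ℝ) a).symm
  rw [← hp.lintegral_comp_emb (MeasurableEquiv.measurableEmbedding _) G, Measure.volume_eq_prod]
  exact lintegral_prod_symm _ (hG.comp (MeasurableEquiv.measurable _)).aemeasurable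

theorem k2b_ins_integral {n : ℕ} (a : Fin (n + 1)) (G : (Fin (n + 1) → ℝ) → ℝ) (hG : Integrable G) :
    ∫ y, G y = ∫ yr, ∫ ya, G (k2bIns a ya yr) := by
  have hp := (volume_preserving_piFinSuccAbove (fun _ : Fin (n + 1) => ℝ) a).symm
  have hi := (hp.integrable_comp_emb (MeasurableEquiv.measurableEmbedding _)).2 hG
  rw [← hp.integral_comp' G]
  rw [Measure.volume_eq_prod] at hi ⊢
  exact integral_prod_symm _ hi

/-- the integrand of the frozen one-coordinate X-ray difference -/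
def k2bAxF {n : ℕ} (a : Fin (n + 1)) (f : (Fin (n + 1) → ℝ) → (Fin (n + 1) → ℝ) → ℝ) (sh : (Fin (n + 1) → ℝ) → ℝ)
    (τ : ℝ) (y : Fin (n + 1) → ℝ) (ur : Fin n → ℝ) (ua : ℝ) : ℝ :=
  f (y + k2bIns a (-(τ * ua) + sh (k2bIns a ua ur)) 0) (k2bIns a ua ur) - f (y + k2bIns a (-(τ * ua)) 0) (k2bIns a ua ur)

theorem k2bAxF_eqns_cite : True := by
  have := @k2bAxF.eq_1
  trivial

theorem k2b_axF_meas {n : ℕ} (a : Fin (n + 1)) (f : (Fin (n + 1) → ℝ) → (Fin (n + 1) → ℝ) → ℝ) (hf : Measurable (Function.uncurry f))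
    (sh : (Fin (n + 1) → ℝ) → ℝ) (hsh : Measurable sh) :
    Measurable (fun x : (ℝ × (Fin (n + 1) → ℝ) × (Fin n → ℝ)) × ℝ => k2bAxF a f sh x.1.1 x.1.2.1 x.1.2.2 x.2) := by
  have h1 : Measurable (fun x : (ℝ × (Fin (n + 1) → ℝ) × (Fin n → ℝ)) × ℝ => k2bIns a x.2 x.1.2.2) :=
    k2b_ins_meas' a measurable_snd measurable_fst.snd.snd
  have h2 : Measurable (fun x : (ℝ × (Fin (n + 1) → ℝ) × (Fin n → ℝ)) × ℝ => -(x.1.1 * x.2)) :=
    (measurable_fst.fst.mul measurable_snd).neg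
  have h3 : Measurable (fun x : (ℝ × (Fin (n + 1) → ℝ) × (Fin n → ℝ)) × ℝ => x.1.2.1) := measurable_fst.snd.fst
  unfold k2bAxF
  refine Measurable.sub ?_ ?_
  · exact hf.comp ((h3.add (k2b_ins_meas' a (h2.add (hsh.comp h1)) measurable_const)).prodMk h1)
  · exact hf.comp ((h3.add (k2b_ins_meas' a h2 measurable_const)).prodMk h1)

theorem k2b_axP_meas {n : ℕ} (a : Fin (n + 1)) (f : (Fin (n + 1) → ℝ) → (Fin (n + 1) → ℝ) → ℝ) (hf : Measurable (Function.uncurry f))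
    (sh : (Fin (n + 1) → ℝ) → ℝ) (hsh : Measurable sh) :
    Measurable (fun x : ℝ × (Fin (n + 1) → ℝ) × (Fin n → ℝ) => ‖∫ ua, k2bAxF a f sh x.1 x.2.1 x.2.2 ua‖ₑ) :=
  ((k2b_axF_meas a f hf sh hsh).stronglyMeasurable.integral_prod_right').measurable.enorm

theorem k2b_ax_int {α : Type*} [MeasurableSpace α] (μ : Measure α) (g : α → ℝ) (hg : Measurable g) (C : ℝ) (hC : ∀ x, |g x| ≤ C)
    (s : Set α) (hμ : μ s ≠ ⊤) (h0 : ∀ x, x ∉ s → g x = 0) : Integrable g μ := by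
  have h1 : IntegrableOn g s μ := Measure.integrableOn_of_bounded hμ hg.aestronglyMeasurable (M := C)
    (Filter.Eventually.of_forall fun x => by rw [Real.norm_eq_abs]; exact hC x)
  refine (integrableOn_iff_integrable_of_support_subset ?_).1 h1
  intro x hx
  by_contra hxs
  exact hx (h0 x hxs)

theorem k2b_ax_point {n : ℕ} (a : Fin (n + 1)) (f : (Fin (n + 1) → ℝ) → (Fin (n + 1) → ℝ) → ℝ) (hf : Measurable (Function.uncurry f))
    (Q : ℝ) (hQ : ∀ b u, 0 ≤ f b u ∧ f b u ≤ Q) (hsupp : ∀ b u, f b u ≠ 0 → ‖b‖ ≤ 2 ∧ ‖u‖ ≤ 1)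
    (sh : (Fin (n + 1) → ℝ) → ℝ) (hsh : Measurable sh) (τ : ℝ) (y : Fin (n + 1) → ℝ) :
    ‖∫ u, (f (y - τ • u + Pi.single a (sh u)) u - f (y - τ • u) u)‖ₑ
      ≤ ∫⁻ ur, ‖∫ ua, k2bAxF a f sh τ (y - τ • k2bIns a 0 ur) ur ua‖ₑ := by
  have hm1 : Measurable (fun u : Fin (n + 1) → ℝ => y - τ • u) := measurable_const.sub (measurable_id.const_smul τ)
  have hm2 : Measurable (fun u : Fin (n + 1) → ℝ => (Pi.single a (sh u) : Fin (n + 1) → ℝ)) := by
    have : (fun u : Fin (n + 1) → ℝ => (Pi.single a (sh u) : Fin (n + 1) → ℝ)) = fun u => k2bIns a (sh u) 0 := by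
      ext1 u
      have := k2b_ins_shift a 0 0 0 (sh u) 0
      simpa using this
    rw [this]
    exact k2b_ins_meas' a hsh measurable_const
  have hint : Integrable (fun u => f (y - τ • u + Pi.single a (sh u)) u - f (y - τ • u) u) := by
    refine k2b_ax_int volume _ ?_ Q ?_ (Metric.closedBall 0 1) ?_ ?_
    · exact (hf.comp ((hm1.add hm2).prodMk measurable_id)).sub (hf.comp (hm1.prodMk measurable_id))
    · intro u
      rw [abs_le]
      constructor <;> linarith [(hQ (y - τ • u + Pi.single a (sh u)) u).1, (hQ (y - τ • u + Pi.single a (sh u)) u).2,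
        (hQ (y - τ • u) u).1, (hQ (y - τ • u) u).2]
    · exact (isCompact_closedBall _ _).measure_lt_top.ne
    · intro u hu
      have hu' : ¬ ‖u‖ ≤ 1 := by
        intro h
        exact hu (mem_closedBall_zero_iff.2 h)
      have e1 : f (y - τ • u + Pi.single a (sh u)) u = 0 := by
        by_contra h
        exact hu' (hsupp _ _ h).2
      have e2 : f (y - τ • u) u = 0 := by
        by_contra h
        exact hu' (hsupp _ _ h).2
      rw [e1, e2, sub_zero]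
  rw [k2b_ins_integral a _ hint]
  refine (enorm_integral_le_lintegral_enorm _).trans (le_of_eq ?_)
  refine lintegral_congr fun ur => ?_
  congr 1
  refine integral_congr_ae (Filter.Eventually.of_forall fun ua => ?_)
  show f (y - τ • k2bIns a ua ur + Pi.single a (sh (k2bIns a ua ur))) (k2bIns a ua ur) - f (y - τ • k2bIns a ua ur) (k2bIns a ua ur)
    = k2bAxF a f sh τ (y - τ • k2bIns a 0 ur) ur ua
  unfold k2bAxF
  rw [k2b_ins_shift, k2b_ins_shift0 a y τ ua ur]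

theorem k2b_ax_slice {n : ℕ} (a : Fin (n + 1)) (f : (Fin (n + 1) → ℝ) → (Fin (n + 1) → ℝ) → ℝ) (hf : Measurable (Function.uncurry f))
    (Q σ : ℝ) (hQ : ∀ b u, 0 ≤ f b u ∧ f b u ≤ Q) (hsupp : ∀ b u, f b u ≠ 0 → ‖b‖ ≤ 2 ∧ ‖u‖ ≤ 1)
    (sh : (Fin (n + 1) → ℝ) → ℝ) (hsh : Measurable sh) (hσ : ∀ u, |sh u| ≤ σ) (hσ1 : σ ≤ 1) (yr ur : Fin n → ℝ) :
    ∫⁻ τ in Set.Icc (0 : ℝ) 1, ∫⁻ ya, ‖∫ ua, k2bAxF a f sh τ (k2bIns a ya yr) ur ua‖ₑ ≤ ENNReal.ofReal (32 * Q * σ ^ (1 / 4 : ℝ)) := by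
  have key := k2b_xr_one (fun b u => f (k2bIns a b yr) (k2bIns a u ur))
    (hf.comp ((k2b_ins_meas' a measurable_fst measurable_const).prodMk (k2b_ins_meas' a measurable_snd measurable_const)))
    Q σ (fun b u => hQ _ _)
    (fun b u h => ⟨(k2b_ins_norm a b yr).1.trans (hsupp _ _ h).1, (k2b_ins_norm a u ur).1.trans (hsupp _ _ h).2⟩)
    (fun u => sh (k2bIns a u ur)) (hsh.comp (k2b_ins_meas' a measurable_id measurable_const)) (fun u => hσ _) hσ1
  refine le_trans (le_of_eq ?_) key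
  refine lintegral_congr fun τ => lintegral_congr fun ya => ?_
  congr 1
  rw [setIntegral_eq_integral_of_forall_compl_eq_zero]
  · refine integral_congr_ae (Filter.Eventually.of_forall fun ua => ?_)
    show k2bAxF a f sh τ (k2bIns a ya yr) ur ua = _
    unfold k2bAxF
    rw [k2b_ins_add, k2b_ins_add, add_zero, show ya + (-(τ * ua) + sh (k2bIns a ua ur)) = ya - τ * ua + sh (k2bIns a ua ur) by ring,
      show ya + -(τ * ua) = ya - τ * ua by ring]
  · intro u hu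
    have hu' : ¬ ‖k2bIns a u ur‖ ≤ 1 := by
      intro h
      have := (k2b_ins_norm a u ur).1.trans h
      rw [abs_le] at this
      exact hu ⟨this.1, this.2⟩
    have e1 : f (k2bIns a (ya - τ * u + sh (k2bIns a u ur)) yr) (k2bIns a u ur) = 0 := by
      by_contra h
      exact hu' (hsupp _ _ h).2
    have e2 : f (k2bIns a (ya - τ * u) yr) (k2bIns a u ur) = 0 := by
      by_contra h
      exact hu' (hsupp _ _ h).2
    rw [e1, e2, sub_zero]

theorem k2b_ax_slice0 {n : ℕ} (a : Fin (n + 1)) (f : (Fin (n + 1) → ℝ) → (Fin (n + 1) → ℝ) → ℝ)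
    (hsupp : ∀ b u, f b u ≠ 0 → ‖b‖ ≤ 2 ∧ ‖u‖ ≤ 1)
    (sh : (Fin (n + 1) → ℝ) → ℝ) (yr ur : Fin n → ℝ) (h : ¬ (‖yr‖ ≤ 2 ∧ ‖ur‖ ≤ 1)) :
    ∫⁻ τ in Set.Icc (0 : ℝ) 1, ∫⁻ ya, ‖∫ ua, k2bAxF a f sh τ (k2bIns a ya yr) ur ua‖ₑ = 0 := by
  have h0 : ∀ τ ya ua, k2bAxF a f sh τ (k2bIns a ya yr) ur ua = 0 := by
    intro τ ya ua
    unfold k2bAxF
    rw [k2b_ins_add, k2b_ins_add, add_zero]
    have e : ∀ x, f (k2bIns a x yr) (k2bIns a ua ur) = 0 := by
      intro x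
      by_contra hne
      exact h ⟨(k2b_ins_norm a x yr).2.trans (hsupp _ _ hne).1, (k2b_ins_norm a ua ur).2.trans (hsupp _ _ hne).2⟩
    rw [e, e, sub_zero]
  simp only [h0, integral_zero, enorm_zero, lintegral_zero]

/-- **LEAF L-252-S2b-XR3: a shift in ONE base coordinate `a`, `n + 1` base coordinates.**   Split `y, u` by `MeasurableEquiv.piFinSuccAbove (fun _ => ℝ) a` (`volume_preserving_piFinSuccAbove`).   `‖∫ du …‖ ≤ ∫ du_rest ‖∫ du_a …‖`;  Tonelli;  for fixed `(τ, u_rest)` substitute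
`b_rest = y_rest - τ u_rest` (translation invariance);  for fixed `(b_rest, u_rest)` apply `k2b_xr_one` to `(b_a, u_a) ↦ f (insert b_a b_rest) (insert u_a u_rest)` with the shift `u_a ↦ sh (insert u_a u_rest)`;
the slice vanishes unless `‖b_rest‖ ≤ 2`, `‖u_rest‖ ≤ 1`: volume `4^n 2^n`. -/
theorem k2b_xr_axis {n : ℕ} (a : Fin (n + 1)) (f : (Fin (n + 1) → ℝ) → (Fin (n + 1) → ℝ) → ℝ) (hf : Measurable (Function.uncurry f))
    (Q σ : ℝ) (hQ : ∀ b u, 0 ≤ f b u ∧ f b u ≤ Q) (hsupp : ∀ b u, f b u ≠ 0 → ‖b‖ ≤ 2 ∧ ‖u‖ ≤ 1)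
    (sh : (Fin (n + 1) → ℝ) → ℝ) (hsh : Measurable sh) (hσ : ∀ u, |sh u| ≤ σ) (hσ1 : σ ≤ 1) :
    ∫⁻ τ in Set.Icc (0 : ℝ) 1, ∫⁻ y, ‖∫ u, (f (y - τ • u + Pi.single a (sh u)) u - f (y - τ • u) u)‖ₑ
      ≤ ENNReal.ofReal (32 * 8 ^ n * Q * σ ^ (1 / 4 : ℝ)) := by
  have hQ0 : 0 ≤ Q := (hQ 0 0).1.trans (hQ 0 0).2
  have hσ0 : 0 ≤ σ := (abs_nonneg _).trans (hσ 0)
  obtain ⟨P, hP⟩ : ∃ P : ℝ × (Fin (n + 1) → ℝ) × (Fin n → ℝ) → ℝ≥0∞,
      P = fun x => ‖∫ ua, k2bAxF a f sh x.1 x.2.1 x.2.2 ua‖ₑ := ⟨_, rfl⟩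
  have hPm : Measurable P := by
    rw [hP]
    exact k2b_axP_meas a f hf sh hsh
  obtain ⟨c, hc⟩ : ∃ c : ℝ≥0∞, c = ENNReal.ofReal (32 * Q * σ ^ (1 / 4 : ℝ)) := ⟨_, rfl⟩
  have hpt : ∀ τ y, ‖∫ u, (f (y - τ • u + Pi.single a (sh u)) u - f (y - τ • u) u)‖ₑ
      ≤ ∫⁻ ur, P (τ, y - τ • k2bIns a 0 ur, ur) := by
    intro τ y
    rw [hP]
    exact k2b_ax_point a f hf Q hQ hsupp sh hsh τ y
  have hsl : ∀ yr ur, ∫⁻ τ in Set.Icc (0 : ℝ) 1, ∫⁻ ya, P (τ, k2bIns a ya yr, ur) ≤ c := by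
    intro yr ur
    rw [hP, hc]
    exact k2b_ax_slice a f hf Q σ hQ hsupp sh hsh hσ hσ1 yr ur
  have hsl0 : ∀ yr ur, ¬ (‖yr‖ ≤ 2 ∧ ‖ur‖ ≤ 1) → ∫⁻ τ in Set.Icc (0 : ℝ) 1, ∫⁻ ya, P (τ, k2bIns a ya yr, ur) = 0 := by
    intro yr ur h
    rw [hP]
    exact k2b_ax_slice0 a f hsupp sh yr ur h
  have hM4 : Measurable (fun x : ((ℝ × (Fin n → ℝ)) × (Fin n → ℝ)) × ℝ => P (x.1.1.1, k2bIns a x.2 x.1.2, x.1.1.2)) :=
    hPm.comp (measurable_fst.fst.fst.prodMk ((k2b_ins_meas' a measurable_snd measurable_fst.snd).prodMk measurable_fst.fst.snd))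
  have hM3 : Measurable (fun x : (ℝ × (Fin n → ℝ)) × (Fin n → ℝ) => ∫⁻ ya, P (x.1.1, k2bIns a ya x.2, x.1.2)) :=
    hM4.lintegral_prod_right'
  have hM2 : Measurable (fun x : ℝ × (Fin n → ℝ) => ∫⁻ yr, ∫⁻ ya, P (x.1, k2bIns a ya yr, x.2)) :=
    hM3.lintegral_prod_right'
  calc ∫⁻ τ in Set.Icc (0 : ℝ) 1, ∫⁻ y, ‖∫ u, (f (y - τ • u + Pi.single a (sh u)) u - f (y - τ • u) u)‖ₑ
      ≤ ∫⁻ τ in Set.Icc (0 : ℝ) 1, ∫⁻ y, ∫⁻ ur, P (τ, y - τ • k2bIns a 0 ur, ur) :=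
        lintegral_mono fun τ => lintegral_mono fun y => hpt τ y
    _ = ∫⁻ τ in Set.Icc (0 : ℝ) 1, ∫⁻ ur, ∫⁻ y, P (τ, y - τ • k2bIns a 0 ur, ur) := by
        refine lintegral_congr fun τ => lintegral_lintegral_swap (Measurable.aemeasurable ?_)
        exact hPm.comp (measurable_const.prodMk ((measurable_fst.sub
          ((k2b_ins_meas' a measurable_const measurable_snd).const_smul τ)).prodMk measurable_snd))
    _ = ∫⁻ τ in Set.Icc (0 : ℝ) 1, ∫⁻ ur, ∫⁻ y, P (τ, y, ur) :=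
        lintegral_congr fun τ => lintegral_congr fun ur => lintegral_sub_right_eq_self (fun y => P (τ, y, ur)) _
    _ = ∫⁻ τ in Set.Icc (0 : ℝ) 1, ∫⁻ ur, ∫⁻ yr, ∫⁻ ya, P (τ, k2bIns a ya yr, ur) :=
        lintegral_congr fun τ => lintegral_congr fun ur => k2b_ins_lintegral a (fun y => P (τ, y, ur))
          (hPm.comp (measurable_const.prodMk (measurable_id.prodMk measurable_const)))
    _ = ∫⁻ ur, ∫⁻ τ in Set.Icc (0 : ℝ) 1, ∫⁻ yr, ∫⁻ ya, P (τ, k2bIns a ya yr, ur) :=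
        lintegral_lintegral_swap hM2.aemeasurable
    _ = ∫⁻ ur, ∫⁻ yr, ∫⁻ τ in Set.Icc (0 : ℝ) 1, ∫⁻ ya, P (τ, k2bIns a ya yr, ur) := by
        refine lintegral_congr fun ur => lintegral_lintegral_swap (Measurable.aemeasurable ?_)
        exact hM3.comp ((measurable_fst.prodMk measurable_const).prodMk measurable_snd)
    _ ≤ ∫⁻ ur, (Metric.closedBall (0 : Fin n → ℝ) 1).indicator (fun _ => c * volume (Metric.closedBall (0 : Fin n → ℝ) 2)) ur := by
        refine lintegral_mono fun ur => ?_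
        by_cases hur : ‖ur‖ ≤ 1
        · rw [Set.indicator_of_mem (mem_closedBall_zero_iff.2 hur)]
          calc ∫⁻ yr, ∫⁻ τ in Set.Icc (0 : ℝ) 1, ∫⁻ ya, P (τ, k2bIns a ya yr, ur)
              ≤ ∫⁻ yr, (Metric.closedBall (0 : Fin n → ℝ) 2).indicator (fun _ => c) yr := by
                refine lintegral_mono fun yr => ?_
                by_cases hyr : ‖yr‖ ≤ 2
                · rw [Set.indicator_of_mem (mem_closedBall_zero_iff.2 hyr)]
                  exact hsl yr ur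
                · rw [hsl0 yr ur (fun h => hyr h.1)]
                  exact zero_le
            _ = c * volume (Metric.closedBall (0 : Fin n → ℝ) 2) := lintegral_indicator_const measurableSet_closedBall c
        · have : ∀ yr, ∫⁻ τ in Set.Icc (0 : ℝ) 1, ∫⁻ ya, P (τ, k2bIns a ya yr, ur) = 0 := fun yr => hsl0 yr ur (fun h => hur h.2)
          simp only [this, lintegral_zero]
          exact zero_le
    _ = c * volume (Metric.closedBall (0 : Fin n → ℝ) 2) * volume (Metric.closedBall (0 : Fin n → ℝ) 1) :=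
        lintegral_indicator_const measurableSet_closedBall _
    _ = ENNReal.ofReal (32 * 8 ^ n * Q * σ ^ (1 / 4 : ℝ)) := by
        rw [Real.volume_pi_closedBall _ (by norm_num), Real.volume_pi_closedBall _ (by norm_num), hc, Fintype.card_fin,
          ← ENNReal.ofReal_mul (by positivity), ← ENNReal.ofReal_mul (by positivity)]
        congr 1
        have : (8 : ℝ) ^ n = (2 * 2) ^ n * (2 * 1) ^ n := by
          rw [← mul_pow]
          norm_num
        rw [this]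
        ring

/-- the X-ray transform: base density at `(τ, y)` of the law with density `f(b, u)` of the traces `τ ↦ b + τ u` -/
noncomputable def k2bT {j : ℕ} (f : (Fin j → ℝ) → (Fin j → ℝ) → ℝ) (τ : ℝ) (y : Fin j → ℝ) : ℝ := ∫ u, f (y - τ • u) u

theorem k2bT_eqns_cite : True := by
  have := @k2bT.eq_1
  trivial

/-- mask: keep the coordinates `< k` -/
def k2bMask {n : ℕ} (k : ℕ) (u : Fin (n + 1) → ℝ) : Fin (n + 1) → ℝ := fun i => if i.val < k then u i else 0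

theorem k2bMask_eqns_cite : True := by
  have := @k2bMask.eq_1
  trivial

theorem k2b_mask_zero {n : ℕ} (u : Fin (n + 1) → ℝ) : k2bMask 0 u = 0 := by
  ext i
  simp [k2bMask]

theorem k2b_mask_top {n : ℕ} (u : Fin (n + 1) → ℝ) : k2bMask (n + 1) u = u := by
  ext i
  simp [k2bMask, i.isLt]

theorem k2b_mask_succ {n : ℕ} (k : Fin (n + 1)) (u : Fin (n + 1) → ℝ) :
    k2bMask (k.val + 1) u = k2bMask k.val u + Pi.single k (u k) := by
  ext i
  simp only [k2bMask, Pi.add_apply]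
  rcases lt_trichotomy i.val k.val with h | h | h
  · have hne : i ≠ k := fun e => by rw [e] at h; exact lt_irrefl _ h
    rw [if_pos (by omega), if_pos h, Pi.single_eq_of_ne hne, add_zero]
  · have he : i = k := Fin.ext h
    subst he
    rw [if_pos (by omega), if_neg (lt_irrefl _), Pi.single_eq_same, zero_add]
  · have hne : i ≠ k := fun e => by rw [e] at h; exact lt_irrefl _ h
    rw [if_neg (by omega), if_neg (by omega), Pi.single_eq_of_ne hne, add_zero]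

theorem k2b_mask_norm {n : ℕ} (k : ℕ) (u : Fin (n + 1) → ℝ) : ‖k2bMask k u‖ ≤ ‖u‖ := by
  rw [pi_norm_le_iff_of_nonneg (norm_nonneg _)]
  intro i
  unfold k2bMask
  split_ifs
  · exact norm_le_pi_norm u i
  · rw [norm_zero]
    exact norm_nonneg _

theorem k2b_mask_meas {n : ℕ} (k : ℕ) : Measurable (k2bMask (n := n) k) := by
  rw [measurable_pi_iff]
  intro i
  unfold k2bMask
  split_ifs
  · exact measurable_pi_apply i
  · exact measurable_const

theorem k2b_mod_int {n : ℕ} (f : (Fin (n + 1) → ℝ) → (Fin (n + 1) → ℝ) → ℝ) (hf : Measurable (Function.uncurry f))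
    (Q : ℝ) (hQ : ∀ b u, 0 ≤ f b u ∧ f b u ≤ Q) (hsupp : ∀ b u, f b u ≠ 0 → ‖b‖ ≤ 1 ∧ ‖u‖ ≤ 1)
    (g : (Fin (n + 1) → ℝ) → (Fin (n + 1) → ℝ)) (hg : Measurable g) : Integrable (fun u => f (g u) u) := by
  refine k2b_ax_int volume _ (hf.comp (hg.prodMk measurable_id)) Q ?_ (Metric.closedBall 0 1)
    (isCompact_closedBall _ _).measure_lt_top.ne ?_
  · intro u
    rw [abs_of_nonneg (hQ _ _).1]
    exact (hQ _ _).2
  · intro u hu
    by_contra h
    exact hu (mem_closedBall_zero_iff.2 (hsupp _ _ h).2)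

theorem k2b_mod_step {n : ℕ} (f : (Fin (n + 1) → ℝ) → (Fin (n + 1) → ℝ) → ℝ) (hf : Measurable (Function.uncurry f))
    (Q σ : ℝ) (hQ : ∀ b u, 0 ≤ f b u ∧ f b u ≤ Q) (hsupp : ∀ b u, f b u ≠ 0 → ‖b‖ ≤ 1 ∧ ‖u‖ ≤ 1) (hσ1 : σ ≤ 1)
    (s : ℝ) (hs : |s| ≤ σ) (k : Fin (n + 1)) :
    ∫⁻ τ in Set.Icc (0 : ℝ) 1, ∫⁻ y,
        ‖(∫ u, f (y - τ • u - s • k2bMask (k.val + 1) u) u) - ∫ u, f (y - τ • u - s • k2bMask k.val u) u‖ₑ
      ≤ ENNReal.ofReal (32 * 8 ^ n * Q * σ ^ (1 / 4 : ℝ)) := by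
  have key := k2b_xr_axis k (fun b u => f (b - s • k2bMask k.val u) u)
    (hf.comp ((measurable_fst.sub (((k2b_mask_meas k.val).comp measurable_snd).const_smul s)).prodMk measurable_snd))
    Q σ (fun b u => hQ _ _) ?_ (fun u => -(s * max (-1) (min 1 (u k)))) ?_ ?_ hσ1
  · refine le_trans (le_of_eq ?_) key
    refine lintegral_congr fun τ => lintegral_congr fun y => ?_
    congr 1
    have hm : Measurable (fun u : Fin (n + 1) → ℝ => y - τ • u) := measurable_const.sub (measurable_id.const_smul τ)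
    have i1 : Integrable (fun u => f (y - τ • u - s • k2bMask (k.val + 1) u) u) :=
      k2b_mod_int f hf Q hQ hsupp _ (hm.sub ((k2b_mask_meas _).const_smul s))
    have i2 : Integrable (fun u => f (y - τ • u - s • k2bMask k.val u) u) :=
      k2b_mod_int f hf Q hQ hsupp _ (hm.sub ((k2b_mask_meas _).const_smul s))
    rw [← integral_sub i1 i2]
    refine integral_congr_ae (Filter.Eventually.of_forall fun u => ?_)
    show f (y - τ • u - s • k2bMask (k.val + 1) u) u - f (y - τ • u - s • k2bMask k.val u) u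
      = f (y - τ • u + Pi.single k (-(s * max (-1) (min 1 (u k)))) - s • k2bMask k.val u) u - f (y - τ • u - s • k2bMask k.val u) u
    by_cases hu : ‖u‖ ≤ 1
    · have huk : |u k| ≤ 1 := by
        have := (norm_le_pi_norm u k).trans hu
        rwa [Real.norm_eq_abs] at this
      rw [abs_le] at huk
      rw [min_eq_right huk.2, max_eq_right huk.1, k2b_mask_succ]
      congr 2
      ext i
      rcases eq_or_ne i k with rfl | hi
      · simp only [Pi.sub_apply, Pi.add_apply, Pi.smul_apply, Pi.single_eq_same, smul_eq_mul]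
        ring
      · simp only [Pi.sub_apply, Pi.add_apply, Pi.smul_apply, Pi.single_eq_of_ne hi, smul_eq_mul]
        ring
    · have e : ∀ b, f b u = 0 := by
        intro b
        by_contra h
        exact hu (hsupp _ _ h).2
      rw [e, e, e]
  · intro b u h
    obtain ⟨h1, h2⟩ := hsupp _ _ h
    refine ⟨?_, h2⟩
    have h3 : ‖s • k2bMask k.val u‖ ≤ 1 := by
      rw [norm_smul, Real.norm_eq_abs]
      calc |s| * ‖k2bMask k.val u‖ ≤ 1 * 1 :=
            mul_le_mul (hs.trans hσ1) ((k2b_mask_norm _ _).trans h2) (norm_nonneg _) zero_le_one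
        _ = 1 := one_mul 1
    calc ‖b‖ = ‖(b - s • k2bMask k.val u) + s • k2bMask k.val u‖ := by rw [sub_add_cancel]
      _ ≤ ‖b - s • k2bMask k.val u‖ + ‖s • k2bMask k.val u‖ := norm_add_le _ _
      _ ≤ 2 := by linarith
  · exact (measurable_const.mul (measurable_const.max (measurable_const.min (measurable_pi_apply k)))).neg
  · intro u
    rw [abs_neg, abs_mul]
    have : |max (-1) (min 1 (u k))| ≤ 1 := by
      rw [abs_le]
      exact ⟨le_max_left _ _, max_le (by norm_num) (min_le_left _ _)⟩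
    calc |s| * |max (-1) (min 1 (u k))| ≤ σ * 1 := mul_le_mul hs this (abs_nonneg _) ((abs_nonneg _).trans hs)
      _ = σ := mul_one σ

theorem k2b_mod_meas {n : ℕ} (f : (Fin (n + 1) → ℝ) → (Fin (n + 1) → ℝ) → ℝ) (hf : Measurable (Function.uncurry f)) (s : ℝ) (k : ℕ) :
    Measurable (fun x : ℝ × (Fin (n + 1) → ℝ) => ∫ u, f (x.2 - x.1 • u - s • k2bMask k u) u) := by
  have h : Measurable (fun x : (ℝ × (Fin (n + 1) → ℝ)) × (Fin (n + 1) → ℝ) => f (x.1.2 - x.1.1 • x.2 - s • k2bMask k x.2) x.2) :=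
    hf.comp (((measurable_fst.snd.sub (measurable_fst.fst.smul measurable_snd)).sub
      (((k2b_mask_meas k).comp measurable_snd).const_smul s)).prodMk measurable_snd)
  exact h.stronglyMeasurable.integral_prod_right'.measurable

/-- **LEAF L-252-S2b-XR4: the two moduli of `k2bT f`.**   `f` is supported in `‖b‖ ≤ 1`, `‖u‖ ≤ 1`.   Space: `k2b_xr_axis` with `sh = h` constant.
Time: `k2bT f (τ + s) y - k2bT f τ y = ∫ (f (y - τ u - s u) u - f (y - τ u) u) du`;  telescope over the coordinates `a = 0, …, n`: the `a`-th difference is a shift by `- s u_a` in the coordinate `a` of the function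
`f_a (b, u) = f (b - s (u masked to the coordinates < a), u)`, which is measurable, `≤ Q`, supported in `‖b‖ ≤ 1 + |s| ≤ 2`. -/
theorem k2b_xr_mod {n : ℕ} (f : (Fin (n + 1) → ℝ) → (Fin (n + 1) → ℝ) → ℝ) (hf : Measurable (Function.uncurry f))
    (Q σ : ℝ) (hQ : ∀ b u, 0 ≤ f b u ∧ f b u ≤ Q) (hsupp : ∀ b u, f b u ≠ 0 → ‖b‖ ≤ 1 ∧ ‖u‖ ≤ 1) (hσ0 : 0 ≤ σ) (hσ1 : σ ≤ 1) :
    (∀ (a : Fin (n + 1)) (h : ℝ), |h| ≤ σ →
      ∫⁻ τ in Set.Icc (0 : ℝ) 1, ∫⁻ y, ‖k2bT f τ (y + Pi.single a h) - k2bT f τ y‖ₑ ≤ ENNReal.ofReal (32 * 8 ^ n * Q * σ ^ (1 / 4 : ℝ))) ∧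
    (∀ s : ℝ, |s| ≤ σ →
      ∫⁻ τ in Set.Icc (0 : ℝ) 1, ∫⁻ y, ‖k2bT f (τ + s) y - k2bT f τ y‖ₑ ≤ ENNReal.ofReal ((n + 1) * (32 * 8 ^ n * Q * σ ^ (1 / 4 : ℝ)))) := by
  have hQ0 : 0 ≤ Q := (hQ 0 0).1.trans (hQ 0 0).2
  constructor
  · intro a h hh
    have key := k2b_xr_axis a f hf Q σ hQ (fun b u h0 => ⟨(hsupp b u h0).1.trans (by norm_num), (hsupp b u h0).2⟩)
      (fun _ => h) measurable_const (fun _ => hh) hσ1
    refine le_trans (le_of_eq ?_) key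
    refine lintegral_congr fun τ => lintegral_congr fun y => ?_
    congr 1
    unfold k2bT
    have i1 : Integrable (fun u => f (y + Pi.single a h - τ • u) u) :=
      k2b_mod_int f hf Q hQ hsupp _ (measurable_const.sub (measurable_id.const_smul τ))
    have i2 : Integrable (fun u => f (y - τ • u) u) :=
      k2b_mod_int f hf Q hQ hsupp _ (measurable_const.sub (measurable_id.const_smul τ))
    rw [← integral_sub i1 i2]
    refine integral_congr_ae (Filter.Eventually.of_forall fun u => ?_)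
    show f (y + Pi.single a h - τ • u) u - f (y - τ • u) u = f (y - τ • u + Pi.single a h) u - f (y - τ • u) u
    rw [sub_add_eq_add_sub]
  · intro s hs
    obtain ⟨X, hX⟩ : ∃ X : ℕ → ℝ → (Fin (n + 1) → ℝ) → ℝ, X = fun k τ y => ∫ u, f (y - τ • u - s • k2bMask k u) u := ⟨_, rfl⟩
    have hXm : ∀ k, Measurable (fun x : ℝ × (Fin (n + 1) → ℝ) => X k x.1 x.2) := by
      intro k
      rw [hX]
      exact k2b_mod_meas f hf s k
    have hX0 : ∀ τ y, X 0 τ y = k2bT f τ y := by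
      intro τ y
      rw [hX]
      unfold k2bT
      simp only [k2b_mask_zero, smul_zero, sub_zero]
    have hX1 : ∀ τ y, X (n + 1) τ y = k2bT f (τ + s) y := by
      intro τ y
      rw [hX]
      unfold k2bT
      simp only [k2b_mask_top, add_smul, sub_sub]
    obtain ⟨c, hc⟩ : ∃ c : ℝ≥0∞, c = ENNReal.ofReal (32 * 8 ^ n * Q * σ ^ (1 / 4 : ℝ)) := ⟨_, rfl⟩
    have hstep : ∀ k ∈ Finset.range (n + 1), ∫⁻ τ in Set.Icc (0 : ℝ) 1, ∫⁻ y, ‖X (k + 1) τ y - X k τ y‖ₑ ≤ c := by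
      intro k hk
      rw [hX, hc]
      exact k2b_mod_step f hf Q σ hQ hsupp hσ1 s hs ⟨k, Finset.mem_range.1 hk⟩
    have hDm : ∀ k, Measurable (fun x : ℝ × (Fin (n + 1) → ℝ) => ‖X (k + 1) x.1 x.2 - X k x.1 x.2‖ₑ) :=
      fun k => ((hXm (k + 1)).sub (hXm k)).enorm
    calc ∫⁻ τ in Set.Icc (0 : ℝ) 1, ∫⁻ y, ‖k2bT f (τ + s) y - k2bT f τ y‖ₑ
        ≤ ∫⁻ τ in Set.Icc (0 : ℝ) 1, ∫⁻ y, ∑ k ∈ Finset.range (n + 1), ‖X (k + 1) τ y - X k τ y‖ₑ := by
          refine lintegral_mono fun τ => lintegral_mono fun y => ?_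
          rw [← hX1, ← hX0, ← Finset.sum_range_sub (fun k => X k τ y)]
          exact enorm_sum_le _ _
      _ = ∫⁻ τ in Set.Icc (0 : ℝ) 1, ∑ k ∈ Finset.range (n + 1), ∫⁻ y, ‖X (k + 1) τ y - X k τ y‖ₑ :=
          lintegral_congr fun τ => lintegral_finsetSum _ fun k _ => (hDm k).comp (measurable_const.prodMk measurable_id)
      _ = ∑ k ∈ Finset.range (n + 1), ∫⁻ τ in Set.Icc (0 : ℝ) 1, ∫⁻ y, ‖X (k + 1) τ y - X k τ y‖ₑ :=
          lintegral_finsetSum _ fun k _ => (hDm k).lintegral_prod_right'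
      _ ≤ (Finset.range (n + 1)).card • c := Finset.sum_le_card_nsmul _ _ _ hstep
      _ = ENNReal.ofReal ((n + 1) * (32 * 8 ^ n * Q * σ ^ (1 / 4 : ℝ))) := by
          rw [Finset.card_range, nsmul_eq_mul, hc, ← ENNReal.ofReal_natCast (n + 1), ← ENNReal.ofReal_mul (by positivity)]
          push_cast
          rfl

/-- the cell of the `1/D`-grid of `ℝ × ℝ^j` (times `≥ 0`) -/
noncomputable def k2bCellV {j : ℕ} (D : ℕ) (o : ℝ × (Fin j → ℝ)) : ℕ × (Fin j → ℤ) := (⌊o.1 * D⌋₊, fun a => ⌊o.2 a * D⌋)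

theorem k2bCellV_eqns_cite : True := by
  have := @k2bCellV.eq_1
  trivial

theorem k2b_avg_step {j : ℕ} (f : (Fin j → ℝ) → ℝ) (hf : Measurable f) (w v : Fin j → ℝ) :
    ∫⁻ x, ‖f (x + (v + w)) - f x‖ₑ ≤ (∫⁻ x, ‖f (x + v) - f x‖ₑ) + ∫⁻ x, ‖f (x + w) - f x‖ₑ := by
  have hm1 : Measurable fun x => ‖f ((x + w) + v) - f (x + w)‖ₑ :=
    ((hf.comp ((measurable_id.add_const w).add_const _)).sub
      (hf.comp (measurable_id.add_const w))).enorm
  calc ∫⁻ x, ‖f (x + (v + w)) - f x‖ₑ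
      ≤ ∫⁻ x, (‖f ((x + w) + v) - f (x + w)‖ₑ + ‖f (x + w) - f x‖ₑ) := by
        refine lintegral_mono fun x => ?_
        have e : x + (v + w) = (x + w) + v := by abel
        rw [e]
        calc ‖f ((x + w) + v) - f x‖ₑ
            = ‖(f ((x + w) + v) - f (x + w)) + (f (x + w) - f x)‖ₑ := by
              rw [sub_add_sub_cancel]
          _ ≤ _ := enorm_add_le _ _
    _ = (∫⁻ x, ‖f ((x + w) + v) - f (x + w)‖ₑ) + ∫⁻ x, ‖f (x + w) - f x‖ₑ :=
        lintegral_add_left hm1 _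
    _ = (∫⁻ x, ‖f (x + v) - f x‖ₑ) + ∫⁻ x, ‖f (x + w) - f x‖ₑ := by
        rw [lintegral_add_right_eq_self (fun x => ‖f (x + v) - f x‖ₑ) w]

theorem k2b_avg_sec {j : ℕ} (G : ℝ → (Fin j → ℝ) → ℝ) (hG : Measurable (Function.uncurry G)) (τ : ℝ) : Measurable (G τ) :=
  hG.comp (measurable_const.prodMk measurable_id)

theorem k2b_avg_ymeas {j : ℕ} (G : ℝ → (Fin j → ℝ) → ℝ) (hG : Measurable (Function.uncurry G)) (v : Fin j → ℝ) :
    Measurable fun τ => ∫⁻ y, ‖G τ (y + v) - G τ y‖ₑ := by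
  have h1 : Measurable fun p : ℝ × (Fin j → ℝ) => ‖G p.1 (p.2 + v) - G p.1 p.2‖ₑ :=
    ((hG.comp (measurable_fst.prodMk (measurable_snd.add_const v))).sub hG).enorm
  exact h1.lintegral_prod_right'

theorem k2b_avg_sub {j : ℕ} (G : ℝ → (Fin j → ℝ) → ℝ) (hG : Measurable (Function.uncurry G)) (v u : Fin j → ℝ) :
    ∫⁻ τ in Set.Icc (0 : ℝ) 1, ∫⁻ y, ‖G τ (y + (v + u)) - G τ y‖ₑ
      ≤ (∫⁻ τ in Set.Icc (0 : ℝ) 1, ∫⁻ y, ‖G τ (y + v) - G τ y‖ₑ) + ∫⁻ τ in Set.Icc (0 : ℝ) 1, ∫⁻ y, ‖G τ (y + u) - G τ y‖ₑ := by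
  calc ∫⁻ τ in Set.Icc (0 : ℝ) 1, ∫⁻ y, ‖G τ (y + (v + u)) - G τ y‖ₑ
      ≤ ∫⁻ τ in Set.Icc (0 : ℝ) 1, ((∫⁻ y, ‖G τ (y + v) - G τ y‖ₑ) + ∫⁻ y, ‖G τ (y + u) - G τ y‖ₑ) :=
        lintegral_mono fun τ => k2b_avg_step (G τ) (k2b_avg_sec G hG τ) u v
    _ = _ := lintegral_add_left (k2b_avg_ymeas G hG v) _

theorem k2b_avg_ysum {j : ℕ} (G : ℝ → (Fin j → ℝ) → ℝ) (hG : Measurable (Function.uncurry G)) (ω : ℝ≥0∞) (ρ : ℝ)
    (hy : ∀ (a : Fin j) (h : ℝ), |h| ≤ ρ → ∫⁻ τ in Set.Icc (0 : ℝ) 1, ∫⁻ y, ‖G τ (y + Pi.single a h) - G τ y‖ₑ ≤ ω)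
    (h : Fin j → ℝ) (hh : ∀ a, |h a| ≤ ρ) (s : Finset (Fin j)) :
    ∫⁻ τ in Set.Icc (0 : ℝ) 1, ∫⁻ y, ‖G τ (y + ∑ a ∈ s, Pi.single a (h a)) - G τ y‖ₑ ≤ s.card * ω := by
  induction s using Finset.induction_on with
  | empty => simp
  | insert a s ha ih =>
    rw [Finset.sum_insert ha, Finset.card_insert_of_notMem ha]
    refine (k2b_avg_sub G hG _ _).trans ?_
    refine (add_le_add (hy a (h a) (hh a)) ih).trans (le_of_eq ?_)
    push_cast; ring

theorem k2b_avg_shift {j : ℕ} (G : ℝ → (Fin j → ℝ) → ℝ) (hG : Measurable (Function.uncurry G)) (ω : ℝ≥0∞) (ρ : ℝ)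
    (hy : ∀ (a : Fin j) (h : ℝ), |h| ≤ ρ → ∫⁻ τ in Set.Icc (0 : ℝ) 1, ∫⁻ y, ‖G τ (y + Pi.single a h) - G τ y‖ₑ ≤ ω)
    (ht : ∀ s : ℝ, |s| ≤ ρ → ∫⁻ τ in Set.Icc (0 : ℝ) 1, ∫⁻ y, ‖G (τ + s) y - G τ y‖ₑ ≤ ω)
    (s : ℝ) (hs : |s| ≤ ρ) (h : Fin j → ℝ) (hh : ∀ a, |h a| ≤ ρ) :
    ∫⁻ τ in Set.Ico (0 : ℝ) 1, ∫⁻ y, (Set.Ico (0 : ℝ) 1).indicator (fun _ => ‖G (τ + s) (y + h) - G τ y‖ₑ) (τ + s)
      ≤ ((j : ℝ≥0∞) + 1) * ω := by
  obtain ⟨F, hF⟩ : ∃ F : ℝ → ℝ≥0∞, F = fun τ => ∫⁻ y, ‖G τ (y + h) - G τ y‖ₑ := ⟨_, rfl⟩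
  have hFm : Measurable F := by rw [hF]; exact k2b_avg_ymeas G hG h
  have hFi : ∫⁻ τ in Set.Icc (0 : ℝ) 1, F τ ≤ j * ω := by
    have := k2b_avg_ysum G hG ω ρ hy h hh Finset.univ
    rw [Finset.univ_sum_single, Finset.card_univ, Fintype.card_fin] at this
    rw [hF]; exact this
  have hpt : ∀ τ, ∫⁻ y, (Set.Ico (0 : ℝ) 1).indicator (fun _ => ‖G (τ + s) (y + h) - G τ y‖ₑ) (τ + s)
      ≤ (Set.Icc (0 : ℝ) 1).indicator F (τ + s) + ∫⁻ y, ‖G (τ + s) y - G τ y‖ₑ := by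
    intro τ
    by_cases hτ : τ + s ∈ Set.Ico (0 : ℝ) 1
    · have hτ' : τ + s ∈ Set.Icc (0 : ℝ) 1 := ⟨hτ.1, hτ.2.le⟩
      simp only [Set.indicator_of_mem hτ, Set.indicator_of_mem hτ']
      have hm1 : Measurable fun y => ‖G (τ + s) (y + h) - G (τ + s) y‖ₑ :=
        (((k2b_avg_sec G hG (τ + s)).comp (measurable_id.add_const h)).sub (k2b_avg_sec G hG (τ + s))).enorm
      calc ∫⁻ y, ‖G (τ + s) (y + h) - G τ y‖ₑ
          ≤ ∫⁻ y, (‖G (τ + s) (y + h) - G (τ + s) y‖ₑ + ‖G (τ + s) y - G τ y‖ₑ) := by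
            refine lintegral_mono fun y => ?_
            calc ‖G (τ + s) (y + h) - G τ y‖ₑ
                = ‖(G (τ + s) (y + h) - G (τ + s) y) + (G (τ + s) y - G τ y)‖ₑ := by rw [sub_add_sub_cancel]
              _ ≤ _ := enorm_add_le _ _
        _ = (∫⁻ y, ‖G (τ + s) (y + h) - G (τ + s) y‖ₑ) + ∫⁻ y, ‖G (τ + s) y - G τ y‖ₑ := lintegral_add_left hm1 _
        _ = F (τ + s) + ∫⁻ y, ‖G (τ + s) y - G τ y‖ₑ := by rw [hF]
    · simp only [Set.indicator_of_notMem hτ, lintegral_zero]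
      exact bot_le
  have hAm : Measurable fun τ => (Set.Icc (0 : ℝ) 1).indicator F (τ + s) :=
    (hFm.indicator measurableSet_Icc).comp (measurable_id.add_const s)
  calc ∫⁻ τ in Set.Ico (0 : ℝ) 1, ∫⁻ y, (Set.Ico (0 : ℝ) 1).indicator (fun _ => ‖G (τ + s) (y + h) - G τ y‖ₑ) (τ + s)
      ≤ ∫⁻ τ in Set.Ico (0 : ℝ) 1, ((Set.Icc (0 : ℝ) 1).indicator F (τ + s) + ∫⁻ y, ‖G (τ + s) y - G τ y‖ₑ) :=
        lintegral_mono fun τ => hpt τ
    _ = (∫⁻ τ in Set.Ico (0 : ℝ) 1, (Set.Icc (0 : ℝ) 1).indicator F (τ + s))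
          + ∫⁻ τ in Set.Ico (0 : ℝ) 1, ∫⁻ y, ‖G (τ + s) y - G τ y‖ₑ := lintegral_add_left hAm _
    _ ≤ (∫⁻ τ, (Set.Icc (0 : ℝ) 1).indicator F (τ + s))
          + ∫⁻ τ in Set.Icc (0 : ℝ) 1, ∫⁻ y, ‖G (τ + s) y - G τ y‖ₑ :=
        add_le_add (setLIntegral_le_lintegral _ _) (lintegral_mono_set Set.Ico_subset_Icc_self)
    _ ≤ j * ω + ω := by
        refine add_le_add ?_ (ht s hs)
        rw [lintegral_add_right_eq_self (fun τ => (Set.Icc (0 : ℝ) 1).indicator F τ) s, lintegral_indicator measurableSet_Icc]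
        exact hFi
    _ = ((j : ℝ≥0∞) + 1) * ω := by ring

theorem k2b_avg_pt {α : Type*} [MeasurableSpace α] (μ : Measure α) (g : α → ℝ) (hg : Measurable g) (R : Set α) (w : ℝ≥0∞)
    (hw0 : w ≠ 0) (hwt : w ≠ ⊤) (hR : μ R = w) (x : ℝ)
    (h : 2 * ∫⁻ o' in R, ENNReal.ofReal (g o') ∂μ < ENNReal.ofReal x * w) :
    ENNReal.ofReal x ≤ 2 * w⁻¹ * ∫⁻ o' in R, ‖g o' - x‖ₑ ∂μ := by
  have hpt : ∀ a b : ℝ, ENNReal.ofReal a ≤ ENNReal.ofReal b + ‖b - a‖ₑ := by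
    intro a b
    rw [Real.enorm_eq_ofReal_abs]
    refine le_trans (ENNReal.ofReal_le_ofReal ?_) ENNReal.ofReal_add_le
    have := neg_abs_le (b - a)
    linarith
  have h1 : ENNReal.ofReal x * w ≤ (∫⁻ o' in R, ENNReal.ofReal (g o') ∂μ) + ∫⁻ o' in R, ‖g o' - x‖ₑ ∂μ := by
    calc ENNReal.ofReal x * w = ∫⁻ _o' in R, ENNReal.ofReal x ∂μ := by rw [setLIntegral_const, hR]
      _ ≤ ∫⁻ o' in R, (ENNReal.ofReal (g o') + ‖g o' - x‖ₑ) ∂μ := lintegral_mono fun o' => hpt _ _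
      _ = _ := lintegral_add_left hg.ennreal_ofReal _
  have hX : ENNReal.ofReal x * w ≠ ⊤ := ENNReal.mul_ne_top ENNReal.ofReal_ne_top hwt
  have h2 : ENNReal.ofReal x * w ≤ 2 * ∫⁻ o' in R, ‖g o' - x‖ₑ ∂μ := by
    refine ENNReal.le_of_add_le_add_left hX ?_
    calc ENNReal.ofReal x * w + ENNReal.ofReal x * w
        ≤ ((∫⁻ o' in R, ENNReal.ofReal (g o') ∂μ) + ∫⁻ o' in R, ‖g o' - x‖ₑ ∂μ)
          + ((∫⁻ o' in R, ENNReal.ofReal (g o') ∂μ) + ∫⁻ o' in R, ‖g o' - x‖ₑ ∂μ) := add_le_add h1 h1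
      _ = 2 * (∫⁻ o' in R, ENNReal.ofReal (g o') ∂μ) + 2 * ∫⁻ o' in R, ‖g o' - x‖ₑ ∂μ := by ring
      _ ≤ ENNReal.ofReal x * w + 2 * ∫⁻ o' in R, ‖g o' - x‖ₑ ∂μ := by gcongr
  calc ENNReal.ofReal x = ENNReal.ofReal x * w * w⁻¹ := by
        rw [mul_assoc, ENNReal.mul_inv_cancel hw0 hwt, mul_one]
    _ ≤ (2 * ∫⁻ o' in R, ‖g o' - x‖ₑ ∂μ) * w⁻¹ := by gcongr
    _ = _ := by ring

theorem k2b_avg_cell {j : ℕ} (D : ℕ) (hD : 1 ≤ D) (o : ℝ × (Fin j → ℝ)) (ho : o.1 ∈ Set.Ico (0 : ℝ) 1) :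
    (Set.Ico (0 : ℝ) 1 ×ˢ Set.univ) ∩ k2bCellV D ⁻¹' {k2bCellV D o} =
      Set.Ico ((⌊o.1 * D⌋₊ : ℝ) / D) (((⌊o.1 * D⌋₊ : ℝ) + 1) / D) ×ˢ
        Set.pi Set.univ fun a => Set.Ico ((⌊o.2 a * D⌋ : ℝ) / D) (((⌊o.2 a * D⌋ : ℝ) + 1) / D) := by
  have hDp : (0 : ℝ) < D := by exact_mod_cast hD
  have hi : (⌊o.1 * D⌋₊ : ℝ) + 1 ≤ D := by
    have h1 : ⌊o.1 * D⌋₊ < D := by
      rw [Nat.floor_lt (mul_nonneg ho.1 hDp.le)]
      nlinarith [ho.2]
    exact_mod_cast h1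
  ext p
  simp only [Set.mem_inter_iff, Set.mem_prod, Set.mem_univ, and_true, Set.mem_preimage, Set.mem_singleton_iff, k2bCellV,
    Prod.mk.injEq, Set.mem_pi, true_implies, Set.mem_Ico]
  constructor
  · rintro ⟨⟨h0, h1⟩, h2, h3⟩
    rw [Nat.floor_eq_iff (mul_nonneg h0 hDp.le)] at h2
    refine ⟨⟨(div_le_iff₀ hDp).2 h2.1, (lt_div_iff₀ hDp).2 h2.2⟩, fun a => ?_⟩
    have h4 : ⌊p.2 a * D⌋ = ⌊o.2 a * D⌋ := congrFun h3 a
    rw [Int.floor_eq_iff] at h4
    exact ⟨(div_le_iff₀ hDp).2 h4.1, (lt_div_iff₀ hDp).2 h4.2⟩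
  · rintro ⟨⟨h0, h1⟩, h3⟩
    have hp0 : 0 ≤ p.1 := le_trans (by positivity) h0
    refine ⟨⟨hp0, lt_of_lt_of_le h1 ((div_le_one hDp).2 hi)⟩, ?_, ?_⟩
    · rw [Nat.floor_eq_iff (mul_nonneg hp0 hDp.le)]
      exact ⟨(div_le_iff₀ hDp).1 h0, (lt_div_iff₀ hDp).1 h1⟩
    · funext a
      rw [Int.floor_eq_iff]
      exact ⟨(div_le_iff₀ hDp).1 (h3 a).1, (lt_div_iff₀ hDp).1 (h3 a).2⟩

theorem k2b_avg_vol {j : ℕ} (D : ℕ) (hD : 1 ≤ D) (o : ℝ × (Fin j → ℝ)) (ho : o.1 ∈ Set.Ico (0 : ℝ) 1) :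
    volume ((Set.Ico (0 : ℝ) 1 ×ˢ Set.univ) ∩ k2bCellV D ⁻¹' {k2bCellV D o}) = ENNReal.ofReal (1 / (D : ℝ) ^ (j + 1)) := by
  have hDp : (0 : ℝ) < D := by exact_mod_cast hD
  rw [k2b_avg_cell D hD o ho, Measure.volume_eq_prod, Measure.prod_prod, Real.volume_Ico, Real.volume_pi_Ico]
  have e : ∀ x : ℝ, (x + 1) / D - x / D = 1 / D := fun x => by ring
  simp only [e, Finset.prod_const, Finset.card_univ, Fintype.card_fin]
  rw [← ENNReal.ofReal_pow (by positivity), ← ENNReal.ofReal_mul (by positivity)]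
  congr 1
  rw [pow_succ, div_pow, one_pow]
  field_simp

theorem k2b_avg_near {j : ℕ} (D : ℕ) (hD : 1 ≤ D) (o p : ℝ × (Fin j → ℝ)) (ho : o.1 ∈ Set.Ico (0 : ℝ) 1)
    (hp : p ∈ (Set.Ico (0 : ℝ) 1 ×ˢ Set.univ) ∩ k2bCellV D ⁻¹' {k2bCellV D o}) :
    |p.1 - o.1| ≤ 1 / (D : ℝ) ∧ ∀ a, |p.2 a - o.2 a| ≤ 1 / (D : ℝ) := by
  have hoo : o ∈ (Set.Ico (0 : ℝ) 1 ×ˢ Set.univ) ∩ k2bCellV D ⁻¹' {k2bCellV D o} := ⟨⟨ho, Set.mem_univ _⟩, rfl⟩
  rw [k2b_avg_cell D hD o ho] at hp hoo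
  have key : ∀ x y z : ℝ, x ∈ Set.Ico (z / D) ((z + 1) / D) → y ∈ Set.Ico (z / D) ((z + 1) / D) → |x - y| ≤ 1 / (D : ℝ) := by
    intro x y z hx hy
    have e : (z + 1) / D = z / D + 1 / D := by ring
    rw [e] at hx hy
    rw [abs_le]
    constructor <;> linarith [hx.1, hx.2, hy.1, hy.2]
  exact ⟨key _ _ _ hp.1 hoo.1, fun a => key _ _ _ (hp.2 a (Set.mem_univ a)) (hoo.2 a (Set.mem_univ a))⟩

theorem k2b_avg_box {j : ℕ} (ρ : ℝ) (hρ : 0 ≤ ρ) :
    volume (Set.Icc (-ρ) ρ ×ˢ Set.pi Set.univ fun _ : Fin j => Set.Icc (-ρ) ρ) = ENNReal.ofReal ((2 * ρ) ^ (j + 1)) := by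
  rw [Measure.volume_eq_prod, Measure.prod_prod, Real.volume_Icc, Set.pi_univ_Icc, Real.volume_Icc_pi]
  have : ρ - -ρ = 2 * ρ := by ring
  simp only [this, Finset.prod_const, Finset.card_univ, Fintype.card_fin]
  rw [← ENNReal.ofReal_pow (by positivity), ← ENNReal.ofReal_mul (by positivity)]
  congr 1
  rw [pow_succ, mul_comm]

/-- **LEAF L-252-S2b-XR5: from the moduli to the cells.**   `G` measurable in both variables, `≥ 0`;  `β = 1_{[0,1)}(τ) G(τ,y) dτ dy`;  `ω` bounds the `L¹([0,1] × ℝ^j)` moduli of `G` for shifts `≤ 1/D` along the `j + 1` axes.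
Then the `β`-mass of the points where the density exceeds twice the cell average is `≤ 2 · 2^{j+1} (j+1) ω`.
PROOF (as `k4_av_cell` in `R252/S4T/Contract.lean`, which you may copy and adapt).  `w = D^{-(j+1)}` = volume of a cell `Q ⊆ [0,1) × ℝ^j`, `Ḡ` = cell average.   `∫ |G - Ḡ| ≤ w⁻¹ ∑_Q ∫_Q ∫_Q |G o - G o'| ≤ w⁻¹ ∫_{|(s,h)|_∞ < 1/D} ∫_{τ ∈ [0,1)} ∫_y |G(τ+s, y+h) - G(τ,y)|`,
telescoping over the axes + translation invariance in `y`: `≤ w⁻¹ (2/D)^{j+1} (j+1) ω`.   On `S = {2 Ḡ < G}`: `β S = ∫_S G ≤ ∫_S (G - Ḡ) + ∫_S Ḡ ≤ ∫ |G - Ḡ| + β S / 2` (`β` finite on `S` or the bound is trivial: treat `β S = ⊤` via `ω`… use `G ≤ 2 (G - Ḡ)` pointwise on `S` instead: no subtraction of measures). -/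
theorem k2b_xr_avg {j : ℕ} (D : ℕ) (hD : 1 ≤ D) (G : ℝ → (Fin j → ℝ) → ℝ) (hG : Measurable (Function.uncurry G)) (hG0 : ∀ τ y, 0 ≤ G τ y) (ω : ℝ≥0∞)
    (hy : ∀ (a : Fin j) (h : ℝ), |h| ≤ 1 / (D : ℝ) → ∫⁻ τ in Set.Icc (0 : ℝ) 1, ∫⁻ y, ‖G τ (y + Pi.single a h) - G τ y‖ₑ ≤ ω)
    (ht : ∀ s : ℝ, |s| ≤ 1 / (D : ℝ) → ∫⁻ τ in Set.Icc (0 : ℝ) 1, ∫⁻ y, ‖G (τ + s) y - G τ y‖ₑ ≤ ω)
    (β : Measure (ℝ × (Fin j → ℝ))) (hβ : β = volume.withDensity fun o => (Set.Ico (0 : ℝ) 1 ×ˢ Set.univ).indicator (fun o => ENNReal.ofReal (G o.1 o.2)) o) :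
    β {o | 2 * β (k2bCellV D ⁻¹' {k2bCellV D o}) < ENNReal.ofReal (G o.1 o.2) * ENNReal.ofReal (1 / (D : ℝ) ^ (j + 1))}
      ≤ 2 * (2 ^ (j + 1) * (j + 1) * ω) := by
  have hDp : (0 : ℝ) < D := by exact_mod_cast hD
  have hinv : (volume : Measure (ℝ × (Fin j → ℝ))).IsAddLeftInvariant := by
    rw [Measure.volume_eq_prod]; infer_instance
  obtain ⟨U, hU⟩ : ∃ U : Set (ℝ × (Fin j → ℝ)), U = Set.Ico (0 : ℝ) 1 ×ˢ Set.univ := ⟨_, rfl⟩
  have hUm : MeasurableSet U := by rw [hU]; exact measurableSet_Ico.prod MeasurableSet.univ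
  obtain ⟨g, hg⟩ : ∃ g : ℝ × (Fin j → ℝ) → ℝ, g = fun o => G o.1 o.2 := ⟨_, rfl⟩
  have hgm : Measurable g := by rw [hg]; exact hG
  obtain ⟨w, hw⟩ : ∃ w : ℝ≥0∞, w = ENNReal.ofReal (1 / (D : ℝ) ^ (j + 1)) := ⟨_, rfl⟩
  have hw0 : w ≠ 0 := by
    rw [hw, Ne, ENNReal.ofReal_eq_zero, not_le]
    positivity
  have hwt : w ≠ ⊤ := by rw [hw]; exact ENNReal.ofReal_ne_top
  obtain ⟨Bx, hBx⟩ : ∃ Bx : Set (ℝ × (Fin j → ℝ)),
      Bx = Set.Icc (-(1 / (D : ℝ))) (1 / D) ×ˢ Set.pi Set.univ fun _ => Set.Icc (-(1 / (D : ℝ))) (1 / D) := ⟨_, rfl⟩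
  have hBm : MeasurableSet Bx := by
    rw [hBx]
    exact measurableSet_Icc.prod (MeasurableSet.univ_pi fun _ => measurableSet_Icc)
  have hBv : volume Bx = ENNReal.ofReal ((2 * (1 / (D : ℝ))) ^ (j + 1)) := by
    rw [hBx]
    exact k2b_avg_box (1 / (D : ℝ)) (by positivity)
  obtain ⟨K, hK⟩ : ∃ K : (ℝ × (Fin j → ℝ)) → (ℝ × (Fin j → ℝ)) → ℝ≥0∞,
      K = fun o h => U.indicator (fun _ => ‖g (o + h) - g o‖ₑ) (o + h) := ⟨_, rfl⟩
  have hKm : Measurable (Function.uncurry K) := by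
    have e : Function.uncurry K = Set.indicator {p : (ℝ × (Fin j → ℝ)) × (ℝ × (Fin j → ℝ)) | p.1 + p.2 ∈ U}
        (fun p => ‖g (p.1 + p.2) - g p.1‖ₑ) := by
      funext p
      rw [hK]
      by_cases hp : p.1 + p.2 ∈ U
      · have hp' : p ∈ {p : (ℝ × (Fin j → ℝ)) × (ℝ × (Fin j → ℝ)) | p.1 + p.2 ∈ U} := hp
        rw [Set.indicator_of_mem hp']
        simp only [Function.uncurry]
        rw [Set.indicator_of_mem hp]
      · have hp' : p ∉ {p : (ℝ × (Fin j → ℝ)) × (ℝ × (Fin j → ℝ)) | p.1 + p.2 ∈ U} := hp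
        rw [Set.indicator_of_notMem hp']
        simp only [Function.uncurry]
        rw [Set.indicator_of_notMem hp]
    rw [e]
    refine Measurable.indicator ?_ ?_
    · exact ((hgm.comp (measurable_fst.add measurable_snd)).sub (hgm.comp measurable_fst)).enorm
    · exact (measurable_fst.add measurable_snd) hUm
  have hβa : ∀ A, β A = ∫⁻ o in U ∩ A, ENNReal.ofReal (g o) := by
    intro A
    rw [hβ, withDensity_apply', ← hU, setLIntegral_indicator hUm, hg]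
  have hβb : ∀ A, β A = ∫⁻ o in A, U.indicator (fun o => ENNReal.ofReal (g o)) o := by
    intro A
    rw [hβ, withDensity_apply', ← hU, hg]
  have hRm : Measurable fun o => 2 * w⁻¹ * ∫⁻ h in Bx, K o h :=
    (hKm.lintegral_prod_right').const_mul _
  have hpt : ∀ o ∈ {o | 2 * β (k2bCellV D ⁻¹' {k2bCellV D o}) < ENNReal.ofReal (G o.1 o.2) * ENNReal.ofReal (1 / (D : ℝ) ^ (j + 1))},
      U.indicator (fun o => ENNReal.ofReal (g o)) o ≤ U.indicator (fun o => 2 * w⁻¹ * ∫⁻ h in Bx, K o h) o := by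
    intro o hoS
    by_cases hoU : o ∈ U
    · rw [Set.indicator_of_mem hoU, Set.indicator_of_mem hoU]
      have ho1 : o.1 ∈ Set.Ico (0 : ℝ) 1 := by rw [hU] at hoU; exact hoU.1
      have hoS' : 2 * β (k2bCellV D ⁻¹' {k2bCellV D o}) < ENNReal.ofReal (g o) * w := by
        rw [hg, hw]; exact hoS
      rw [hβa] at hoS'
      have hvol : volume (U ∩ k2bCellV D ⁻¹' {k2bCellV D o}) = w := by
        rw [hU, hw]; exact k2b_avg_vol D hD o ho1
      have hRmeas : MeasurableSet (U ∩ k2bCellV D ⁻¹' {k2bCellV D o}) := by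
        rw [hU, k2b_avg_cell D hD o ho1]
        exact measurableSet_Ico.prod (MeasurableSet.univ_pi fun _ => measurableSet_Ico)
      refine (k2b_avg_pt volume g hgm _ w hw0 hwt hvol (g o) hoS').trans ?_
      refine mul_le_mul' le_rfl ?_
      rw [← lintegral_indicator hRmeas, ← lintegral_indicator hBm, ← lintegral_add_left_eq_self _ o]
      refine lintegral_mono fun h => ?_
      by_cases hh : o + h ∈ U ∩ k2bCellV D ⁻¹' {k2bCellV D o}
      · have hn := k2b_avg_near D hD o (o + h) ho1 (by rw [← hU]; exact hh)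
        have hhB : h ∈ Bx := by
          rw [hBx]
          refine ⟨?_, fun a _ => ?_⟩
          · have := hn.1
            simp only [Prod.fst_add, add_sub_cancel_left] at this
            exact abs_le.1 this
          · have := hn.2 a
            simp only [Prod.snd_add, Pi.add_apply, add_sub_cancel_left] at this
            exact abs_le.1 this
        rw [Set.indicator_of_mem hh, Set.indicator_of_mem hhB, hK]
        simp only
        rw [Set.indicator_of_mem hh.1]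
      · rw [Set.indicator_of_notMem hh]
        exact bot_le
    · rw [Set.indicator_of_notMem hoU, Set.indicator_of_notMem hoU]
  have hsh : ∀ h ∈ Bx, ∫⁻ o in U, K o h ≤ ((j : ℝ≥0∞) + 1) * ω := by
    intro h hh
    rw [hBx] at hh
    have h1 : |h.1| ≤ 1 / (D : ℝ) := abs_le.2 hh.1
    have h2 : ∀ a, |h.2 a| ≤ 1 / (D : ℝ) := fun a => abs_le.2 (hh.2 a (Set.mem_univ a))
    have hm : Measurable fun o => K o h := hKm.comp (measurable_id.prodMk measurable_const)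
    refine le_trans (le_of_eq ?_) (k2b_avg_shift G hG ω (1 / (D : ℝ)) hy ht h.1 h1 h.2 h2)
    rw [hU, Measure.volume_eq_prod, ← Measure.prod_restrict, Measure.restrict_univ, lintegral_prod _ hm.aemeasurable]
    refine lintegral_congr fun τ => lintegral_congr fun y => ?_
    rw [hK, hg, hU]
    by_cases hτ : τ + h.1 ∈ Set.Ico (0 : ℝ) 1
    · have hτ' : ((τ, y) + h : ℝ × (Fin j → ℝ)) ∈ Set.Ico (0 : ℝ) 1 ×ˢ (Set.univ : Set (Fin j → ℝ)) := ⟨hτ, Set.mem_univ _⟩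
      simp only
      rw [Set.indicator_of_mem hτ, Set.indicator_of_mem hτ']
      rfl
    · have hτ' : ((τ, y) + h : ℝ × (Fin j → ℝ)) ∉ Set.Ico (0 : ℝ) 1 ×ˢ (Set.univ : Set (Fin j → ℝ)) := fun hc => hτ hc.1
      simp only
      rw [Set.indicator_of_notMem hτ, Set.indicator_of_notMem hτ']
  calc β {o | 2 * β (k2bCellV D ⁻¹' {k2bCellV D o}) < ENNReal.ofReal (G o.1 o.2) * ENNReal.ofReal (1 / (D : ℝ) ^ (j + 1))}
      = ∫⁻ o in {o | 2 * β (k2bCellV D ⁻¹' {k2bCellV D o}) < ENNReal.ofReal (G o.1 o.2) * ENNReal.ofReal (1 / (D : ℝ) ^ (j + 1))},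
          U.indicator (fun o => ENNReal.ofReal (g o)) o := hβb _
    _ ≤ ∫⁻ o in {o | 2 * β (k2bCellV D ⁻¹' {k2bCellV D o}) < ENNReal.ofReal (G o.1 o.2) * ENNReal.ofReal (1 / (D : ℝ) ^ (j + 1))},
          U.indicator (fun o => 2 * w⁻¹ * ∫⁻ h in Bx, K o h) o :=
        setLIntegral_mono (hRm.indicator hUm) hpt
    _ ≤ ∫⁻ o, U.indicator (fun o => 2 * w⁻¹ * ∫⁻ h in Bx, K o h) o := setLIntegral_le_lintegral _ _
    _ = ∫⁻ o in U, 2 * w⁻¹ * ∫⁻ h in Bx, K o h := lintegral_indicator hUm _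
    _ = 2 * w⁻¹ * ∫⁻ o in U, ∫⁻ h in Bx, K o h := lintegral_const_mul _ hKm.lintegral_prod_right'
    _ = 2 * w⁻¹ * ∫⁻ h in Bx, ∫⁻ o in U, K o h := by rw [lintegral_lintegral_swap hKm.aemeasurable]
    _ ≤ 2 * w⁻¹ * ∫⁻ _h in Bx, ((j : ℝ≥0∞) + 1) * ω := by
        gcongr 2 * w⁻¹ * ?_
        exact setLIntegral_mono' hBm hsh
    _ = 2 * (2 ^ (j + 1) * (j + 1) * ω) := by
        rw [setLIntegral_const, hBv, hw]
        have e : (ENNReal.ofReal (1 / (D : ℝ) ^ (j + 1)))⁻¹ * ENNReal.ofReal ((2 * (1 / (D : ℝ))) ^ (j + 1)) = 2 ^ (j + 1) := by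
          rw [← ENNReal.ofReal_inv_of_pos (by positivity), ← ENNReal.ofReal_mul (by positivity)]
          have : (1 / (D : ℝ) ^ (j + 1))⁻¹ * (2 * (1 / (D : ℝ))) ^ (j + 1) = 2 ^ (j + 1) := by
            rw [mul_pow, div_pow, one_pow]
            field_simp
          rw [this, ENNReal.ofReal_pow (by norm_num)]
          norm_num
        calc 2 * (ENNReal.ofReal (1 / (D : ℝ) ^ (j + 1)))⁻¹ * (((j : ℝ≥0∞) + 1) * ω * ENNReal.ofReal ((2 * (1 / (D : ℝ))) ^ (j + 1)))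
            = 2 * (((ENNReal.ofReal (1 / (D : ℝ) ^ (j + 1)))⁻¹ * ENNReal.ofReal ((2 * (1 / (D : ℝ))) ^ (j + 1))) * (j + 1) * ω) := by ring
          _ = _ := by rw [e]

theorem k2b_xr_shear {j : ℕ} (H : (Fin j → ℝ) × (Fin j → ℝ) → ℝ≥0∞) (hH : Measurable H) (g : (Fin j → ℝ) → ℝ≥0∞) (hg : Measurable g) (τ : ℝ) :
    ∫⁻ p, H p * g (p.1 + τ • p.2) = ∫⁻ y, g y * ∫⁻ u, H (y - τ • u, u) := by
  rw [Measure.volume_eq_prod, lintegral_prod_symm _ (by fun_prop)]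
  have h1 : ∀ u : Fin j → ℝ, ∫⁻ b, H (b, u) * g (b + τ • u) = ∫⁻ y, H (y - τ • u, u) * g y := by
    intro u
    rw [← lintegral_sub_right_eq_self (fun b => H (b, u) * g (b + τ • u)) (τ • u)]
    simp only [sub_add_cancel]
  simp_rw [h1]
  rw [lintegral_lintegral_swap (by fun_prop)]
  refine lintegral_congr fun y => ?_
  rw [← lintegral_const_mul _ (by fun_prop)]
  simp_rw [mul_comm]

theorem k2b_xr_dens {j : ℕ} (Q : ℝ) (hQ : 0 ≤ Q) (m : Measure ((Fin j → ℝ) × (Fin j → ℝ))) (hm : m ≤ ENNReal.ofReal Q • volume)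
    (hs : m {p | 1 < ‖p‖} = 0) :
    ∃ h : (Fin j → ℝ) × (Fin j → ℝ) → ℝ, Measurable h ∧ (∀ p, 0 ≤ h p ∧ h p ≤ Q) ∧ (∀ p, h p ≠ 0 → ‖p‖ ≤ 1) ∧
      m = volume.withDensity (fun p => ENNReal.ofReal (h p)) := by
  have hB : MeasurableSet {p : (Fin j → ℝ) × (Fin j → ℝ) | ‖p‖ ≤ 1} := measurableSet_le measurable_norm measurable_const
  have hfin : IsFiniteMeasure m := by
    constructor
    have h1 : (Set.univ : Set ((Fin j → ℝ) × (Fin j → ℝ))) = Metric.closedBall 0 1 ∪ {p | 1 < ‖p‖} := by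
      ext p; simp [le_or_gt]
    rw [h1]
    refine (measure_union_le _ _).trans_lt ?_
    rw [hs, add_zero]
    refine (hm _).trans_lt ?_
    rw [Measure.smul_apply, smul_eq_mul]
    exact ENNReal.mul_lt_top ENNReal.ofReal_lt_top measure_closedBall_lt_top
  have hac : m ≪ volume := Measure.absolutelyContinuous_of_le_smul hm
  obtain ⟨F, hF⟩ : ∃ F, F = m.rnDeriv volume := ⟨_, rfl⟩
  have hFm : Measurable F := hF ▸ Measure.measurable_rnDeriv _ _
  have hFd : volume.withDensity F = m := hF ▸ Measure.withDensity_rnDeriv_eq _ _ hac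
  have hFQ : F ≤ᵐ[volume] fun _ => ENNReal.ofReal Q := by
    refine ae_le_of_forall_setLIntegral_le_of_sigmaFinite hFm fun s hs _ => ?_
    rw [← withDensity_apply _ hs, hFd, setLIntegral_const]
    exact hm s
  refine ⟨fun p => if ‖p‖ ≤ 1 then (min (F p) (ENNReal.ofReal Q)).toReal else 0, ?_, ?_, ?_, ?_⟩
  · exact Measurable.ite hB (hFm.min measurable_const).ennreal_toReal measurable_const
  · intro p
    dsimp only
    split_ifs
    · refine ⟨ENNReal.toReal_nonneg, ?_⟩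
      calc _ ≤ (ENNReal.ofReal Q).toReal := ENNReal.toReal_mono ENNReal.ofReal_ne_top (min_le_right _ _)
        _ = Q := ENNReal.toReal_ofReal hQ
    · exact ⟨le_rfl, hQ⟩
  · intro p hp
    by_contra hc
    exact hp (if_neg hc)
  · have h1 : m.restrict {p | ‖p‖ ≤ 1} = m := by
      apply Measure.restrict_eq_self_of_ae_mem
      rw [ae_iff]
      simpa [not_le] using hs
    calc m = m.restrict {p | ‖p‖ ≤ 1} := h1.symm
      _ = (volume.withDensity F).restrict {p | ‖p‖ ≤ 1} := by rw [hFd]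
      _ = (volume.restrict {p | ‖p‖ ≤ 1}).withDensity F := restrict_withDensity hB F
      _ = volume.withDensity (Set.indicator {p | ‖p‖ ≤ 1} F) := (withDensity_indicator hB F).symm
      _ = _ := by
        refine withDensity_congr_ae ?_
        filter_upwards [hFQ] with p hp
        by_cases hpB : ‖p‖ ≤ 1
        · rw [Set.indicator_of_mem (show p ∈ {p | ‖p‖ ≤ 1} from hpB), if_pos hpB, min_eq_left hp,
            ENNReal.ofReal_toReal (ne_top_of_le_ne_top ENNReal.ofReal_ne_top hp)]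
        · rw [Set.indicator_of_notMem (show p ∉ {p | ‖p‖ ≤ 1} from hpB), if_neg hpB, ENNReal.ofReal_zero]

theorem k2b_xr_T_meas {j : ℕ} (f : (Fin j → ℝ) → (Fin j → ℝ) → ℝ) (hf : Measurable (Function.uncurry f)) :
    Measurable (Function.uncurry (k2bT f)) := by
  have h1 : Measurable fun z : (ℝ × (Fin j → ℝ)) × (Fin j → ℝ) => f (z.1.2 - z.1.1 • z.2) z.2 :=
    hf.comp (by fun_prop : Measurable fun z : (ℝ × (Fin j → ℝ)) × (Fin j → ℝ) => (z.1.2 - z.1.1 • z.2, z.2))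
  exact (h1.stronglyMeasurable.integral_prod_right').measurable

theorem k2b_xr_T_ofReal {j : ℕ} (f : (Fin j → ℝ) → (Fin j → ℝ) → ℝ) (hf : Measurable (Function.uncurry f)) (Q : ℝ)
    (hQ : ∀ b u, 0 ≤ f b u ∧ f b u ≤ Q) (hsupp : ∀ b u, f b u ≠ 0 → ‖b‖ ≤ 1 ∧ ‖u‖ ≤ 1) (τ : ℝ) (y : Fin j → ℝ) :
    ∫⁻ u, ENNReal.ofReal (f (y - τ • u) u) = ENNReal.ofReal (k2bT f τ y) := by
  unfold k2bT
  have hmeas : Measurable fun u => f (y - τ • u) u :=
    hf.comp (by fun_prop : Measurable fun u : Fin j → ℝ => (y - τ • u, u))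
  rw [ofReal_integral_eq_lintegral_ofReal ?_ (ae_of_all _ fun u => (hQ _ _).1)]
  refine Integrable.mono' (g := (Metric.closedBall (0 : Fin j → ℝ) 1).indicator fun _ => Q) ?_ hmeas.aestronglyMeasurable
    (ae_of_all _ fun u => ?_)
  · exact (integrable_indicator_iff measurableSet_closedBall).2 (integrableOn_const measure_closedBall_lt_top.ne)
  · rw [Real.norm_eq_abs, abs_of_nonneg (hQ _ _).1]
    by_cases hu : f (y - τ • u) u = 0
    · rw [hu]
      exact Set.indicator_nonneg (fun _ _ => (hQ 0 0).1.trans (hQ 0 0).2) _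
    · rw [Set.indicator_of_mem (by simpa using (hsupp _ _ hu).2)]
      exact (hQ _ _).2

/-- **LEAF L-252-S2b-XR6: representation of the base law.**   `F = m.rnDeriv volume ≤ Q` a.e. (`Measure.rnDeriv_le…` / `ae_le_of_forall_setLIntegral_le_of_sigmaFinite` from `hm`), `m ≪ volume`;   `f b u = (min (F (b,u)) (ofReal Q)).toReal` on the unit ball, `0` outside.
`m = volume.withDensity (ofReal ∘ f)` (`Measure.withDensity_rnDeriv_eq`, `hs`).   Base law: for measurable `S`, Tonelli and, for fixed `(τ, u)`, the translation `b = y - τ u`. -/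
theorem k2b_xr_repr {j : ℕ} (Q : ℝ) (hQ : 0 ≤ Q) (m : Measure ((Fin j → ℝ) × (Fin j → ℝ))) (hm : m ≤ ENNReal.ofReal Q • volume) (hs : m {p | 1 < ‖p‖} = 0) :
    ∃ f : (Fin j → ℝ) → (Fin j → ℝ) → ℝ, Measurable (Function.uncurry f) ∧ (∀ b u, 0 ≤ f b u ∧ f b u ≤ Q) ∧ (∀ b u, f b u ≠ 0 → ‖b‖ ≤ 1 ∧ ‖u‖ ≤ 1) ∧
      Measurable (Function.uncurry (k2bT f)) ∧ (∀ τ y, 0 ≤ k2bT f τ y) ∧
      (m.prod (volume.restrict (Set.Ico (0 : ℝ) 1))).map (fun x => (x.2, x.1.1 + x.2 • x.1.2))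
        = volume.withDensity fun o => (Set.Ico (0 : ℝ) 1 ×ˢ Set.univ).indicator (fun o => ENNReal.ofReal (k2bT f o.1 o.2)) o := by
  obtain ⟨h, hhm, hh0, hhs, hmd⟩ := k2b_xr_dens Q hQ m hm hs
  have hf : Measurable (Function.uncurry fun b u => h (b, u)) := by
    have : (Function.uncurry fun b u => h (b, u)) = h := by funext ⟨b, u⟩; rfl
    rw [this]; exact hhm
  have hfQ : ∀ b u, 0 ≤ (fun b u => h (b, u)) b u ∧ (fun b u => h (b, u)) b u ≤ Q := fun b u => hh0 (b, u)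
  have hfs : ∀ b u, (fun b u => h (b, u)) b u ≠ 0 → ‖b‖ ≤ 1 ∧ ‖u‖ ≤ 1 := by
    intro b u hbu
    have := hhs (b, u) hbu
    rw [Prod.norm_def] at this
    exact ⟨(le_max_left _ _).trans this, (le_max_right _ _).trans this⟩
  have hTm := k2b_xr_T_meas _ hf
  refine ⟨fun b u => h (b, u), hf, hfQ, hfs, hTm, fun τ y => integral_nonneg fun u => (hh0 _).1, ?_⟩
  have hfin : SFinite m := by
    rw [hmd]; infer_instance
  refine Measure.ext fun S hS => ?_
  have hΦ : Measurable fun x : ((Fin j → ℝ) × (Fin j → ℝ)) × ℝ => (x.2, x.1.1 + x.2 • x.1.2) := by fun_prop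
  have hind : Measurable (S.indicator (1 : ℝ × (Fin j → ℝ) → ℝ≥0∞)) := measurable_one.indicator hS
  have hTm' : Measurable fun o : ℝ × (Fin j → ℝ) => ENNReal.ofReal (k2bT (fun b u => h (b, u)) o.1 o.2) := hTm.ennreal_ofReal
  rw [Measure.map_apply hΦ hS, withDensity_apply _ hS, ← lintegral_indicator_one (hΦ hS),
    lintegral_prod_symm _ ((measurable_one.indicator (hΦ hS)).aemeasurable)]
  have h1 : ∀ τ : ℝ, ∫⁻ p, ((fun x : ((Fin j → ℝ) × (Fin j → ℝ)) × ℝ => (x.2, x.1.1 + x.2 • x.1.2)) ⁻¹' S).indicator 1 (p, τ) ∂m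
      = ∫⁻ y, S.indicator 1 (τ, y) * ENNReal.ofReal (k2bT (fun b u => h (b, u)) τ y) := by
    intro τ
    have e1 : ∀ p : (Fin j → ℝ) × (Fin j → ℝ),
        ((fun x : ((Fin j → ℝ) × (Fin j → ℝ)) × ℝ => (x.2, x.1.1 + x.2 • x.1.2)) ⁻¹' S).indicator (1 : ((Fin j → ℝ) × (Fin j → ℝ)) × ℝ → ℝ≥0∞) (p, τ)
          = S.indicator 1 (τ, p.1 + τ • p.2) := fun p => rfl
    simp_rw [e1]
    have hm1 : Measurable fun p : (Fin j → ℝ) × (Fin j → ℝ) => S.indicator (1 : ℝ × (Fin j → ℝ) → ℝ≥0∞) (τ, p.1 + τ • p.2) :=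
      hind.comp (by fun_prop : Measurable fun p : (Fin j → ℝ) × (Fin j → ℝ) => (τ, p.1 + τ • p.2))
    have hm2 : Measurable fun y : Fin j → ℝ => S.indicator (1 : ℝ × (Fin j → ℝ) → ℝ≥0∞) (τ, y) :=
      hind.comp (by fun_prop : Measurable fun y : Fin j → ℝ => (τ, y))
    rw [hmd, lintegral_withDensity_eq_lintegral_mul _ hhm.ennreal_ofReal hm1]
    simp only [Pi.mul_apply]
    rw [k2b_xr_shear (fun p => ENNReal.ofReal (h p)) hhm.ennreal_ofReal (fun y => S.indicator 1 (τ, y)) hm2 τ]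
    refine lintegral_congr fun y => ?_
    rw [k2b_xr_T_ofReal _ hf Q hfQ hfs τ y]
  simp_rw [h1]
  rw [← lintegral_indicator measurableSet_Ico, ← lintegral_indicator hS, Measure.volume_eq_prod,
    lintegral_prod _ (((hTm'.indicator (measurableSet_Ico.prod MeasurableSet.univ)).indicator hS).aemeasurable)]
  refine lintegral_congr fun τ => ?_
  by_cases hτ : τ ∈ Set.Ico (0 : ℝ) 1
  · rw [Set.indicator_of_mem hτ]
    refine lintegral_congr fun y => ?_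
    by_cases hy : (τ, y) ∈ S
    · rw [Set.indicator_of_mem hy, Set.indicator_of_mem hy, Set.indicator_of_mem (by exact ⟨hτ, Set.mem_univ _⟩)]
      simp
    · rw [Set.indicator_of_notMem hy, Set.indicator_of_notMem hy, zero_mul]
  · rw [Set.indicator_of_notMem hτ]
    symm
    rw [lintegral_eq_zero_iff' (by
      exact (((hTm'.indicator (measurableSet_Ico.prod MeasurableSet.univ)).indicator hS).comp (by fun_prop)).aemeasurable)]
    refine ae_of_all _ fun y => ?_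
    dsimp only
    by_cases hy : (τ, y) ∈ S
    · rw [Set.indicator_of_mem hy, Set.indicator_of_notMem (fun hc => hτ hc.1)]
      rfl
    · rw [Set.indicator_of_notMem hy]
      rfl

/-- **LEAF L-252-S2b-XR7: X-ray smoothing, final normalised form.**   From `k2b_xr_repr`, `k2b_xr_mod` (`σ = 1/D`), `k2b_xr_avg`, and `β.rnDeriv volume =ᵐ` the density (`Measure.rnDeriv_withDensity`; the exceptional set is `volume`-null, hence `β`-null). -/
theorem k2b_xr {n : ℕ} (D : ℕ) (hD : 1 ≤ D) (Q : ℝ) (hQ : 0 ≤ Q) (m : Measure ((Fin (n + 1) → ℝ) × (Fin (n + 1) → ℝ)))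
    (hm : m ≤ ENNReal.ofReal Q • volume) (hs : m {p | 1 < ‖p‖} = 0)
    (β : Measure (ℝ × (Fin (n + 1) → ℝ))) (hβ : β = (m.prod (volume.restrict (Set.Ico (0 : ℝ) 1))).map (fun x => (x.2, x.1.1 + x.2 • x.1.2))) :
    β {o | 2 * β (k2bCellV D ⁻¹' {k2bCellV D o}) < β.rnDeriv volume o * ENNReal.ofReal (1 / (D : ℝ) ^ (n + 2))}
      ≤ ENNReal.ofReal (2 ^ (n + 3) * (n + 2) * (n + 1) * (32 * 8 ^ n) * Q * (1 / (D : ℝ)) ^ (1 / 4 : ℝ)) := by
  obtain ⟨f, hf, hfQ, hfs, hTm, hT0, hrep⟩ := k2b_xr_repr Q hQ m hm hs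
  have hD0 : (0 : ℝ) < D := by exact_mod_cast hD
  have hD1 : (1 : ℝ) ≤ D := by exact_mod_cast hD
  have hσ0 : (0 : ℝ) ≤ 1 / (D : ℝ) := by positivity
  have hσ1 : 1 / (D : ℝ) ≤ 1 := by
    rw [div_le_one hD0]
    exact hD1
  obtain ⟨hy, ht⟩ := k2b_xr_mod f hf Q (1 / (D : ℝ)) hfQ hfs hσ0 hσ1
  obtain ⟨c, hc⟩ : ∃ c : ℝ, c = 32 * 8 ^ n * Q * (1 / (D : ℝ)) ^ (1 / 4 : ℝ) := ⟨_, rfl⟩
  have hc0 : 0 ≤ c := by
    rw [hc]
    positivity
  rw [← hc] at hy ht
  have hβ' : β = volume.withDensity fun o => (Set.Ico (0 : ℝ) 1 ×ˢ Set.univ).indicator (fun o => ENNReal.ofReal (k2bT f o.1 o.2)) o := by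
    rw [hβ]
    exact hrep
  have havg := k2b_xr_avg D hD (k2bT f) hTm hT0 (ENNReal.ofReal ((n + 1) * c))
    (fun a h hh => (hy a h hh).trans (ENNReal.ofReal_le_ofReal (by nlinarith))) ht β hβ'
  have hdm : Measurable (fun o : ℝ × (Fin (n + 1) → ℝ) =>
      (Set.Ico (0 : ℝ) 1 ×ˢ Set.univ).indicator (fun o => ENNReal.ofReal (k2bT f o.1 o.2)) o) :=
    (ENNReal.measurable_ofReal.comp hTm).indicator (measurableSet_Ico.prod MeasurableSet.univ)
  have hac : β ≪ volume := by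
    rw [hβ']
    exact withDensity_absolutelyContinuous _ _
  have hrn : β.rnDeriv volume =ᵐ[volume] fun o : ℝ × (Fin (n + 1) → ℝ) =>
      (Set.Ico (0 : ℝ) 1 ×ˢ Set.univ).indicator (fun o => ENNReal.ofReal (k2bT f o.1 o.2)) o := by
    conv_lhs => rw [hβ']
    exact Measure.rnDeriv_withDensity volume hdm
  have hrn' := hac.ae_eq hrn
  refine le_trans (measure_mono_ae ?_) (havg.trans (le_of_eq ?_))
  · filter_upwards [hrn'] with o ho hmem
    have hmem' : 2 * β (k2bCellV D ⁻¹' {k2bCellV D o}) < β.rnDeriv volume o * ENNReal.ofReal (1 / (D : ℝ) ^ (n + 2)) := hmem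
    show 2 * β (k2bCellV D ⁻¹' {k2bCellV D o}) < ENNReal.ofReal (k2bT f o.1 o.2) * ENNReal.ofReal (1 / (D : ℝ) ^ (n + 1 + 1))
    refine hmem'.trans_le ?_
    rw [ho]
    gcongr
    exact Set.indicator_le_self _ _ o
  · have e2 : (2 : ℝ≥0∞) = ENNReal.ofReal 2 := by simp
    have e3 : ((n + 1 : ℕ) : ℝ≥0∞) + 1 = ENNReal.ofReal (n + 2) := by
      rw [show ((n : ℝ) + 2) = ((n + 2 : ℕ) : ℝ) by push_cast; ring, ENNReal.ofReal_natCast]
      push_cast
      ring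
    rw [e3, e2, ← ENNReal.ofReal_pow (by norm_num), ← ENNReal.ofReal_mul (by positivity), ← ENNReal.ofReal_mul (by positivity),
      ← ENNReal.ofReal_mul (by positivity), hc]
    congr 1
    ring

end Claimed.Agent.R252
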