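import Claimed.Agent.R252.S2b.GroupContract
import Claimed.Agent.R252.S2b.XrContract

/-!
# Row 252, unit S2b, file 8 (CONTRACT): ONE GROUP of Proposition 2.16, version-free      (architect helper264)

* `k2b_cover`     : greedy planks + residual bound for one group in NORMALISED coordinates, `j = 1, 2` base coordinates, output = matrices (ready for `KbChart`).
* `k2b_light`     : the mass in light cells (abstract): typical floor of the selected density + regularity of the PRIOR density + the budget.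
* `k2b_cover_sc`, `k2b_xr_sc` : the same statements in the ORIGINAL coordinates of a block `[t0, t0 + q)` and a box of scale `s` (pure scaling).
No `KbPb` here; Mathlib + files of S2b only.
-/

set_option autoImplicit false

namespace Claimed.Agent.R252

open MeasureTheory
open scoped ENNReal

/-! ### case `j = 2` of `k2b_cover` (leaf L-252-S2b-C2) -/

/-- the planks of the greedy algorithm: bounded centres, orthonormal frame, half widths in `[1/D, 4]` -/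
structure K2bPl (D : ℕ) where
  c : Fin 2 → ℝ
  w : Fin 2 → ℝ
  e : Fin 2 → ℝ
  α : ℝ
  β : ℝ
  hc : ‖c‖ ≤ 1
  hw : ‖w‖ ≤ 1
  he : e 0 ^ 2 + e 1 ^ 2 = 1
  hα : 1 / (D : ℝ) ≤ α
  hαβ : α ≤ β
  hβ : β ≤ 4

/-- the frame matrix of a plank: columns `α e`, `β e^⊥` -/
def k2bDn (e : Fin 2 → ℝ) (α β : ℝ) : Matrix (Fin 2) (Fin 2) ℝ := !![α * e 0, -β * e 1; α * e 1, β * e 0]

/-- its inverse -/
noncomputable def k2bDni (e : Fin 2 → ℝ) (α β : ℝ) : Matrix (Fin 2) (Fin 2) ℝ := !![e 0 / α, e 1 / α; -e 1 / β, e 0 / β]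

theorem k2b_Dn_mul (e : Fin 2 → ℝ) (α β : ℝ) (he : e 0 ^ 2 + e 1 ^ 2 = 1) (hα : α ≠ 0) (hβ : β ≠ 0) :
    k2bDn e α β * k2bDni e α β = 1 := by
  unfold k2bDn k2bDni
  rw [Matrix.mul_fin_two, Matrix.one_fin_two]
  have h1 : α * e 0 * (e 0 / α) + -β * e 1 * (-e 1 / β) = 1 := by
    field_simp
    linarith
  have h2 : α * e 0 * (e 1 / α) + -β * e 1 * (e 0 / β) = 0 := by
    field_simp
    ring
  have h3 : α * e 1 * (e 0 / α) + β * e 0 * (-e 1 / β) = 0 := by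
    field_simp
    ring
  have h4 : α * e 1 * (e 1 / α) + β * e 0 * (e 0 / β) = 1 := by
    field_simp
    linarith
  rw [h1, h2, h3, h4]

theorem k2b_Dn_det (e : Fin 2 → ℝ) (α β : ℝ) (he : e 0 ^ 2 + e 1 ^ 2 = 1) : (k2bDn e α β).det = α * β := by
  unfold k2bDn
  rw [Matrix.det_fin_two_of]
  have : α * e 0 * (β * e 0) - -β * e 1 * (α * e 1) = α * β * (e 0 ^ 2 + e 1 ^ 2) := by ring
  rw [this, he, mul_one]

theorem k2b_frame_le (e : Fin 2 → ℝ) (he : e 0 ^ 2 + e 1 ^ 2 = 1) (a : Fin 2) : |e a| ≤ 1 := by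
  have h0 : |e 0| ≤ 1 := by
    rw [abs_le]
    constructor <;> nlinarith [sq_nonneg (e 1), sq_nonneg (e 0 - 1), sq_nonneg (e 0 + 1)]
  have h1 : |e 1| ≤ 1 := by
    rw [abs_le]
    constructor <;> nlinarith [sq_nonneg (e 0), sq_nonneg (e 1 - 1), sq_nonneg (e 1 + 1)]
  match a with
  | 0 => exact h0
  | 1 => exact h1

theorem k2b_Dn_entry (e : Fin 2 → ℝ) (α β : ℝ) (he : e 0 ^ 2 + e 1 ^ 2 = 1) (hα0 : 0 ≤ α) (hβ0 : 0 ≤ β) (hα : α ≤ 4) (hβ : β ≤ 4)
    (a a' : Fin 2) : |k2bDn e α β a a'| ≤ 8 := by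
  have key : ∀ (x : ℝ) (i : Fin 2), 0 ≤ x → x ≤ 4 → |x * e i| ≤ 8 := by
    intro x i h0 h4
    rw [abs_mul, abs_of_nonneg h0]
    nlinarith [k2b_frame_le e he i, abs_nonneg (e i)]
  unfold k2bDn
  fin_cases a <;> fin_cases a'
  · simpa using key α 0 hα0 hα
  · simpa using key β 1 hβ0 hβ
  · simpa using key α 1 hα0 hα
  · simpa using key β 0 hβ0 hβ

theorem k2b_Dni_mulVec (e x : Fin 2 → ℝ) (α β : ℝ) (hα : 0 < α) (hβ : 0 < β) (h1 : |x 0 * e 0 + x 1 * e 1| ≤ α)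
    (h2 : |-x 0 * e 1 + x 1 * e 0| ≤ β) : ‖(k2bDni e α β).mulVec x‖ ≤ 1 := by
  rw [pi_norm_le_iff_of_nonneg zero_le_one]
  intro a
  rw [Real.norm_eq_abs]
  unfold k2bDni
  fin_cases a
  · have : (!![e 0 / α, e 1 / α; -e 1 / β, e 0 / β].mulVec x) 0 = (x 0 * e 0 + x 1 * e 1) / α := by
      simp [Matrix.mulVec, dotProduct, Fin.sum_univ_two]
      ring
    show |(!![e 0 / α, e 1 / α; -e 1 / β, e 0 / β].mulVec x) 0| ≤ 1
    rw [this, abs_div, abs_of_pos hα, div_le_one hα]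
    exact h1
  · have : (!![e 0 / α, e 1 / α; -e 1 / β, e 0 / β].mulVec x) 1 = (-x 0 * e 1 + x 1 * e 0) / β := by
      simp [Matrix.mulVec, dotProduct, Fin.sum_univ_two]
      ring
    show |(!![e 0 / α, e 1 / α; -e 1 / β, e 0 / β].mulVec x) 1| ≤ 1
    rw [this, abs_div, abs_of_pos hβ, div_le_one hβ]
    exact h2

/-- the difference of two traces of a plank -/
theorem k2b_in_diff {b u b0 u0 c v e : Fin 2 → ℝ} {α β : ℝ} (h : K2bIn b u c v e α β) (h0 : K2bIn b0 u0 c v e α β) :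
    K2bIn b u b0 u0 e (2 * α) (2 * β) := by
  intro t ht
  obtain ⟨h1, h2⟩ := h t ht
  obtain ⟨h3, h4⟩ := h0 t ht
  rw [abs_le] at h1 h2 h3 h4
  constructor
  · rw [abs_le]
    constructor <;> nlinarith [h1.1, h1.2, h3.1, h3.2]
  · rw [abs_le]
    constructor <;> nlinarith [h2.1, h2.2, h4.1, h4.2]

theorem k2b_in_closed (c v e : Fin 2 → ℝ) (α β : ℝ) :
    IsClosed {p : (Fin 2 → ℝ) × (Fin 2 → ℝ) | K2bIn p.1 p.2 c v e α β} := by
  have : {p : (Fin 2 → ℝ) × (Fin 2 → ℝ) | K2bIn p.1 p.2 c v e α β} = ⋂ t ∈ Set.Icc (0 : ℝ) 1,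
      ({p : (Fin 2 → ℝ) × (Fin 2 → ℝ) |
          |(p.1 0 + t * p.2 0 - c 0 - t * v 0) * e 0 + (p.1 1 + t * p.2 1 - c 1 - t * v 1) * e 1| ≤ α} ∩
        {p : (Fin 2 → ℝ) × (Fin 2 → ℝ) |
          |-(p.1 0 + t * p.2 0 - c 0 - t * v 0) * e 1 + (p.1 1 + t * p.2 1 - c 1 - t * v 1) * e 0| ≤ β}) := by
    ext p
    simp only [Set.mem_iInter, Set.mem_inter_iff]
    rfl
  rw [this]
  exact isClosed_biInter fun t _ => (isClosed_le (by fun_prop) continuous_const).inter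
    (isClosed_le (by fun_prop) continuous_const)

theorem k2b_in_meas {Ω : Type} [MeasurableSpace Ω] (b u : Ω → Fin 2 → ℝ) (hb : Measurable b) (hu : Measurable u) (c v e : Fin 2 → ℝ)
    (α β : ℝ) : MeasurableSet {l | K2bIn (b l) (u l) c v e α β} :=
  (hb.prodMk hu) (k2b_in_closed c v e α β).measurableSet

theorem k2b_pl_pos {D : ℕ} (hD : 1 ≤ D) (q : K2bPl D) : 0 < q.α ∧ 0 < q.β := by
  have hD0 : (0 : ℝ) < D := by exact_mod_cast hD
  have h1 : 0 < q.α := lt_of_lt_of_le (by positivity) q.hα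
  exact ⟨h1, h1.trans_le q.hαβ⟩

theorem k2b_pl_area {D : ℕ} (hD : 1 ≤ D) (q : K2bPl D) : 1 / (D : ℝ) ^ 2 ≤ q.α * q.β := by
  have hD0 : (0 : ℝ) < D := by exact_mod_cast hD
  have h0 : (0 : ℝ) ≤ 1 / D := by positivity
  calc 1 / (D : ℝ) ^ 2 = 1 / D * (1 / D) := by rw [sq]; field_simp
    _ ≤ q.α * q.β := mul_le_mul q.hα (q.hα.trans q.hαβ) h0 (h0.trans q.hα)

/-- **case `j = 2` of `k2b_cover`** -/
theorem k2b_cover_two (H : K2bPlankFin) (ε : ℝ) (hε : 0 < ε) : ∃ η C : ℝ, 0 < η ∧ 0 < C ∧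
    ∀ (D : ℕ) (Ω : Type) [MeasurableSpace Ω] (lam : Measure Ω) [IsFiniteMeasure lam] (b u : Ω → Fin 2 → ℝ) (E : Set (Ω × ℝ)) (θ κ : ℝ),
      1 ≤ D → Measurable b → Measurable u → MeasurableSet E → 0 < θ → (D : ℝ) ^ (-η) ≤ κ → (∀ l, ‖b l‖ ≤ 1 ∧ ‖u l‖ ≤ 1) →
      (∀ x ∈ E, 0 ≤ x.2 ∧ x.2 < 1) →
      ∃ (n : ℕ) (c w : Fin n → Fin 2 → ℝ) (Dn Dni : Fin n → Matrix (Fin 2) (Fin 2) ℝ) (A : Fin n → Set Ω),
        (∀ i, MeasurableSet (A i)) ∧ (∀ i i', i ≠ i' → Disjoint (A i) (A i')) ∧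
        (∀ i, ‖c i‖ ≤ 1 ∧ ‖w i‖ ≤ 1) ∧ (∀ i, Dn i * Dni i = 1) ∧ (∀ i a a', |Dn i a a'| ≤ 8) ∧ (∀ i, 1 / (D : ℝ) ^ 2 ≤ |(Dn i).det|) ∧
        (∀ i, ∀ l ∈ A i, ∀ τ ∈ Set.Icc (0 : ℝ) 1, ‖(Dni i).mulVec (b l + τ • u l - c i - τ • w i)‖ ≤ 1) ∧
        (∀ i, ENNReal.ofReal (θ * |(Dn i).det|) ≤ ∫⁻ l in A i, volume {t | (l, t) ∈ E} ∂lam) ∧
        ((n : ℝ≥0∞) * ENNReal.ofReal (θ / (D : ℝ) ^ 2) ≤ (lam.prod volume) E) ∧
        ∀ Vis : Finset (ℕ × (Fin 2 → ℤ)),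
          (lam.prod volume) (E ∩ (⋃ i, A i)ᶜ ×ˢ Set.univ)
            ≤ (lam.prod volume) {x | x ∈ E ∧ k2bCellV D (x.2, b x.1 + x.2 • u x.1) ∉ Vis} + ENNReal.ofReal κ * lam Set.univ
              + ENNReal.ofReal (C * θ / κ * (D : ℝ) ^ (ε - (((2 : ℕ) : ℝ) + 1)) * Vis.card) := by
  obtain ⟨η, C₂, hη, hC₂, hG⟩ := k2b_group2 H 1 ε zero_le_one hε
  refine ⟨η, 4 * C₂, hη, by positivity, ?_⟩
  intro D Ω _ lam _ b u E θ κ hD hb hu hE hθ hκ hbu hE01
  have hD0 : (0 : ℝ) < D := by exact_mod_cast hD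
  -- the incidence mass as a measure on trajectories
  obtain ⟨f, hf⟩ : ∃ f : Ω → ℝ≥0∞, f = fun l => volume {t | (l, t) ∈ E} := ⟨_, rfl⟩
  have hfm : Measurable f := by
    rw [hf]
    exact measurable_measure_prodMk_left hE
  have hf1 : ∀ l, f l ≤ 1 := by
    intro l
    rw [hf]
    calc volume {t | (l, t) ∈ E} ≤ volume (Set.Ico (0 : ℝ) 1) := measure_mono fun t ht => hE01 (l, t) ht
      _ = 1 := by simp
  have hfin : ∫⁻ l, f l ∂lam ≠ ⊤ := by
    refine ne_top_of_le_ne_top (measure_ne_top lam Set.univ) ?_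
    calc ∫⁻ l, f l ∂lam ≤ ∫⁻ _l, 1 ∂lam := lintegral_mono hf1
      _ = lam Set.univ := by simp
  obtain ⟨m, hm⟩ : ∃ m : Measure Ω, m = lam.withDensity f := ⟨_, rfl⟩
  have hmfin : IsFiniteMeasure m := by
    rw [hm]
    exact isFiniteMeasure_withDensity hfin
  have hmA : ∀ s, MeasurableSet s → m s = ∫⁻ l in s, f l ∂lam := fun s hs => by
    rw [hm, withDensity_apply _ hs]
  have hSm : ∀ q : K2bPl D, MeasurableSet {l | K2bIn (b l) (u l) q.c q.w q.e q.α q.β} :=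
    fun q => k2b_in_meas b u hb hu _ _ _ _ _
  obtain ⟨n, p, A, a1, a2, a3, a4, a5, a6, a7⟩ := k2b_greedy m (fun q : K2bPl D => {l | K2bIn (b l) (u l) q.c q.w q.e q.α q.β}) hSm
    (fun q => ENNReal.ofReal (θ * (q.α * q.β))) (ENNReal.ofReal (θ / (D : ℝ) ^ 2)) (ENNReal.ofReal_pos.2 (by positivity))
    (fun q => ENNReal.ofReal_le_ofReal (by
      rw [div_eq_mul_one_div]
      exact mul_le_mul_of_nonneg_left (k2b_pl_area hD q) hθ.le))
  have hdet : ∀ i, |(k2bDn (p i).e (p i).α (p i).β).det| = (p i).α * (p i).β := fun i => by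
    rw [k2b_Dn_det _ _ _ (p i).he, abs_of_pos (mul_pos (k2b_pl_pos hD (p i)).1 (k2b_pl_pos hD (p i)).2)]
  refine ⟨n, fun i => (p i).c, fun i => (p i).w, fun i => k2bDn (p i).e (p i).α (p i).β, fun i => k2bDni (p i).e (p i).α (p i).β, A,
    a1, a3, fun i => ⟨(p i).hc, (p i).hw⟩, ?_, ?_, ?_, ?_, ?_, ?_, ?_⟩
  · exact fun i => k2b_Dn_mul _ _ _ (p i).he (k2b_pl_pos hD (p i)).1.ne' (k2b_pl_pos hD (p i)).2.ne'
  · exact fun i a a' => k2b_Dn_entry _ _ _ (p i).he (k2b_pl_pos hD (p i)).1.le (k2b_pl_pos hD (p i)).2.le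
      ((p i).hαβ.trans (p i).hβ) (p i).hβ a a'
  · intro i
    rw [hdet i]
    exact k2b_pl_area hD (p i)
  · intro i l hl τ hτ
    obtain ⟨h1, h2⟩ := a2 i hl τ hτ
    refine k2b_Dni_mulVec _ _ _ _ (k2b_pl_pos hD (p i)).1 (k2b_pl_pos hD (p i)).2 ?_ ?_
    · simpa using h1
    · simpa using h2
  · intro i
    rw [hdet i, ← hf, ← hmA _ (a1 i)]
    exact a4 i
  · refine a7.trans (le_of_eq ?_)
    rw [hmA _ MeasurableSet.univ, Measure.restrict_univ, Measure.prod_apply hE, hf]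
    rfl
  · intro Vis
    obtain ⟨Res, hRes⟩ : ∃ Res : Set Ω, Res = (⋃ i, A i)ᶜ := ⟨_, rfl⟩
    have hResm : MeasurableSet Res := by
      rw [hRes]
      exact (MeasurableSet.iUnion a1).compl
    rw [← hRes]
    obtain ⟨E', hE'⟩ : ∃ E' : Set (Ω × ℝ), E' = E ∩ Res ×ˢ Set.univ := ⟨_, rfl⟩
    have hE'm : MeasurableSet E' := by
      rw [hE']
      exact hE.inter (hResm.prod MeasurableSet.univ)
    rw [← hE']
    obtain ⟨good, hgood⟩ : ∃ good : Set (Ω × ℝ), good = {x | x ∈ E' ∧ k2bCellAt D x.2 (fun a => b x.1 a + x.2 * u x.1 a) ∈ Vis} :=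
      ⟨_, rfl⟩
    have hgm : MeasurableSet good := by
      rw [hgood]
      exact hE'm.inter ((k2b_cellAt_meas D b u hb hu) (Finset.measurableSet Vis))
    have hsec : ∀ l, volume {t | (l, t) ∈ E'} = Res.indicator f l := by
      intro l
      by_cases hl : l ∈ Res
      · rw [Set.indicator_of_mem hl, hf]
        congr 1
        ext t
        simp [hE', hl]
      · rw [Set.indicator_of_notMem hl]
        have : {t | (l, t) ∈ E'} = ∅ := by
          ext t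
          simp [hE', hl]
        rw [this, measure_empty]
    have hstop : ∀ (c v e : Fin 2 → ℝ) (α β : ℝ), e 0 ^ 2 + e 1 ^ 2 = 1 → 1 / (D : ℝ) ≤ α → α ≤ β → β ≤ 2 →
        ∫⁻ l in {l | K2bIn (b l) (u l) c v e α β}, volume {t | (l, t) ∈ E'} ∂lam ≤ ENNReal.ofReal (4 * θ * α * β) := by
      intro c v e α β he hα hαβ hβ
      have hα0 : 0 < α := lt_of_lt_of_le (by positivity) hα
      rcases Set.eq_empty_or_nonempty {l | K2bIn (b l) (u l) c v e α β} with h0 | ⟨l₀, hl₀⟩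
      · rw [h0]
        simp
      · obtain ⟨q, hq⟩ : ∃ q : K2bPl D, q = ⟨b l₀, u l₀, e, 2 * α, 2 * β, (hbu l₀).1, (hbu l₀).2, he, by linarith, by linarith,
          by linarith⟩ := ⟨_, rfl⟩
        have h1 := a6 q
        have hPm : MeasurableSet {l | K2bIn (b l) (u l) c v e α β} := k2b_in_meas b u hb hu _ _ _ _ _
        have hsub : Res ∩ {l | K2bIn (b l) (u l) c v e α β} ⊆ {l | K2bIn (b l) (u l) q.c q.w q.e q.α q.β} \ ⋃ i, A i := by
          rintro l ⟨hl1, hl2⟩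
          refine ⟨?_, by rw [hRes] at hl1; exact hl1⟩
          rw [hq]
          exact k2b_in_diff hl2 hl₀
        calc ∫⁻ l in {l | K2bIn (b l) (u l) c v e α β}, volume {t | (l, t) ∈ E'} ∂lam
            = ∫⁻ l in {l | K2bIn (b l) (u l) c v e α β}, Res.indicator f l ∂lam := lintegral_congr fun l => hsec l
          _ = ∫⁻ l in Res ∩ {l | K2bIn (b l) (u l) c v e α β}, f l ∂lam := by
              rw [lintegral_indicator hResm, Measure.restrict_restrict hResm]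
          _ ≤ ∫⁻ l in {l | K2bIn (b l) (u l) q.c q.w q.e q.α q.β} \ ⋃ i, A i, f l ∂lam := lintegral_mono_set hsub
          _ = m ({l | K2bIn (b l) (u l) q.c q.w q.e q.α q.β} \ ⋃ i, A i) :=
              (hmA _ ((hSm q).diff (MeasurableSet.iUnion a1))).symm
          _ ≤ ENNReal.ofReal (θ * (q.α * q.β)) := h1.le
          _ = ENNReal.ofReal (4 * θ * α * β) := by
              rw [hq]
              congr 1
              ring
    have hbd : ∀ l a, |b l a| ≤ 1 ∧ |u l a| ≤ 1 := fun l a =>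
      ⟨(norm_le_pi_norm (b l) a).trans (hbu l).1, (norm_le_pi_norm (u l) a).trans (hbu l).2⟩
    have hgr := hG D Ω lam b u E' (4 * θ) κ Vis hD hb hu hE'm (by positivity) hκ hbd
      (fun x hx => hE01 x (by rw [hE'] at hx; exact hx.1)) hstop
    have hsp := k2b_res_split lam E' good hE'm hgm (fun x hx => by rw [hgood] at hx; exact hx.1) (ENNReal.ofReal κ)
    have h1 : (lam.prod volume) (E' \ good)
        ≤ (lam.prod volume) {x | x ∈ E ∧ k2bCellV D (x.2, b x.1 + x.2 • u x.1) ∉ Vis} := by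
      refine measure_mono ?_
      rintro x ⟨hx1, hx2⟩
      refine ⟨by rw [hE'] at hx1; exact hx1.1, fun hc => hx2 ?_⟩
      rw [hgood]
      exact ⟨hx1, hc⟩
    have h2 : ∫⁻ l in {l | ENNReal.ofReal κ ≤ volume {t | (l, t) ∈ good}}, volume {t | (l, t) ∈ good} ∂lam
        ≤ ENNReal.ofReal (4 * C₂ * θ / κ * (D : ℝ) ^ (ε - (((2 : ℕ) : ℝ) + 1)) * Vis.card) := by
      have e : 4 * C₂ * θ / κ * (D : ℝ) ^ (ε - (((2 : ℕ) : ℝ) + 1)) * Vis.card = C₂ * (4 * θ) / κ * (D : ℝ) ^ (ε - 3) * Vis.card := by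
        have : (((2 : ℕ) : ℝ) + 1) = 3 := by norm_num
        rw [this]
        ring
      rw [e, hgood]
      exact hgr
    exact hsp.trans (add_le_add (add_le_add h1 le_rfl) h2)

/-! ### case `j = 1` of `k2b_cover` (leaf L-252-S2b-C1) -/

/-- the intervals of the greedy algorithm: bounded centres, half width in `[1/D, 8]` -/
structure K2bPl1 (D : ℕ) where
  c : ℝ
  w : ℝ
  α : ℝ
  hc : |c| ≤ 1
  hw : |w| ≤ 1
  hα : 1 / (D : ℝ) ≤ α
  hβ : α ≤ 8

theorem k2b_pl1_pos {D : ℕ} (hD : 1 ≤ D) (q : K2bPl1 D) : 0 < q.α := by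
  have hD0 : (0 : ℝ) < D := by exact_mod_cast hD
  exact lt_of_lt_of_le (by positivity) q.hα

theorem k2b_in1_diff {b u b0 u0 c v α : ℝ} (h : K2bIn1 b u c v α) (h0 : K2bIn1 b0 u0 c v α) :
    K2bIn1 b u b0 u0 (2 * α) := by
  intro t ht
  have h1 := h t ht
  have h3 := h0 t ht
  rw [abs_le] at h1 h3 ⊢
  constructor <;> linarith [h1.1, h1.2, h3.1, h3.2]

theorem k2b_in1_meas {Ω : Type} [MeasurableSpace Ω] (b u : Ω → ℝ) (hb : Measurable b) (hu : Measurable u) (c v α : ℝ) :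
    MeasurableSet {l | K2bIn1 (b l) (u l) c v α} := by
  have : {l | K2bIn1 (b l) (u l) c v α} = {l | |b l - c| ≤ α} ∩ {l | |b l + u l - c - v| ≤ α} := by
    ext l
    exact k2b_g1_in1_iff _ _ _ _ _
  rw [this]
  refine (measurableSet_le ?_ measurable_const).inter (measurableSet_le ?_ measurable_const)
  · exact (hb.sub_const c).abs
  · exact (((hb.add hu).sub_const c).sub_const v).abs

theorem k2b_norm_fin1 (x : Fin 1 → ℝ) : ‖x‖ = |x 0| := by
  apply le_antisymm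
  · rw [pi_norm_le_iff_of_nonneg (abs_nonneg _)]
    intro a
    rw [Subsingleton.elim a 0, Real.norm_eq_abs]
  · exact norm_le_pi_norm x 0

theorem k2b_D1_mul (α : ℝ) (hα : α ≠ 0) :
    (α • (1 : Matrix (Fin 1) (Fin 1) ℝ)) * (α⁻¹ • (1 : Matrix (Fin 1) (Fin 1) ℝ)) = 1 := by
  rw [smul_mul_smul_comm, mul_one, mul_inv_cancel₀ hα, one_smul]

theorem k2b_D1_det (α : ℝ) : (α • (1 : Matrix (Fin 1) (Fin 1) ℝ)).det = α := by
  rw [Matrix.det_smul, Matrix.det_one, Fintype.card_fin, pow_one, mul_one]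

theorem k2b_D1_entry (α : ℝ) (a a' : Fin 1) : (α • (1 : Matrix (Fin 1) (Fin 1) ℝ)) a a' = α := by
  rw [Subsingleton.elim a a', Matrix.smul_apply, Matrix.one_apply_eq, smul_eq_mul, mul_one]

theorem k2b_D1_mulVec (α : ℝ) (hα : 0 < α) (x : Fin 1 → ℝ) (h : |x 0| ≤ α) :
    ‖(α⁻¹ • (1 : Matrix (Fin 1) (Fin 1) ℝ)).mulVec x‖ ≤ 1 := by
  rw [Matrix.smul_mulVec, Matrix.one_mulVec, norm_smul, k2b_norm_fin1, Real.norm_eq_abs, abs_of_pos (inv_pos.2 hα),
    inv_mul_le_iff₀ hα, mul_one]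
  exact h

theorem k2b_cell1_meas {Ω : Type} [MeasurableSpace Ω] (D : ℕ) (b u : Ω → ℝ) (hb : Measurable b) (hu : Measurable u) :
    Measurable fun x : Ω × ℝ => ((⌊x.2 * D⌋₊, ⌊(b x.1 + x.2 * u x.1) * D⌋) : ℕ × ℤ) := by
  refine Measurable.prodMk ?_ ?_
  · exact (measurable_snd.mul_const _).nat_floor
  · refine Measurable.floor ?_
    refine Measurable.mul_const ?_ _
    exact (hb.comp measurable_fst).add (measurable_snd.mul (hu.comp measurable_fst))

/-- **case `j = 1` of `k2b_cover`** -/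
theorem k2b_cover_one (H : K2bPlankFin) (ε : ℝ) (hε : 0 < ε) : ∃ η C : ℝ, 0 < η ∧ 0 < C ∧
    ∀ (D : ℕ) (Ω : Type) [MeasurableSpace Ω] (lam : Measure Ω) [IsFiniteMeasure lam] (b u : Ω → Fin 1 → ℝ) (E : Set (Ω × ℝ)) (θ κ : ℝ),
      1 ≤ D → Measurable b → Measurable u → MeasurableSet E → 0 < θ → (D : ℝ) ^ (-η) ≤ κ → (∀ l, ‖b l‖ ≤ 1 ∧ ‖u l‖ ≤ 1) →
      (∀ x ∈ E, 0 ≤ x.2 ∧ x.2 < 1) →
      ∃ (n : ℕ) (c w : Fin n → Fin 1 → ℝ) (Dn Dni : Fin n → Matrix (Fin 1) (Fin 1) ℝ) (A : Fin n → Set Ω),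
        (∀ i, MeasurableSet (A i)) ∧ (∀ i i', i ≠ i' → Disjoint (A i) (A i')) ∧
        (∀ i, ‖c i‖ ≤ 1 ∧ ‖w i‖ ≤ 1) ∧ (∀ i, Dn i * Dni i = 1) ∧ (∀ i a a', |Dn i a a'| ≤ 8) ∧ (∀ i, 1 / (D : ℝ) ^ 1 ≤ |(Dn i).det|) ∧
        (∀ i, ∀ l ∈ A i, ∀ τ ∈ Set.Icc (0 : ℝ) 1, ‖(Dni i).mulVec (b l + τ • u l - c i - τ • w i)‖ ≤ 1) ∧
        (∀ i, ENNReal.ofReal (θ * |(Dn i).det|) ≤ ∫⁻ l in A i, volume {t | (l, t) ∈ E} ∂lam) ∧
        ((n : ℝ≥0∞) * ENNReal.ofReal (θ / (D : ℝ) ^ 1) ≤ (lam.prod volume) E) ∧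
        ∀ Vis : Finset (ℕ × (Fin 1 → ℤ)),
          (lam.prod volume) (E ∩ (⋃ i, A i)ᶜ ×ˢ Set.univ)
            ≤ (lam.prod volume) {x | x ∈ E ∧ k2bCellV D (x.2, b x.1 + x.2 • u x.1) ∉ Vis} + ENNReal.ofReal κ * lam Set.univ
              + ENNReal.ofReal (C * θ / κ * (D : ℝ) ^ (ε - (((1 : ℕ) : ℝ) + 1)) * Vis.card) := by
  classical
  obtain ⟨η, C₁, hη, hC₁, hG⟩ := k2b_group1 H 1 ε zero_le_one hε
  refine ⟨η, 2 * C₁, hη, by positivity, ?_⟩
  intro D Ω _ lam _ b u E θ κ hD hb hu hE hθ hκ hbu hE01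
  have hD0 : (0 : ℝ) < D := by exact_mod_cast hD
  have hκ0 : 0 < κ := lt_of_lt_of_le (Real.rpow_pos_of_pos hD0 _) hκ
  have hb0 : Measurable fun l => b l 0 := (measurable_pi_apply 0).comp hb
  have hu0 : Measurable fun l => u l 0 := (measurable_pi_apply 0).comp hu
  -- the incidence mass as a measure on trajectories
  obtain ⟨f, hf⟩ : ∃ f : Ω → ℝ≥0∞, f = fun l => volume {t | (l, t) ∈ E} := ⟨_, rfl⟩
  have hfm : Measurable f := by
    rw [hf]
    exact measurable_measure_prodMk_left hE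
  have hf1 : ∀ l, f l ≤ 1 := by
    intro l
    rw [hf]
    calc volume {t | (l, t) ∈ E} ≤ volume (Set.Ico (0 : ℝ) 1) := measure_mono fun t ht => hE01 (l, t) ht
      _ = 1 := by simp
  have hfin : ∫⁻ l, f l ∂lam ≠ ⊤ := by
    refine ne_top_of_le_ne_top (measure_ne_top lam Set.univ) ?_
    calc ∫⁻ l, f l ∂lam ≤ ∫⁻ _l, 1 ∂lam := lintegral_mono hf1
      _ = lam Set.univ := by simp
  obtain ⟨m, hm⟩ : ∃ m : Measure Ω, m = lam.withDensity f := ⟨_, rfl⟩
  have hmfin : IsFiniteMeasure m := by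
    rw [hm]
    exact isFiniteMeasure_withDensity hfin
  have hmA : ∀ s, MeasurableSet s → m s = ∫⁻ l in s, f l ∂lam := fun s hs => by
    rw [hm, withDensity_apply _ hs]
  have hSm : ∀ q : K2bPl1 D, MeasurableSet {l | K2bIn1 (b l 0) (u l 0) q.c q.w q.α} :=
    fun q => k2b_in1_meas _ _ hb0 hu0 _ _ _
  obtain ⟨n, p, A, a1, a2, a3, a4, a5, a6, a7⟩ := k2b_greedy m (fun q : K2bPl1 D => {l | K2bIn1 (b l 0) (u l 0) q.c q.w q.α}) hSm
    (fun q => ENNReal.ofReal (θ * q.α)) (ENNReal.ofReal (θ / (D : ℝ) ^ 1)) (ENNReal.ofReal_pos.2 (by positivity))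
    (fun q => ENNReal.ofReal_le_ofReal (by
      rw [div_eq_mul_one_div, pow_one]
      exact mul_le_mul_of_nonneg_left q.hα hθ.le))
  have hdet : ∀ i, |((p i).α • (1 : Matrix (Fin 1) (Fin 1) ℝ)).det| = (p i).α := fun i => by
    rw [k2b_D1_det, abs_of_pos (k2b_pl1_pos hD (p i))]
  refine ⟨n, fun i _ => (p i).c, fun i _ => (p i).w, fun i => (p i).α • (1 : Matrix (Fin 1) (Fin 1) ℝ),
    fun i => (p i).α⁻¹ • (1 : Matrix (Fin 1) (Fin 1) ℝ), A, a1, a3, ?_, ?_, ?_, ?_, ?_, ?_, ?_, ?_⟩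
  · intro i
    rw [k2b_norm_fin1, k2b_norm_fin1]
    exact ⟨(p i).hc, (p i).hw⟩
  · exact fun i => k2b_D1_mul _ (k2b_pl1_pos hD (p i)).ne'
  · intro i a a'
    show |((p i).α • (1 : Matrix (Fin 1) (Fin 1) ℝ)) a a'| ≤ 8
    rw [k2b_D1_entry, abs_of_pos (k2b_pl1_pos hD (p i))]
    exact (p i).hβ
  · intro i
    rw [hdet i, pow_one]
    exact (p i).hα
  · intro i l hl τ hτ
    have h1 := a2 i hl τ hτ
    refine k2b_D1_mulVec _ (k2b_pl1_pos hD (p i)) _ ?_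
    simpa using h1
  · intro i
    rw [hdet i, ← hf, ← hmA _ (a1 i)]
    exact a4 i
  · refine a7.trans (le_of_eq ?_)
    rw [hmA _ MeasurableSet.univ, Measure.restrict_univ, Measure.prod_apply hE, hf]
    rfl
  · intro Vis
    obtain ⟨Vis1, hVis1⟩ : ∃ Vis1 : Finset (ℕ × ℤ), Vis1 = Vis.image (fun c => (c.1, c.2 0)) := ⟨_, rfl⟩
    obtain ⟨Res, hRes⟩ : ∃ Res : Set Ω, Res = (⋃ i, A i)ᶜ := ⟨_, rfl⟩
    have hResm : MeasurableSet Res := by
      rw [hRes]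
      exact (MeasurableSet.iUnion a1).compl
    rw [← hRes]
    obtain ⟨E', hE'⟩ : ∃ E' : Set (Ω × ℝ), E' = E ∩ Res ×ˢ Set.univ := ⟨_, rfl⟩
    have hE'm : MeasurableSet E' := by
      rw [hE']
      exact hE.inter (hResm.prod MeasurableSet.univ)
    rw [← hE']
    obtain ⟨good, hgood⟩ : ∃ good : Set (Ω × ℝ),
      good = {x | x ∈ E' ∧ ((⌊x.2 * D⌋₊, ⌊(b x.1 0 + x.2 * u x.1 0) * D⌋) : ℕ × ℤ) ∈ Vis1} := ⟨_, rfl⟩
    have hgm : MeasurableSet good := by
      rw [hgood]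
      exact hE'm.inter ((k2b_cell1_meas D _ _ hb0 hu0) (Finset.measurableSet Vis1))
    have hsec : ∀ l, volume {t | (l, t) ∈ E'} = Res.indicator f l := by
      intro l
      by_cases hl : l ∈ Res
      · rw [Set.indicator_of_mem hl, hf]
        congr 1
        ext t
        simp [hE', hl]
      · rw [Set.indicator_of_notMem hl]
        have : {t | (l, t) ∈ E'} = ∅ := by
          ext t
          simp [hE', hl]
        rw [this, measure_empty]
    have hstop : ∀ (c v α : ℝ), 1 / (D : ℝ) ≤ α → α ≤ 4 →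
        ∫⁻ l in {l | K2bIn1 (b l 0) (u l 0) c v α}, volume {t | (l, t) ∈ E'} ∂lam ≤ ENNReal.ofReal (2 * θ * α) := by
      intro c v α hα hβ
      have hα0 : 0 < α := lt_of_lt_of_le (by positivity) hα
      rcases Set.eq_empty_or_nonempty {l | K2bIn1 (b l 0) (u l 0) c v α} with h0 | ⟨l₀, hl₀⟩
      · rw [h0]
        simp
      · obtain ⟨q, hq⟩ : ∃ q : K2bPl1 D, q = ⟨b l₀ 0, u l₀ 0, 2 * α, (norm_le_pi_norm (b l₀) 0).trans (hbu l₀).1,
          (norm_le_pi_norm (u l₀) 0).trans (hbu l₀).2, by linarith, by linarith⟩ := ⟨_, rfl⟩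
        have h1 := a6 q
        have hsub : Res ∩ {l | K2bIn1 (b l 0) (u l 0) c v α} ⊆ {l | K2bIn1 (b l 0) (u l 0) q.c q.w q.α} \ ⋃ i, A i := by
          rintro l ⟨hl1, hl2⟩
          refine ⟨?_, by rw [hRes] at hl1; exact hl1⟩
          rw [hq]
          exact k2b_in1_diff hl2 hl₀
        calc ∫⁻ l in {l | K2bIn1 (b l 0) (u l 0) c v α}, volume {t | (l, t) ∈ E'} ∂lam
            = ∫⁻ l in {l | K2bIn1 (b l 0) (u l 0) c v α}, Res.indicator f l ∂lam := lintegral_congr fun l => hsec l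
          _ = ∫⁻ l in Res ∩ {l | K2bIn1 (b l 0) (u l 0) c v α}, f l ∂lam := by
              rw [lintegral_indicator hResm, Measure.restrict_restrict hResm]
          _ ≤ ∫⁻ l in {l | K2bIn1 (b l 0) (u l 0) q.c q.w q.α} \ ⋃ i, A i, f l ∂lam := lintegral_mono_set hsub
          _ = m ({l | K2bIn1 (b l 0) (u l 0) q.c q.w q.α} \ ⋃ i, A i) :=
              (hmA _ ((hSm q).diff (MeasurableSet.iUnion a1))).symm
          _ ≤ ENNReal.ofReal (θ * q.α) := h1.le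
          _ = ENNReal.ofReal (2 * θ * α) := by
              rw [hq]
              congr 1
              ring
    have hbd : ∀ l, |b l 0| ≤ 1 ∧ |u l 0| ≤ 1 := fun l =>
      ⟨(norm_le_pi_norm (b l) 0).trans (hbu l).1, (norm_le_pi_norm (u l) 0).trans (hbu l).2⟩
    have hgr := hG D Ω lam (fun l => b l 0) (fun l => u l 0) E' (2 * θ) κ Vis1 hD hb0 hu0 hE'm (by positivity) hκ hbd
      (fun x hx => hE01 x (by rw [hE'] at hx; exact hx.1)) hstop
    have hsp := k2b_res_split lam E' good hE'm hgm (fun x hx => by rw [hgood] at hx; exact hx.1) (ENNReal.ofReal κ)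
    have h1 : (lam.prod volume) (E' \ good)
        ≤ (lam.prod volume) {x | x ∈ E ∧ k2bCellV D (x.2, b x.1 + x.2 • u x.1) ∉ Vis} := by
      refine measure_mono ?_
      rintro x ⟨hx1, hx2⟩
      refine ⟨by rw [hE'] at hx1; exact hx1.1, fun hc => hx2 ?_⟩
      rw [hgood]
      refine ⟨hx1, ?_⟩
      rw [hVis1]
      exact Finset.mem_image.2 ⟨_, hc, rfl⟩
    have h2 : ∫⁻ l in {l | ENNReal.ofReal κ ≤ volume {t | (l, t) ∈ good}}, volume {t | (l, t) ∈ good} ∂lam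
        ≤ ENNReal.ofReal (2 * C₁ * θ / κ * (D : ℝ) ^ (ε - (((1 : ℕ) : ℝ) + 1)) * Vis.card) := by
      have hcard : (Vis1.card : ℝ) ≤ Vis.card := by
        rw [hVis1]
        exact_mod_cast Finset.card_image_le
      have e : C₁ * (2 * θ) / κ * (D : ℝ) ^ (ε - 2) * Vis1.card ≤ 2 * C₁ * θ / κ * (D : ℝ) ^ (ε - (((1 : ℕ) : ℝ) + 1)) * Vis.card := by
        have : (((1 : ℕ) : ℝ) + 1) = 2 := by norm_num
        rw [this]
        have hpos : 0 ≤ C₁ * (2 * θ) / κ * (D : ℝ) ^ (ε - 2) := by positivity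
        calc C₁ * (2 * θ) / κ * (D : ℝ) ^ (ε - 2) * Vis1.card ≤ C₁ * (2 * θ) / κ * (D : ℝ) ^ (ε - 2) * Vis.card :=
              mul_le_mul_of_nonneg_left hcard hpos
          _ = 2 * C₁ * θ / κ * (D : ℝ) ^ (ε - 2) * Vis.card := by ring
      refine le_trans ?_ (ENNReal.ofReal_le_ofReal e)
      rw [hgood]
      exact hgr
    exact hsp.trans (add_le_add (add_le_add h1 le_rfl) h2)

/-- **LEAF L-252-S2b-C2 (`j = 2`) and L-252-S2b-C1 (`j = 1`): greedy planks and the residual of one group.**   (Prove the two cases as separate lemmas `k2b_cover_two`, `k2b_cover_one`, then `rcases hj`, `subst`.)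
`j = 2`.  `η, C₂` from `k2b_group2 H 1 ε`; answer `(η, 4 C₂)`.   `m := lam.withDensity (fun l => volume {t | (l,t) ∈ E})` (finite: `≤ lam`; measurable by `measurable_measure_prodMk_left`).   Plank type `Pl = {(c, w, e, α, β) | ‖c‖ ≤ 1, ‖w‖ ≤ 1, e 0² + e 1² = 1, 1/D ≤ α ≤ β ≤ 4}`,
`S p = {l | K2bIn (b l) (u l) c w e α β}` (measurable: closed conditions, or end points), `τ p = ofReal (θ α β)`, `τ0 = ofReal (θ / D²)`.   `k2b_greedy` gives `n, p, A`.
`Dn i = !![α e 0, -β e 1; α e 1, β e 0]` (columns `α e`, `β e^⊥`), `Dni i = !![e 0 / α, e 1 / α; -e 1 / β, e 0 / β]`, `det = α β`;  `(Dni i).mulVec x = (⟨x,e⟩/α, ⟨x,e^⊥⟩/β)`.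
RESIDUAL.  `Res = (⋃ A i)ᶜ`, `E' = E ∩ Res ×ˢ univ`.   Stopping rule for ARBITRARY centres and `1/D ≤ α ≤ β ≤ 2`, with `4 θ`: if no `l` has its trace in the plank `(c, w, e, α, β)` the integral is `0`; otherwise take such an `l₀`: the plank is contained in the plank
`(b l₀, u l₀, e, 2α, 2β) ∈ Pl` (difference of two points of a plank), whose residual mass is `< θ (2α)(2β)`.   `k2b_res_split` with `good = {x ∈ E' | cell ∈ Vis}`, `κ`, then `k2b_group2` for `E'` (`k2bCellV D (t, y) = k2bCellAt D t y` by `rfl`).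
`j = 1`.  Same with `K2bIn1`, `Pl = {(c, w, α) | |c| ≤ 1, |w| ≤ 1, 1/D ≤ α ≤ 8}`, `Dn = !![α]`, `k2b_group1 H 1 ε` (stopping rule for `α ≤ 4` with `2 θ`);  identify `Fin 1 → ℝ` with `ℝ` by `fun y => y 0` and `Vis` with its image under `(k, z) ↦ (k, z 0)`. -/
theorem k2b_cover (H : K2bPlankFin) (j : ℕ) (hj : j = 1 ∨ j = 2) (ε : ℝ) (hε : 0 < ε) : ∃ η C : ℝ, 0 < η ∧ 0 < C ∧
    ∀ (D : ℕ) (Ω : Type) [MeasurableSpace Ω] (lam : Measure Ω) [IsFiniteMeasure lam] (b u : Ω → Fin j → ℝ) (E : Set (Ω × ℝ)) (θ κ : ℝ),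
      1 ≤ D → Measurable b → Measurable u → MeasurableSet E → 0 < θ → (D : ℝ) ^ (-η) ≤ κ → (∀ l, ‖b l‖ ≤ 1 ∧ ‖u l‖ ≤ 1) →
      (∀ x ∈ E, 0 ≤ x.2 ∧ x.2 < 1) →
      ∃ (n : ℕ) (c w : Fin n → Fin j → ℝ) (Dn Dni : Fin n → Matrix (Fin j) (Fin j) ℝ) (A : Fin n → Set Ω),
        (∀ i, MeasurableSet (A i)) ∧ (∀ i i', i ≠ i' → Disjoint (A i) (A i')) ∧
        (∀ i, ‖c i‖ ≤ 1 ∧ ‖w i‖ ≤ 1) ∧ (∀ i, Dn i * Dni i = 1) ∧ (∀ i a a', |Dn i a a'| ≤ 8) ∧ (∀ i, 1 / (D : ℝ) ^ j ≤ |(Dn i).det|) ∧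
        (∀ i, ∀ l ∈ A i, ∀ τ ∈ Set.Icc (0 : ℝ) 1, ‖(Dni i).mulVec (b l + τ • u l - c i - τ • w i)‖ ≤ 1) ∧
        (∀ i, ENNReal.ofReal (θ * |(Dn i).det|) ≤ ∫⁻ l in A i, volume {t | (l, t) ∈ E} ∂lam) ∧
        ((n : ℝ≥0∞) * ENNReal.ofReal (θ / (D : ℝ) ^ j) ≤ (lam.prod volume) E) ∧
        ∀ Vis : Finset (ℕ × (Fin j → ℤ)),
          (lam.prod volume) (E ∩ (⋃ i, A i)ᶜ ×ˢ Set.univ)
            ≤ (lam.prod volume) {x | x ∈ E ∧ k2bCellV D (x.2, b x.1 + x.2 • u x.1) ∉ Vis} + ENNReal.ofReal κ * lam Set.univ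
              + ENNReal.ofReal (C * θ / κ * (D : ℝ) ^ (ε - ((j : ℝ) + 1)) * Vis.card) := by
  rcases hj with rfl | rfl
  · exact k2b_cover_one H ε hε
  · exact k2b_cover_two H ε hε

/-- **LEAF L-252-S2b-L1: light cells.**   `βs ≤ β0` = selected / prior base measures of a group, `w` = any number (the volume of a cell), `n'` = typical floor of the selected density, `φ` = threshold of a light cell.
PROOF.  `ρs ≤ ρ0` `vol`-a.e. (`Measure.rnDeriv_le_rnDeriv`-type: `ae_le_of_forall_setLIntegral_le_of_sigmaFinite`, or copy `k2a_rnDeriv_mono` of `R252/S2a/DenContract.lean`), hence `βs`-a.e. (`βs ≪ vol`).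
A point of the left set which is in neither of the first two sets on the right and satisfies `ρs ≤ ρ0` lies in a cell `c` with `βs c < φ w` and `n' w ≤ ρ0 w ≤ 2 β0 c`.   Let `G` be the set of these cells (countable): `βs (⋃_G c) = ∑ βs c ≤ ∑ φ w ≤ ∑ 2 φ β0 c / n' ≤ 2 φ β0 univ / n'`. -/
theorem k2b_light {O κ : Type} [MeasurableSpace O] [Countable κ] (vol βs β0 : Measure O) [SigmaFinite vol] [IsFiniteMeasure β0] (hle : βs ≤ β0) (hac : β0 ≪ vol)
    (cell : O → κ) (hcell : ∀ c, MeasurableSet (cell ⁻¹' {c})) (w n' φ : ℝ≥0∞) (hn0 : n' ≠ 0) (hnT : n' ≠ ⊤) :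
    βs {o | βs (cell ⁻¹' {cell o}) < φ * w}
      ≤ βs {o | βs.rnDeriv vol o < n'} + β0 {o | 2 * β0 (cell ⁻¹' {cell o}) < β0.rnDeriv vol o * w} + 2 * φ * β0 Set.univ / n' := by
  classical
  have hmono : βs.rnDeriv vol ≤ᵐ[vol] β0.rnDeriv vol := by
    refine ae_le_of_forall_setLIntegral_le_of_sigmaFinite (Measure.measurable_rnDeriv _ _) fun s _ _ => ?_
    calc ∫⁻ x in s, βs.rnDeriv vol x ∂vol ≤ βs s := Measure.setLIntegral_rnDeriv_le s
      _ ≤ β0 s := hle s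
      _ = ∫⁻ x in s, β0.rnDeriv vol x ∂vol := (Measure.setLIntegral_rnDeriv hac s).symm
  have hacs : βs ≪ vol := (Measure.absolutelyContinuous_of_le hle).trans hac
  have hN : βs {o | ¬ (βs.rnDeriv vol o ≤ β0.rnDeriv vol o)} = 0 := hacs (ae_iff.mp hmono)
  obtain ⟨G, hG⟩ : ∃ G : Set κ, G = {c | βs (cell ⁻¹' {c}) < φ * w ∧ n' * w ≤ 2 * β0 (cell ⁻¹' {c})} := ⟨_, rfl⟩
  have hsub : {o | βs (cell ⁻¹' {cell o}) < φ * w} ⊆
      (({o | βs.rnDeriv vol o < n'} ∪ {o | 2 * β0 (cell ⁻¹' {cell o}) < β0.rnDeriv vol o * w}) ∪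
        {o | ¬ (βs.rnDeriv vol o ≤ β0.rnDeriv vol o)}) ∪ ⋃ c ∈ G, cell ⁻¹' {c} := by
    intro o ho
    by_cases h1 : βs.rnDeriv vol o < n'
    · exact Or.inl (Or.inl (Or.inl h1))
    by_cases h2 : 2 * β0 (cell ⁻¹' {cell o}) < β0.rnDeriv vol o * w
    · exact Or.inl (Or.inl (Or.inr h2))
    by_cases h3 : βs.rnDeriv vol o ≤ β0.rnDeriv vol o
    · refine Or.inr (Set.mem_iUnion₂.mpr ⟨cell o, ?_, rfl⟩)
      rw [hG]
      refine ⟨ho, ?_⟩
      push Not at h1 h2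
      exact le_trans (mul_le_mul_left (le_trans h1 h3) w) h2
    · exact Or.inl (Or.inr h3)
  have hGm : βs (⋃ c ∈ G, cell ⁻¹' {c}) ≤ 2 * φ * β0 Set.univ / n' := by
    calc βs (⋃ c ∈ G, cell ⁻¹' {c}) ≤ ∑' c : κ, βs (⋃ (_ : c ∈ G), cell ⁻¹' {c}) := measure_iUnion_le _
      _ ≤ ∑' c : κ, (2 * φ / n') * β0 (cell ⁻¹' {c}) := by
        refine ENNReal.tsum_le_tsum fun c => ?_
        by_cases hc : c ∈ G
        · have e : (⋃ (_ : c ∈ G), cell ⁻¹' {c}) = cell ⁻¹' {c} := by simp [hc]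
          rw [e]
          rw [hG] at hc
          have h1 : w ≤ 2 * β0 (cell ⁻¹' {c}) / n' := by
            rw [ENNReal.le_div_iff_mul_le (Or.inl hn0) (Or.inl hnT), mul_comm]
            exact hc.2
          calc βs (cell ⁻¹' {c}) ≤ φ * w := hc.1.le
            _ ≤ φ * (2 * β0 (cell ⁻¹' {c}) / n') := mul_le_mul_right h1 φ
            _ = (2 * φ / n') * β0 (cell ⁻¹' {c}) := by
              simp only [div_eq_mul_inv]
              ring
        · have e : (⋃ (_ : c ∈ G), cell ⁻¹' {c}) = ∅ := by simp [hc]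
          rw [e, measure_empty]
          exact bot_le
      _ = (2 * φ / n') * ∑' c : κ, β0 (cell ⁻¹' {c}) := ENNReal.tsum_mul_left
      _ = (2 * φ / n') * β0 (⋃ c : κ, cell ⁻¹' {c}) := by
        rw [measure_iUnion (fun c c' hcc => ?_) hcell]
        exact Set.disjoint_left.mpr fun o h1 h2 => hcc (by rw [← Set.mem_singleton_iff.mp h1, ← Set.mem_singleton_iff.mp h2])
      _ ≤ (2 * φ / n') * β0 Set.univ := mul_le_mul_right (measure_mono (Set.subset_univ _)) _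
      _ = 2 * φ * β0 Set.univ / n' := by
        simp only [div_eq_mul_inv]
        ring
  calc βs {o | βs (cell ⁻¹' {cell o}) < φ * w}
      ≤ βs ((({o | βs.rnDeriv vol o < n'} ∪ {o | 2 * β0 (cell ⁻¹' {cell o}) < β0.rnDeriv vol o * w}) ∪
        {o | ¬ (βs.rnDeriv vol o ≤ β0.rnDeriv vol o)}) ∪ ⋃ c ∈ G, cell ⁻¹' {c}) := measure_mono hsub
    _ ≤ βs (({o | βs.rnDeriv vol o < n'} ∪ {o | 2 * β0 (cell ⁻¹' {cell o}) < β0.rnDeriv vol o * w}) ∪
        {o | ¬ (βs.rnDeriv vol o ≤ β0.rnDeriv vol o)}) + βs (⋃ c ∈ G, cell ⁻¹' {c}) := measure_union_le _ _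
    _ ≤ (βs ({o | βs.rnDeriv vol o < n'} ∪ {o | 2 * β0 (cell ⁻¹' {cell o}) < β0.rnDeriv vol o * w}) +
        βs {o | ¬ (βs.rnDeriv vol o ≤ β0.rnDeriv vol o)}) + βs (⋃ c ∈ G, cell ⁻¹' {c}) := by
      gcongr
      exact measure_union_le _ _
    _ ≤ ((βs {o | βs.rnDeriv vol o < n'} + βs {o | 2 * β0 (cell ⁻¹' {cell o}) < β0.rnDeriv vol o * w}) + 0) +
        2 * φ * β0 Set.univ / n' := by
      rw [hN]
      gcongr
      exact measure_union_le _ _
    _ ≤ βs {o | βs.rnDeriv vol o < n'} + β0 {o | 2 * β0 (cell ⁻¹' {cell o}) < β0.rnDeriv vol o * w} + 2 * φ * β0 Set.univ / n' := by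
      rw [add_zero]
      gcongr

/-- the normalising map of a block `[t0, t0 + q)` and a box with corner `z0` and scale `s` -/
noncomputable def k2bNrm {j : ℕ} (t0 q s : ℝ) (z0 : Fin j → ℝ) (o : ℝ × (Fin j → ℝ)) : ℝ × (Fin j → ℝ) := ((o.1 - t0) / q, fun a => (o.2 a - z0 a) / s)

theorem k2bNrm_eqns_cite : True := by
  have := @k2bNrm.eq_1
  trivial

/-! ### scaling tools (helper92) -/

theorem k2b_sc_vol_pre (t0 q : ℝ) (hq : 0 < q) (B : Set ℝ) :
    volume ((fun τ : ℝ => t0 + q * τ) ⁻¹' B) = ENNReal.ofReal q⁻¹ * volume B := by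
  have e : (fun τ : ℝ => t0 + q * τ) ⁻¹' B = (fun τ => q * τ) ⁻¹' ((fun x => t0 + x) ⁻¹' B) := rfl
  rw [e, Real.volume_preimage_mul_left hq.ne', measure_preimage_add, abs_of_pos (inv_pos.2 hq)]

theorem k2b_sc_phi_meas {Ω : Type} [MeasurableSpace Ω] (t0 q : ℝ) : Measurable (fun x : Ω × ℝ => (x.1, t0 + q * x.2)) :=
  measurable_fst.prodMk (measurable_const.add (measurable_const.mul measurable_snd))

theorem k2b_sc_prod_pre {Ω : Type} [MeasurableSpace Ω] (lam : Measure Ω) [SFinite lam] (t0 q : ℝ) (hq : 0 < q) (S : Set (Ω × ℝ))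
    (hS : MeasurableSet S) :
    (lam.prod volume) ((fun x : Ω × ℝ => (x.1, t0 + q * x.2)) ⁻¹' S) = ENNReal.ofReal q⁻¹ * (lam.prod volume) S := by
  rw [Measure.prod_apply ((k2b_sc_phi_meas t0 q) hS), Measure.prod_apply hS, ← lintegral_const_mul _ (measurable_measure_prodMk_left hS)]
  refine lintegral_congr fun l => ?_
  exact k2b_sc_vol_pre t0 q hq (Prod.mk l ⁻¹' S)

theorem k2b_sc_restrict {Ω : Type} [MeasurableSpace Ω] (lam : Measure Ω) [SFinite lam] (Ωg : Set Ω) (S : Set (Ω × ℝ))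
    (hS : MeasurableSet S) (hsub : ∀ x ∈ S, x.1 ∈ Ωg) : ((lam.restrict Ωg).prod volume) S = (lam.prod volume) S := by
  have e : (lam.restrict Ωg).prod (volume : Measure ℝ) = (lam.prod volume).restrict (Ωg ×ˢ Set.univ) := by
    rw [← Measure.prod_restrict, Measure.restrict_univ]
  rw [e, Measure.restrict_apply hS]
  congr 1
  ext x
  constructor
  · exact fun h => h.1
  · exact fun h => ⟨h, hsub x h, Set.mem_univ _⟩

theorem k2b_sc_slab {Ω : Type} [MeasurableSpace Ω] (μ : Measure Ω) [SFinite μ] (E : Set (Ω × ℝ)) (hE : MeasurableSet E) (A : Set Ω)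
    (hA : MeasurableSet A) : ∫⁻ l in A, volume {t | (l, t) ∈ E} ∂μ = (μ.prod volume) (E ∩ A ×ˢ Set.univ) := by
  rw [Measure.prod_apply (hE.inter (hA.prod MeasurableSet.univ)), ← lintegral_indicator hA]
  refine lintegral_congr fun l => ?_
  by_cases hl : l ∈ A
  · rw [Set.indicator_of_mem hl]
    congr 1
    ext t
    simp [hl]
  · rw [Set.indicator_of_notMem hl]
    symm
    have : Prod.mk l ⁻¹' (E ∩ A ×ˢ Set.univ) = ∅ := by
      ext t
      simp [hl]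
    rw [this, measure_empty]

theorem k2b_sc_nrm_meas {j : ℕ} (t0 q s : ℝ) (z0 : Fin j → ℝ) : Measurable (k2bNrm t0 q s z0) := by
  unfold k2bNrm
  refine Measurable.prodMk ((measurable_fst.sub_const t0).div_const q) (measurable_pi_lambda _ fun a => ?_)
  have h : Measurable fun o : ℝ × (Fin j → ℝ) => o.2 a := (measurable_pi_apply a).comp measurable_snd
  exact (h.sub_const (z0 a)).div_const s

theorem k2b_sc_cell_meas {j : ℕ} (D : ℕ) : Measurable (k2bCellV (j := j) D) := by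
  unfold k2bCellV
  refine Measurable.prodMk ?_ (measurable_pi_lambda _ fun a => ?_)
  · exact (measurable_fst.mul_const (D : ℝ)).nat_floor
  · have h : Measurable fun o : ℝ × (Fin j → ℝ) => o.2 a := (measurable_pi_apply a).comp measurable_snd
    exact (h.mul_const (D : ℝ)).floor

/-- **LEAF L-252-S2b-SC1: `k2b_cover` in the original coordinates.**   `Ωg` = the trajectories of the group, traces `t ↦ y0 l + t • V l`.   Apply `k2b_cover` to `lam.restrict Ωg` (total mass `lam Ωg`; `E ⊆ Ωg ×ˢ univ`, so the product masses of subsets of `E` do not change), `b l = (y0 l + t0 • V l - z0) / s`, `u l = (q / s) • V l` on `Ωg` (and `0` outside `Ωg`), `E~ = {(l, τ) | (l, t0 + q τ) ∈ E}`, `θ~ = θ s^j`.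
`volume {τ | (l, t0 + q τ) ∈ E} = q⁻¹ volume {t | (l,t) ∈ E}` (`Measure.addHaar_preimage_smul` / `Real.volume_preimage_mul_left` + translation), `(lam.prod volume) E~ = q⁻¹ (lam.prod volume) E`.
Output: `A i ∩ Ωg`;  `D i = s • Dn i`, `Di i = s⁻¹ • Dni i`, `|det| = s^j |det Dn|`;  centre line `yc t = z0 + s • (c i + ((t - t0)/q) • w i)`, i.e. `c1 i = (s/q) • w i`, `c0 i = z0 + s • c i - t0 • c1 i`. -/
theorem k2b_cover_sc (H : K2bPlankFin) (j : ℕ) (hj : j = 1 ∨ j = 2) (ε : ℝ) (hε : 0 < ε) : ∃ η C : ℝ, 0 < η ∧ 0 < C ∧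
    ∀ (D : ℕ) (Ω : Type) [MeasurableSpace Ω] (lam : Measure Ω) [IsFiniteMeasure lam] (y0 V : Ω → Fin j → ℝ) (Ωg : Set Ω) (E : Set (Ω × ℝ))
      (t0 q s : ℝ) (z0 : Fin j → ℝ) (θ κ : ℝ),
      1 ≤ D → Measurable y0 → Measurable V → MeasurableSet Ωg → MeasurableSet E → 0 < q → 0 < s → 0 < θ → (D : ℝ) ^ (-η) ≤ κ →
      (∀ l ∈ Ωg, ‖y0 l + t0 • V l - z0‖ ≤ s ∧ q * ‖V l‖ ≤ s) → (∀ x ∈ E, x.1 ∈ Ωg ∧ t0 ≤ x.2 ∧ x.2 < t0 + q) →
      ∃ (n : ℕ) (c0 c1 : Fin n → Fin j → ℝ) (Dm Di : Fin n → Matrix (Fin j) (Fin j) ℝ) (A : Fin n → Set Ω),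
        (∀ i, MeasurableSet (A i)) ∧ (∀ i, A i ⊆ Ωg) ∧ (∀ i i', i ≠ i' → Disjoint (A i) (A i')) ∧
        (∀ i, ‖c0 i + t0 • c1 i - z0‖ ≤ s ∧ q * ‖c1 i‖ ≤ s) ∧ (∀ i, Dm i * Di i = 1) ∧ (∀ i a a', |Dm i a a'| ≤ 8 * s) ∧
        (∀ i, (s / (D : ℝ)) ^ j ≤ |(Dm i).det|) ∧
        (∀ i, ∀ l ∈ A i, ∀ t ∈ Set.Icc t0 (t0 + q), ‖(Di i).mulVec (y0 l + t • V l - (c0 i + t • c1 i))‖ ≤ 1) ∧
        (∀ i, ENNReal.ofReal (θ * |(Dm i).det| * q) ≤ (lam.prod volume) (E ∩ A i ×ˢ Set.univ)) ∧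
        ((n : ℝ≥0∞) * ENNReal.ofReal (θ * (s / (D : ℝ)) ^ j * q) ≤ (lam.prod volume) E) ∧
        ∀ Vis : Finset (ℕ × (Fin j → ℤ)),
          (lam.prod volume) (E ∩ (⋃ i, A i)ᶜ ×ˢ Set.univ)
            ≤ (lam.prod volume) {x | x ∈ E ∧ k2bCellV D (k2bNrm t0 q s z0 (x.2, y0 x.1 + x.2 • V x.1)) ∉ Vis} + ENNReal.ofReal (κ * q) * lam Ωg
              + ENNReal.ofReal (C * θ / κ * (D : ℝ) ^ ε * (q * s ^ j / (D : ℝ) ^ (j + 1)) * Vis.card) := by
  classical
  obtain ⟨η, C, hη, hC, H1⟩ := k2b_cover H j hj ε hε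
  refine ⟨η, C, hη, hC, ?_⟩
  intro D Ω _ lam _ y0 V Ωg E t0 q s z0 θ κ hD hy0 hV hΩ hE hq hs hθ hκ hbox hEsub
  have hD0 : (0 : ℝ) < (D : ℝ) := by exact_mod_cast (lt_of_lt_of_le Nat.zero_lt_one hD)
  have hκ0 : 0 < κ := lt_of_lt_of_le (Real.rpow_pos_of_pos hD0 _) hκ
  -- the normalised data
  obtain ⟨b, hbdef⟩ : ∃ b : Ω → Fin j → ℝ, b = Ωg.indicator (fun l => s⁻¹ • (y0 l + t0 • V l - z0)) := ⟨_, rfl⟩
  obtain ⟨u, hudef⟩ : ∃ u : Ω → Fin j → ℝ, u = Ωg.indicator (fun l => (q / s) • V l) := ⟨_, rfl⟩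
  have hbm : Measurable b := by
    rw [hbdef]
    exact (((hy0.add (hV.const_smul t0)).sub_const z0).const_smul s⁻¹).indicator hΩ
  have hum : Measurable u := by
    rw [hudef]
    exact (hV.const_smul (q / s)).indicator hΩ
  have hbin : ∀ l ∈ Ωg, b l = s⁻¹ • (y0 l + t0 • V l - z0) := fun l hl => by rw [hbdef, Set.indicator_of_mem hl]
  have huin : ∀ l ∈ Ωg, u l = (q / s) • V l := fun l hl => by rw [hudef, Set.indicator_of_mem hl]
  have hbu : ∀ l, ‖b l‖ ≤ 1 ∧ ‖u l‖ ≤ 1 := by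
    intro l
    by_cases hl : l ∈ Ωg
    · obtain ⟨h1, h2⟩ := hbox l hl
      rw [hbin l hl, huin l hl, norm_smul, norm_smul, Real.norm_eq_abs, Real.norm_eq_abs, abs_of_pos (inv_pos.2 hs),
        abs_of_pos (div_pos hq hs)]
      constructor
      · rw [inv_mul_le_iff₀ hs]
        linarith
      · rw [div_mul_eq_mul_div, div_le_one hs]
        exact h2
    · rw [hbdef, hudef, Set.indicator_of_notMem hl, Set.indicator_of_notMem hl]
      simp
  have hφ := k2b_sc_phi_meas (Ω := Ω) t0 q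
  have hEt : MeasurableSet ((fun x : Ω × ℝ => (x.1, t0 + q * x.2)) ⁻¹' E) := hφ hE
  have hEt01 : ∀ x ∈ (fun x : Ω × ℝ => (x.1, t0 + q * x.2)) ⁻¹' E, 0 ≤ x.2 ∧ x.2 < 1 := by
    intro x hx
    obtain ⟨-, h1, h2⟩ := hEsub _ hx
    have h1' : t0 ≤ t0 + q * x.2 := h1
    have h2' : t0 + q * x.2 < t0 + q := h2
    constructor
    · by_contra hneg
      push Not at hneg
      nlinarith
    · by_contra hge
      push Not at hge
      nlinarith
  obtain ⟨n, c, w, Dn, Dni, A, hA, hdisj, hcw, hinv, hent, hdet, hin, hmass, hcount, hres⟩ :=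
    H1 D Ω (lam.restrict Ωg) b u ((fun x : Ω × ℝ => (x.1, t0 + q * x.2)) ⁻¹' E) (θ * s ^ j) κ hD hbm hum hEt (by positivity) hκ hbu hEt01
  -- transfer of masses
  have hrr : ENNReal.ofReal q * ENNReal.ofReal q⁻¹ = 1 := by
    rw [← ENNReal.ofReal_mul hq.le, mul_inv_cancel₀ hq.ne', ENNReal.ofReal_one]
  have tr : ∀ S : Set (Ω × ℝ), MeasurableSet S → S ⊆ E →
      ENNReal.ofReal q * ((lam.restrict Ωg).prod volume) ((fun x : Ω × ℝ => (x.1, t0 + q * x.2)) ⁻¹' S) = (lam.prod volume) S := by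
    intro S hS hSE
    rw [k2b_sc_restrict lam Ωg _ (hφ hS) (fun x hx => (hEsub _ (hSE hx)).1), k2b_sc_prod_pre lam t0 q hq S hS, ← mul_assoc, hrr, one_mul]
  have hdetS : ∀ i, |(s • Dn i).det| = s ^ j * |(Dn i).det| := by
    intro i
    rw [Matrix.det_smul, Fintype.card_fin, abs_mul, abs_of_pos (pow_pos hs j)]
  refine ⟨n, fun i => z0 + s • c i - t0 • ((s / q) • w i), fun i => (s / q) • w i, fun i => s • Dn i, fun i => s⁻¹ • Dni i,
    fun i => A i ∩ Ωg, fun i => (hA i).inter hΩ, fun i => Set.inter_subset_right, ?_, ?_, ?_, ?_, ?_, ?_, ?_, ?_, ?_⟩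
  · intro i i' hii
    exact (hdisj i i' hii).mono Set.inter_subset_left Set.inter_subset_left
  · intro i
    obtain ⟨h1, h2⟩ := hcw i
    constructor
    · have e : z0 + s • c i - t0 • ((s / q) • w i) + t0 • ((s / q) • w i) - z0 = s • c i := by abel
      rw [e, norm_smul, Real.norm_eq_abs, abs_of_pos hs]
      nlinarith
    · rw [norm_smul, Real.norm_eq_abs, abs_of_pos (div_pos hs hq)]
      have e : q * (s / q * ‖w i‖) = s * ‖w i‖ := by
        field_simp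
      rw [e]
      nlinarith
  · intro i
    rw [Matrix.smul_mul, Matrix.mul_smul, smul_smul, mul_inv_cancel₀ hs.ne', one_smul]
    exact hinv i
  · intro i a a'
    show |(s • Dn i) a a'| ≤ 8 * s
    rw [Matrix.smul_apply, smul_eq_mul, abs_mul, abs_of_pos hs]
    have := hent i a a'
    nlinarith
  · intro i
    show (s / (D : ℝ)) ^ j ≤ |(s • Dn i).det|
    rw [hdetS i, div_pow, div_eq_mul_one_div]
    exact mul_le_mul_of_nonneg_left (hdet i) (pow_pos hs j).le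
  · intro i l hl t ht
    obtain ⟨hlA, hlΩ⟩ := hl
    have hτ : (t - t0) / q ∈ Set.Icc (0 : ℝ) 1 := by
      constructor
      · exact div_nonneg (by linarith [ht.1]) hq.le
      · rw [div_le_one hq]
        linarith [ht.2]
    have key := hin i l hlA _ hτ
    have e : y0 l + t • V l - (z0 + s • c i - t0 • ((s / q) • w i) + t • ((s / q) • w i)) =
        s • (b l + ((t - t0) / q) • u l - c i - ((t - t0) / q) • w i) := by
      rw [hbin l hlΩ, huin l hlΩ]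
      ext a
      simp only [Pi.add_apply, Pi.sub_apply, Pi.smul_apply, smul_eq_mul]
      field_simp
      ring
    show ‖(s⁻¹ • Dni i).mulVec (y0 l + t • V l - (z0 + s • c i - t0 • ((s / q) • w i) + t • ((s / q) • w i)))‖ ≤ 1
    rw [e, Matrix.mulVec_smul, Matrix.smul_mulVec, smul_smul, mul_inv_cancel₀ hs.ne', one_smul]
    exact key
  · intro i
    have h1 := hmass i
    rw [k2b_sc_slab (lam.restrict Ωg) _ hEt (A i) (hA i)] at h1
    have e : (fun x : Ω × ℝ => (x.1, t0 + q * x.2)) ⁻¹' E ∩ A i ×ˢ Set.univ =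
        (fun x : Ω × ℝ => (x.1, t0 + q * x.2)) ⁻¹' (E ∩ (A i ∩ Ωg) ×ˢ Set.univ) := by
      ext x
      constructor
      · rintro ⟨h1, h2, -⟩
        exact ⟨h1, ⟨h2, (hEsub _ h1).1⟩, Set.mem_univ _⟩
      · rintro ⟨h1, ⟨h2, -⟩, -⟩
        exact ⟨h1, h2, Set.mem_univ _⟩
    rw [e] at h1
    have h2 := mul_le_mul_right h1 (ENNReal.ofReal q)
    rw [tr _ (hE.inter (((hA i).inter hΩ).prod MeasurableSet.univ)) Set.inter_subset_left, ← ENNReal.ofReal_mul hq.le] at h2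
    refine le_trans (le_of_eq ?_) h2
    show ENNReal.ofReal (θ * |(s • Dn i).det| * q) = _
    rw [hdetS i]
    congr 1
    ring
  · have h2 := mul_le_mul_right hcount (ENNReal.ofReal q)
    rw [tr E hE subset_rfl] at h2
    refine le_trans (le_of_eq ?_) h2
    rw [mul_left_comm, ← ENNReal.ofReal_mul hq.le]
    congr 2
    rw [div_pow]
    ring
  · intro Vis
    have h1 := hres Vis
    have hmeasG : Measurable fun x : Ω × ℝ => k2bCellV D (k2bNrm t0 q s z0 (x.2, y0 x.1 + x.2 • V x.1)) := by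
      refine (k2b_sc_cell_meas D).comp ((k2b_sc_nrm_meas t0 q s z0).comp ?_)
      exact measurable_snd.prodMk ((hy0.comp measurable_fst).add (measurable_snd.smul (hV.comp measurable_fst)))
    have hS2 : MeasurableSet {x : Ω × ℝ | x ∈ E ∧ k2bCellV D (k2bNrm t0 q s z0 (x.2, y0 x.1 + x.2 • V x.1)) ∉ Vis} :=
      hE.inter (hmeasG (Finset.measurableSet Vis).compl)
    have e1 : (fun x : Ω × ℝ => (x.1, t0 + q * x.2)) ⁻¹' E ∩ (⋃ i, A i)ᶜ ×ˢ Set.univ =
        (fun x : Ω × ℝ => (x.1, t0 + q * x.2)) ⁻¹' (E ∩ (⋃ i, A i ∩ Ωg)ᶜ ×ˢ Set.univ) := by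
      ext x
      constructor
      · rintro ⟨h1, h2, -⟩
        refine ⟨h1, ?_, Set.mem_univ _⟩
        intro hx
        obtain ⟨i, hi⟩ := Set.mem_iUnion.1 hx
        exact h2 (Set.mem_iUnion.2 ⟨i, hi.1⟩)
      · rintro ⟨h1, h2, -⟩
        refine ⟨h1, ?_, Set.mem_univ _⟩
        intro hx
        obtain ⟨i, hi⟩ := Set.mem_iUnion.1 hx
        exact h2 (Set.mem_iUnion.2 ⟨i, hi, (hEsub _ h1).1⟩)
    have e2 : {x : Ω × ℝ | x ∈ (fun x : Ω × ℝ => (x.1, t0 + q * x.2)) ⁻¹' E ∧ k2bCellV D (x.2, b x.1 + x.2 • u x.1) ∉ Vis} =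
        (fun x : Ω × ℝ => (x.1, t0 + q * x.2)) ⁻¹' {x : Ω × ℝ | x ∈ E ∧ k2bCellV D (k2bNrm t0 q s z0 (x.2, y0 x.1 + x.2 • V x.1)) ∉ Vis} := by
      ext x
      have key : x ∈ (fun x : Ω × ℝ => (x.1, t0 + q * x.2)) ⁻¹' E →
          (x.2, b x.1 + x.2 • u x.1) = k2bNrm t0 q s z0 (t0 + q * x.2, y0 x.1 + (t0 + q * x.2) • V x.1) := by
        intro hx
        have hxΩ : x.1 ∈ Ωg := (hEsub _ hx).1
        rw [hbin _ hxΩ, huin _ hxΩ]
        unfold k2bNrm
        refine Prod.ext ?_ ?_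
        · show x.2 = (t0 + q * x.2 - t0) / q
          field_simp
          ring
        · funext a
          show (s⁻¹ • (y0 x.1 + t0 • V x.1 - z0) + x.2 • (q / s) • V x.1) a = ((y0 x.1 + (t0 + q * x.2) • V x.1) a - z0 a) / s
          simp only [Pi.add_apply, Pi.sub_apply, Pi.smul_apply, smul_eq_mul]
          field_simp
          ring
      constructor
      · rintro ⟨h1, h2⟩
        refine ⟨h1, ?_⟩
        rw [key h1] at h2
        exact h2
      · rintro ⟨h1, h2⟩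
        refine ⟨h1, ?_⟩
        rw [key h1]
        exact h2
    rw [e1, e2, Measure.restrict_apply_univ] at h1
    have h2 := mul_le_mul_right h1 (ENNReal.ofReal q)
    have hS1 : MeasurableSet (E ∩ (⋃ i, A i ∩ Ωg)ᶜ ×ˢ Set.univ) :=
      hE.inter ((MeasurableSet.iUnion fun i => (hA i).inter hΩ).compl.prod MeasurableSet.univ)
    rw [mul_add, mul_add, tr _ hS1 Set.inter_subset_left, tr _ hS2 (fun x hx => hx.1), ← mul_assoc, ← ENNReal.ofReal_mul hq.le,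
      ← ENNReal.ofReal_mul hq.le] at h2
    refine h2.trans (le_of_eq ?_)
    have e3 : q * κ = κ * q := mul_comm _ _
    have e4 : q * (C * (θ * s ^ j) / κ * (D : ℝ) ^ (ε - ((j : ℝ) + 1)) * (Vis.card : ℝ)) =
        C * θ / κ * (D : ℝ) ^ ε * (q * s ^ j / (D : ℝ) ^ (j + 1)) * (Vis.card : ℝ) := by
      rw [Real.rpow_sub hD0]
      have : (D : ℝ) ^ ((j : ℝ) + 1) = (D : ℝ) ^ (j + 1) := by
        rw [← Real.rpow_natCast]
        push_cast
        rfl
      rw [this]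
      field_simp
    rw [e3, e4]

/-! ### affine changes of variables (helper92) -/

theorem k2b_sc_map_aff1 (t0 q : ℝ) (hq : 0 < q) :
    (volume : Measure ℝ).map (fun t => (t - t0) / q) = ENNReal.ofReal q • volume := by
  have e : (fun t : ℝ => (t - t0) / q) = (fun x => q⁻¹ * x) ∘ (fun t => t - t0) := by
    funext t
    simp [div_eq_inv_mul]
  rw [e, ← Measure.map_map (measurable_const_mul _) (measurable_sub_const _), map_sub_right_eq_self,
    Real.map_volume_mul_left (inv_ne_zero hq.ne'), inv_inv, abs_of_pos hq]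

theorem k2b_sc_map_smul {j : ℕ} (r : ℝ) (hr : 0 < r) :
    (volume : Measure (Fin j → ℝ)).map (fun x => r • x) = ENNReal.ofReal ((r ^ j)⁻¹) • volume := by
  rw [Measure.map_addHaar_smul _ hr.ne', Module.finrank_fin_fun, abs_of_pos (inv_pos.2 (pow_pos hr j))]

theorem k2b_sc_map_affj {j : ℕ} (s : ℝ) (hs : 0 < s) (z0 : Fin j → ℝ) :
    (volume : Measure (Fin j → ℝ)).map (fun y => fun a => (y a - z0 a) / s) = ENNReal.ofReal (s ^ j) • volume := by
  have e : (fun y : Fin j → ℝ => fun a => (y a - z0 a) / s) = (fun x => s⁻¹ • x) ∘ (fun y => y - z0) := by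
    funext y a
    simp [div_eq_inv_mul]
  rw [e, ← Measure.map_map (measurable_const_smul _) (measurable_sub_const _), map_sub_right_eq_self,
    k2b_sc_map_smul _ (inv_pos.2 hs), inv_pow, inv_inv]

theorem k2b_sc_map_nrm {j : ℕ} (t0 q s : ℝ) (hq : 0 < q) (hs : 0 < s) (z0 : Fin j → ℝ) :
    (volume : Measure (ℝ × (Fin j → ℝ))).map (k2bNrm t0 q s z0) = ENNReal.ofReal (q * s ^ j) • volume := by
  have e : k2bNrm t0 q s z0 = Prod.map (fun t => (t - t0) / q) (fun y : Fin j → ℝ => fun a => (y a - z0 a) / s) := by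
    funext o
    rfl
  have h1 : Measurable fun t : ℝ => (t - t0) / q := (measurable_id.sub_const t0).div_const q
  have h2 : Measurable fun y : Fin j → ℝ => fun a => (y a - z0 a) / s := by
    refine measurable_pi_lambda _ fun a => ?_
    have h : Measurable fun y : Fin j → ℝ => y a := measurable_pi_apply a
    exact (h.sub_const (z0 a)).div_const s
  rw [e, Measure.volume_eq_prod, ← Measure.map_prod_map _ _ h1 h2, k2b_sc_map_aff1 t0 q hq, k2b_sc_map_affj s hs z0,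
    Measure.prod_smul_left, Measure.prod_smul_right, smul_smul, ← ENNReal.ofReal_mul hq.le]

theorem k2b_sc_nrm_emb {j : ℕ} (t0 q s : ℝ) (hq : q ≠ 0) (hs : s ≠ 0) (z0 : Fin j → ℝ) :
    MeasurableEmbedding (k2bNrm t0 q s z0) := by
  let e : (ℝ × (Fin j → ℝ)) ≃ᵐ (ℝ × (Fin j → ℝ)) :=
    { toFun := k2bNrm t0 q s z0
      invFun := fun o => (t0 + q * o.1, fun a => z0 a + s * o.2 a)
      left_inv := by
        intro o
        unfold k2bNrm
        refine Prod.ext ?_ ?_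
        · show t0 + q * ((o.1 - t0) / q) = o.1
          field_simp
          ring
        · funext a
          show z0 a + s * ((o.2 a - z0 a) / s) = o.2 a
          field_simp
          ring
      right_inv := by
        intro o
        unfold k2bNrm
        refine Prod.ext ?_ ?_
        · show (t0 + q * o.1 - t0) / q = o.1
          field_simp
          ring
        · funext a
          show (z0 a + s * o.2 a - z0 a) / s = o.2 a
          field_simp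
          ring
      measurable_toFun := k2b_sc_nrm_meas t0 q s z0
      measurable_invFun := by
        refine Measurable.prodMk (measurable_const.add (measurable_const.mul measurable_fst)) (measurable_pi_lambda _ fun a => ?_)
        have h : Measurable fun o : ℝ × (Fin j → ℝ) => o.2 a := (measurable_pi_apply a).comp measurable_snd
        exact measurable_const.add (measurable_const.mul h) }
  exact e.measurableEmbedding

theorem k2b_sc_shear {j : ℕ} (t0 : ℝ) (z0 : Fin j → ℝ) :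
    MeasurePreserving (fun p : (Fin j → ℝ) × (Fin j → ℝ) => (p.1 + t0 • p.2 - z0, p.2)) volume volume := by
  have h1 : MeasurePreserving (fun p : (Fin j → ℝ) × (Fin j → ℝ) => (p.1, p.2 + t0 • p.1 - z0))
      ((volume : Measure (Fin j → ℝ)).prod (volume : Measure (Fin j → ℝ))) ((volume : Measure (Fin j → ℝ)).prod volume) := by
    refine (MeasurePreserving.id (volume : Measure (Fin j → ℝ))).skew_product (g := fun v y => y + t0 • v - z0) (by fun_prop)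
      (ae_of_all _ fun v => ?_)
    have e : (fun y : Fin j → ℝ => y + t0 • v - z0) = fun y => y + (t0 • v - z0) := by
      funext y
      rw [add_sub_assoc]
    rw [e]
    exact map_add_right_eq_self _ _
  exact (Measure.measurePreserving_swap.comp h1).comp Measure.measurePreserving_swap

theorem k2b_sc_map_Phi {j : ℕ} (t0 q s : ℝ) (hq : 0 < q) (hs : 0 < s) (z0 : Fin j → ℝ) :
    (volume : Measure ((Fin j → ℝ) × (Fin j → ℝ))).map (fun p => (s⁻¹ • (p.1 + t0 • p.2 - z0), (q / s) • p.2)) =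
      ENNReal.ofReal (s ^ (2 * j) / q ^ j) • volume := by
  have e : (fun p : (Fin j → ℝ) × (Fin j → ℝ) => (s⁻¹ • (p.1 + t0 • p.2 - z0), (q / s) • p.2)) =
      Prod.map (fun x : Fin j → ℝ => s⁻¹ • x) (fun x : Fin j → ℝ => (q / s) • x) ∘ (fun p => (p.1 + t0 • p.2 - z0, p.2)) := by
    funext p
    rfl
  have h1 : Measurable fun x : Fin j → ℝ => s⁻¹ • x := measurable_const_smul _
  have h2 : Measurable fun x : Fin j → ℝ => (q / s) • x := measurable_const_smul _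
  rw [e, ← Measure.map_map (h1.prodMap h2) (k2b_sc_shear t0 z0).measurable, (k2b_sc_shear t0 z0).map_eq, Measure.volume_eq_prod,
    ← Measure.map_prod_map _ _ h1 h2, k2b_sc_map_smul _ (inv_pos.2 hs), k2b_sc_map_smul _ (div_pos hq hs),
    Measure.prod_smul_left, Measure.prod_smul_right, smul_smul, ← ENNReal.ofReal_mul (by positivity)]
  congr 2
  rw [inv_pow, inv_inv, div_pow, inv_div, pow_mul, sq, mul_pow]
  ring

theorem k2b_sc_restrict_Ico (t0 q : ℝ) (hq : 0 < q) :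
    (volume : Measure ℝ).restrict (Set.Ico t0 (t0 + q)) =
      ENNReal.ofReal q • ((volume : Measure ℝ).restrict (Set.Ico 0 1)).map (fun τ => t0 + q * τ) := by
  have hσ : Measurable fun τ : ℝ => t0 + q * τ := measurable_const.add (measurable_const.mul measurable_id)
  ext B hB
  rw [Measure.restrict_apply hB, Measure.smul_apply, Measure.map_apply hσ hB, Measure.restrict_apply (hσ hB), smul_eq_mul]
  have e : (fun τ : ℝ => t0 + q * τ) ⁻¹' B ∩ Set.Ico 0 1 = (fun τ : ℝ => t0 + q * τ) ⁻¹' (B ∩ Set.Ico t0 (t0 + q)) := by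
    ext τ
    simp only [Set.mem_inter_iff, Set.mem_preimage, Set.mem_Ico]
    constructor
    · rintro ⟨h1, h2, h3⟩
      exact ⟨h1, by nlinarith, by nlinarith⟩
    · rintro ⟨h1, h2, h3⟩
      refine ⟨h1, ?_, ?_⟩
      · by_contra hneg
        push Not at hneg
        nlinarith
      · by_contra hge
        push Not at hge
        nlinarith
  rw [e, k2b_sc_vol_pre t0 q hq, ← mul_assoc, ← ENNReal.ofReal_mul hq.le, mul_inv_cancel₀ hq.ne', ENNReal.ofReal_one, one_mul]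

theorem k2b_sc_beta {j : ℕ} {Ω : Type} [MeasurableSpace Ω] (lam : Measure Ω) [IsFiniteMeasure lam] (y0 V : Ω → Fin j → ℝ)
    (hy0 : Measurable y0) (hV : Measurable V) (t0 q s : ℝ) (hq : 0 < q) (hs : 0 < s) (z0 : Fin j → ℝ) :
    ((lam.prod (volume.restrict (Set.Ico t0 (t0 + q)))).map (fun x => (x.2, y0 x.1 + x.2 • V x.1))).map (k2bNrm t0 q s z0) =
      ENNReal.ofReal q • (((lam.map (fun l => (s⁻¹ • (y0 l + t0 • V l - z0), (q / s) • V l))).prod
        (volume.restrict (Set.Ico (0 : ℝ) 1))).map (fun x => (x.2, x.1.1 + x.2 • x.1.2))) := by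
  have hσ : Measurable fun τ : ℝ => t0 + q * τ := measurable_const.add (measurable_const.mul measurable_id)
  have hg : Measurable fun x : Ω × ℝ => (x.2, y0 x.1 + x.2 • V x.1) :=
    measurable_snd.prodMk ((hy0.comp measurable_fst).add (measurable_snd.smul (hV.comp measurable_fst)))
  have hbu : Measurable fun l : Ω => (s⁻¹ • (y0 l + t0 • V l - z0), (q / s) • V l) :=
    (((hy0.add (hV.const_smul t0)).sub_const z0).const_smul s⁻¹).prodMk (hV.const_smul (q / s))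
  have hgt : Measurable fun x : ((Fin j → ℝ) × (Fin j → ℝ)) × ℝ => (x.2, x.1.1 + x.2 • x.1.2) := by fun_prop
  have e1 : lam.prod (((volume : Measure ℝ).restrict (Set.Ico 0 1)).map (fun τ => t0 + q * τ)) =
      (lam.prod ((volume : Measure ℝ).restrict (Set.Ico 0 1))).map (Prod.map id (fun τ => t0 + q * τ)) := by
    conv_lhs => rw [← Measure.map_id (μ := lam)]
    exact Measure.map_prod_map _ _ measurable_id hσ
  have e2 : (lam.map (fun l => (s⁻¹ • (y0 l + t0 • V l - z0), (q / s) • V l))).prod ((volume : Measure ℝ).restrict (Set.Ico 0 1)) =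
      (lam.prod ((volume : Measure ℝ).restrict (Set.Ico 0 1))).map (Prod.map (fun l => (s⁻¹ • (y0 l + t0 • V l - z0), (q / s) • V l)) id) := by
    conv_lhs => rw [← Measure.map_id (μ := (volume : Measure ℝ).restrict (Set.Ico 0 1))]
    exact Measure.map_prod_map _ _ hbu measurable_id
  rw [Measure.map_map (k2b_sc_nrm_meas t0 q s z0) hg, k2b_sc_restrict_Ico t0 q hq, Measure.prod_smul_right, Measure.map_smul, e1, e2,
    Measure.map_map ((k2b_sc_nrm_meas t0 q s z0).comp hg) (measurable_id.prodMap hσ), Measure.map_map hgt (hbu.prodMap measurable_id)]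
  congr 2
  funext x
  unfold k2bNrm
  refine Prod.ext ?_ ?_
  · show (t0 + q * x.2 - t0) / q = x.2
    field_simp
    ring
  · funext a
    show ((y0 x.1 + (t0 + q * x.2) • V x.1) a - z0 a) / s = (s⁻¹ • (y0 x.1 + t0 • V x.1 - z0) + x.2 • (q / s) • V x.1) a
    simp only [Pi.add_apply, Pi.sub_apply, Pi.smul_apply, smul_eq_mul]
    field_simp
    ring

/-- **LEAF L-252-S2b-SC2: `k2b_xr` in the original coordinates.**   `lam` = prior restricted to the group (`lam Ωgᶜ = 0`), `hdens`: the law of `(y0, V)` has density `≤ Q`.   `m~ = lam.map (fun l => ((y0 l + t0 • V l - z0)/s, (q/s) • V l))` is the image of `lam.map (y0, V)` under a linear-affine bijection of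
`ℝ^j × ℝ^j` with determinant `s^{-j} (q/s)^j`:  `m~ ≤ Q s^{2j} q^{-j} volume` (`Measure.map_map`, shear + `Measure.addHaar_image/preimage_linearMap` or coordinatewise `Real.volume_pi…`; Tonelli is enough: translation in the first variable for fixed `V`, scalings).
`Ψ = k2bNrm t0 q s z0` is a measurable bijection with `volume.map Ψ = (q s^j) • volume`;  `β~ := (m~.prod (volume.restrict (Ico 0 1))).map … = q⁻¹ • β.map Ψ`;  `β~.rnDeriv volume (Ψ o) = s^j β.rnDeriv volume o` for a.e. `o`;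
so the exceptional set of `β~` for the grid `1/D` is the `Ψ`-image of the exceptional set below, and `β (exc) = q β~ (Ψ exc)`. -/
theorem k2b_xr_sc {n : ℕ} (D : ℕ) (hD : 1 ≤ D) (Q : ℝ) (hQ : 0 ≤ Q) {Ω : Type} [MeasurableSpace Ω] (lam : Measure Ω) [IsFiniteMeasure lam]
    (y0 V : Ω → Fin (n + 1) → ℝ) (hy0 : Measurable y0) (hV : Measurable V) (Ωg : Set Ω) (hΩ : MeasurableSet Ωg) (hlam : lam Ωgᶜ = 0)
    (hdens : lam.map (fun l => (y0 l, V l)) ≤ ENNReal.ofReal Q • volume) (t0 q s : ℝ) (hq : 0 < q) (hs : 0 < s) (z0 : Fin (n + 1) → ℝ)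
    (hbox : ∀ l ∈ Ωg, ‖y0 l + t0 • V l - z0‖ ≤ s ∧ q * ‖V l‖ ≤ s)
    (β : Measure (ℝ × (Fin (n + 1) → ℝ))) (hβ : β = (lam.prod (volume.restrict (Set.Ico t0 (t0 + q)))).map (fun x => (x.2, y0 x.1 + x.2 • V x.1))) :
    β {o | 2 * β ((fun o => k2bCellV D (k2bNrm t0 q s z0 o)) ⁻¹' {k2bCellV D (k2bNrm t0 q s z0 o)})
          < β.rnDeriv volume o * ENNReal.ofReal (q * s ^ (n + 1) / (D : ℝ) ^ (n + 2))}
      ≤ ENNReal.ofReal (q * (2 ^ (n + 3) * (n + 2) * (n + 1) * (32 * 8 ^ n) * (Q * s ^ (2 * (n + 1)) / q ^ (n + 1)) * (1 / (D : ℝ)) ^ (1 / 4 : ℝ))) := by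
  have hD0 : (0 : ℝ) < (D : ℝ) := by exact_mod_cast (lt_of_lt_of_le Nat.zero_lt_one hD)
  have hΨ := k2b_sc_nrm_emb t0 q s hq.ne' hs.ne' z0
  have hbum : Measurable fun l : Ω => (s⁻¹ • (y0 l + t0 • V l - z0), (q / s) • V l) :=
    (((hy0.add (hV.const_smul t0)).sub_const z0).const_smul s⁻¹).prodMk (hV.const_smul (q / s))
  have hΦ : Measurable fun p : (Fin (n + 1) → ℝ) × (Fin (n + 1) → ℝ) => (s⁻¹ • (p.1 + t0 • p.2 - z0), (q / s) • p.2) := by fun_prop
  have hQt : 0 ≤ Q * s ^ (2 * (n + 1)) / q ^ (n + 1) := by positivity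
  obtain ⟨mt, hmtdef⟩ : ∃ mt : Measure ((Fin (n + 1) → ℝ) × (Fin (n + 1) → ℝ)),
      mt = lam.map (fun l => (s⁻¹ • (y0 l + t0 • V l - z0), (q / s) • V l)) := ⟨_, rfl⟩
  have hmt : mt ≤ ENNReal.ofReal (Q * s ^ (2 * (n + 1)) / q ^ (n + 1)) • volume := by
    have e : (fun l : Ω => (s⁻¹ • (y0 l + t0 • V l - z0), (q / s) • V l)) =
        (fun p : (Fin (n + 1) → ℝ) × (Fin (n + 1) → ℝ) => (s⁻¹ • (p.1 + t0 • p.2 - z0), (q / s) • p.2)) ∘ (fun l => (y0 l, V l)) := rfl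
    rw [hmtdef, e, ← Measure.map_map hΦ (hy0.prodMk hV)]
    refine (Measure.map_mono hdens hΦ).trans (le_of_eq ?_)
    rw [Measure.map_smul, k2b_sc_map_Phi t0 q s hq hs z0, smul_smul, ← ENNReal.ofReal_mul hQ]
    congr 2
    ring
  have hms : mt {p | 1 < ‖p‖} = 0 := by
    rw [hmtdef, Measure.map_apply hbum (measurableSet_lt measurable_const measurable_norm)]
    refine measure_mono_null ?_ hlam
    intro l hl hlΩ
    obtain ⟨h1, h2⟩ := hbox l hlΩ
    have hl' : 1 < ‖(s⁻¹ • (y0 l + t0 • V l - z0), (q / s) • V l)‖ := hl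
    rw [Prod.norm_def, norm_smul, norm_smul, Real.norm_eq_abs, Real.norm_eq_abs, abs_of_pos (inv_pos.2 hs),
      abs_of_pos (div_pos hq hs)] at hl'
    have a1 : s⁻¹ * ‖y0 l + t0 • V l - z0‖ ≤ 1 := by
      rw [inv_mul_le_iff₀ hs]
      linarith
    have a2 : q / s * ‖V l‖ ≤ 1 := by
      rw [div_mul_eq_mul_div, div_le_one hs]
      exact h2
    exact absurd hl' (not_lt.2 (max_le a1 a2))
  obtain ⟨βt, hβt⟩ : ∃ βt : Measure (ℝ × (Fin (n + 1) → ℝ)),
      βt = (mt.prod (volume.restrict (Set.Ico (0 : ℝ) 1))).map (fun x => (x.2, x.1.1 + x.2 • x.1.2)) := ⟨_, rfl⟩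
  have hxr := k2b_xr D hD _ hQt mt hmt hms βt hβt
  have hrel : β.map (k2bNrm t0 q s z0) = ENNReal.ofReal q • βt := by
    rw [hβ, hβt, hmtdef]
    exact k2b_sc_beta lam y0 V hy0 hV t0 q s hq hs z0
  have hact : βt ≪ volume := by
    obtain ⟨f, -, -, -, -, -, hrep⟩ := k2b_xr_repr _ hQt mt hmt hms
    rw [hβt, hrep]
    exact withDensity_absolutelyContinuous _ _
  have hfinβ : IsFiniteMeasure β := by
    rw [hβ]
    infer_instance
  have hfinβt : IsFiniteMeasure βt := by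
    rw [hβt, hmtdef]
    infer_instance
  obtain ⟨c, hcdef⟩ : ∃ c : ℝ≥0∞, c = ENNReal.ofReal (q * s ^ (n + 1)) := ⟨_, rfl⟩
  have hc0 : c ≠ 0 := by
    rw [hcdef]
    exact (ENNReal.ofReal_pos.2 (by positivity)).ne'
  have hcT : c ≠ ⊤ := by
    rw [hcdef]
    exact ENNReal.ofReal_ne_top
  have hr0 : ENNReal.ofReal q ≠ 0 := (ENNReal.ofReal_pos.2 hq).ne'
  have hvol : (volume : Measure (ℝ × (Fin (n + 1) → ℝ))).map (k2bNrm t0 q s z0) = c • volume := by
    rw [hcdef]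
    exact k2b_sc_map_nrm t0 q s hq hs z0
  have hac : β ≪ volume := by
    intro N hN
    have h1 : β N = (β.map (k2bNrm t0 q s z0)) (k2bNrm t0 q s z0 '' N) := by
      rw [hΨ.map_apply, hΨ.injective.preimage_image]
    have h2 : volume (k2bNrm t0 q s z0 '' N) = 0 := by
      have h3 : ((volume : Measure (ℝ × (Fin (n + 1) → ℝ))).map (k2bNrm t0 q s z0)) (k2bNrm t0 q s z0 '' N) = 0 := by
        rw [hΨ.map_apply, hΨ.injective.preimage_image]
        exact hN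
      rw [hvol, Measure.smul_apply, smul_eq_mul, mul_eq_zero] at h3
      exact h3.resolve_left hc0
    rw [h1, hrel, Measure.smul_apply, hact h2, smul_zero]
  have hrn : ∀ᵐ o ∂(volume : Measure (ℝ × (Fin (n + 1) → ℝ))),
      β.rnDeriv volume o = c⁻¹ * (ENNReal.ofReal q * βt.rnDeriv volume (k2bNrm t0 q s z0 o)) := by
    have h1 := hΨ.rnDeriv_map β (volume : Measure (ℝ × (Fin (n + 1) → ℝ)))
    have hfin2 : IsFiniteMeasure (ENNReal.ofReal q • βt) := Measure.smul_finite _ ENNReal.ofReal_ne_top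
    have h2 : (ENNReal.ofReal q • βt).rnDeriv (c • (volume : Measure (ℝ × (Fin (n + 1) → ℝ)))) =ᵐ[volume]
        c⁻¹ • (ENNReal.ofReal q • βt).rnDeriv volume := Measure.rnDeriv_smul_right_of_ne_top _ _ hc0 hcT
    have h3 : (ENNReal.ofReal q • βt).rnDeriv (volume : Measure (ℝ × (Fin (n + 1) → ℝ))) =ᵐ[volume]
        ENNReal.ofReal q • βt.rnDeriv volume := Measure.rnDeriv_smul_left_of_ne_top _ _ ENNReal.ofReal_ne_top
    have h4 : ∀ᵐ o' ∂(volume : Measure (ℝ × (Fin (n + 1) → ℝ))),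
        (ENNReal.ofReal q • βt).rnDeriv (c • (volume : Measure (ℝ × (Fin (n + 1) → ℝ)))) o' =
          c⁻¹ * (ENNReal.ofReal q * βt.rnDeriv volume o') := by
      filter_upwards [h2, h3] with o' a1 a2
      rw [a1, Pi.smul_apply, a2, Pi.smul_apply, smul_eq_mul, smul_eq_mul]
    have h5 : ∀ᵐ o ∂(volume : Measure (ℝ × (Fin (n + 1) → ℝ))),
        (ENNReal.ofReal q • βt).rnDeriv (c • (volume : Measure (ℝ × (Fin (n + 1) → ℝ)))) (k2bNrm t0 q s z0 o) =
          c⁻¹ * (ENNReal.ofReal q * βt.rnDeriv volume (k2bNrm t0 q s z0 o)) := by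
      have h6 : ∀ᵐ o' ∂((volume : Measure (ℝ × (Fin (n + 1) → ℝ))).map (k2bNrm t0 q s z0)),
          (ENNReal.ofReal q • βt).rnDeriv (c • (volume : Measure (ℝ × (Fin (n + 1) → ℝ)))) o' =
            c⁻¹ * (ENNReal.ofReal q * βt.rnDeriv volume o') := by
        rw [hvol]
        exact Measure.ae_smul_measure h4 c
      exact hΨ.ae_map_iff.1 h6
    rw [hrel, hvol] at h1
    filter_upwards [h1, h5] with o a1 a2
    rw [← a1, a2]
  have hrnβ : ∀ᵐ o ∂β, β.rnDeriv volume o = c⁻¹ * (ENNReal.ofReal q * βt.rnDeriv volume (k2bNrm t0 q s z0 o)) := hac.ae_le hrn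
  have hsub : {o | 2 * β ((fun o => k2bCellV D (k2bNrm t0 q s z0 o)) ⁻¹' {k2bCellV D (k2bNrm t0 q s z0 o)})
          < β.rnDeriv volume o * ENNReal.ofReal (q * s ^ (n + 1) / (D : ℝ) ^ (n + 2))} ≤ᵐ[β]
      k2bNrm t0 q s z0 ⁻¹' {o | 2 * βt (k2bCellV D ⁻¹' {k2bCellV D o}) < βt.rnDeriv volume o * ENNReal.ofReal (1 / (D : ℝ) ^ (n + 2))} := by
    filter_upwards [hrnβ] with o ho hexc
    have hexc' : 2 * β ((fun o => k2bCellV D (k2bNrm t0 q s z0 o)) ⁻¹' {k2bCellV D (k2bNrm t0 q s z0 o)})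
          < β.rnDeriv volume o * ENNReal.ofReal (q * s ^ (n + 1) / (D : ℝ) ^ (n + 2)) := hexc
    have e1 : β ((fun o => k2bCellV D (k2bNrm t0 q s z0 o)) ⁻¹' {k2bCellV D (k2bNrm t0 q s z0 o)}) =
        ENNReal.ofReal q * βt (k2bCellV D ⁻¹' {k2bCellV D (k2bNrm t0 q s z0 o)}) := by
      have e0 : (fun o => k2bCellV D (k2bNrm t0 q s z0 o)) ⁻¹' {k2bCellV D (k2bNrm t0 q s z0 o)} =
          k2bNrm t0 q s z0 ⁻¹' (k2bCellV D ⁻¹' {k2bCellV D (k2bNrm t0 q s z0 o)}) := rfl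
      rw [e0, ← hΨ.map_apply, hrel, Measure.smul_apply, smul_eq_mul]
    have e2 : ENNReal.ofReal (q * s ^ (n + 1) / (D : ℝ) ^ (n + 2)) = c * ENNReal.ofReal (1 / (D : ℝ) ^ (n + 2)) := by
      rw [hcdef, ← ENNReal.ofReal_mul (by positivity)]
      congr 1
      ring
    rw [e1, ho, e2] at hexc'
    have e3 : c⁻¹ * (ENNReal.ofReal q * βt.rnDeriv volume (k2bNrm t0 q s z0 o)) * (c * ENNReal.ofReal (1 / (D : ℝ) ^ (n + 2))) =
        (c⁻¹ * c) * (ENNReal.ofReal q * (βt.rnDeriv volume (k2bNrm t0 q s z0 o) * ENNReal.ofReal (1 / (D : ℝ) ^ (n + 2)))) := by ring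
    have e4 : 2 * (ENNReal.ofReal q * βt (k2bCellV D ⁻¹' {k2bCellV D (k2bNrm t0 q s z0 o)})) =
        ENNReal.ofReal q * (2 * βt (k2bCellV D ⁻¹' {k2bCellV D (k2bNrm t0 q s z0 o)})) := by ring
    rw [e3, e4, ENNReal.inv_mul_cancel hc0 hcT, one_mul, ENNReal.mul_lt_mul_iff_right hr0 ENNReal.ofReal_ne_top] at hexc'
    exact hexc'
  calc β {o | 2 * β ((fun o => k2bCellV D (k2bNrm t0 q s z0 o)) ⁻¹' {k2bCellV D (k2bNrm t0 q s z0 o)})
          < β.rnDeriv volume o * ENNReal.ofReal (q * s ^ (n + 1) / (D : ℝ) ^ (n + 2))}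
      ≤ β (k2bNrm t0 q s z0 ⁻¹' {o | 2 * βt (k2bCellV D ⁻¹' {k2bCellV D o}) < βt.rnDeriv volume o * ENNReal.ofReal (1 / (D : ℝ) ^ (n + 2))}) :=
        measure_mono_ae hsub
    _ = ENNReal.ofReal q * βt {o | 2 * βt (k2bCellV D ⁻¹' {k2bCellV D o}) < βt.rnDeriv volume o * ENNReal.ofReal (1 / (D : ℝ) ^ (n + 2))} := by
        rw [← hΨ.map_apply, hrel, Measure.smul_apply, smul_eq_mul]
    _ ≤ ENNReal.ofReal q * ENNReal.ofReal (2 ^ (n + 3) * (n + 2) * (n + 1) * (32 * 8 ^ n) * (Q * s ^ (2 * (n + 1)) / q ^ (n + 1)) *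
          (1 / (D : ℝ)) ^ (1 / 4 : ℝ)) := mul_le_mul_right hxr _
    _ = _ := (ENNReal.ofReal_mul hq.le).symm

end Claimed.Agent.R252
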