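import Claimed.Agent.R252.S2b.InitDen
import Claimed.Agent.R252.Base.Norm

/-!
# Row 252 (S0492), unit S2b-CROP, file 1: the crop system at ONE scale      (architect helper171, prefix `k2r_`)

02-framework.tex l.1394-1404.   `P = (D.pb k).sel S` a selection of the initial problem, `w > 0` the side of the boxes (`w = kbDy a_{u₀}`).
`k2rSys D k S w : KbSys P` : level `n = 0` (`q = 1`, one interval `[0,1)`), one chart for every box `c = (e₀, e₁)` of the `w`-grid of `(y₀, V) ∈ ℝ² × ℝ²` in the range `k2rIdx w`;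
`A c` = the lines of the support with `⌊y₀ / w⌋ = e₀`, `⌊V / w⌋ = e₁`;   `S c = Ev ∩ A c × [0,1)`;   centre `y_c(t) = (e₀ + t e₁) w` (the CORNER of the box), `D = w • 1`, native test `w`.
PROVED HERE: `k2r_wf`, `k2r_geo` (slack `7`, thickness `1`), `k2r_big` (`P.tot ≤ mass`), `k2r_tmp` (`Q ≥ (15 / w)^4`).
-/

set_option autoImplicit false

namespace Claimed.Agent.R252

open MeasureTheory
open scoped ENNReal BigOperators

noncomputable section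

/-- labels of the boxes -/
abbrev K2rBx := (Fin 2 → ℤ) × (Fin 2 → ℤ)

/-- range of the box indices -/
def k2rM (w : ℝ) : ℤ := ⌈5 / w⌉ + 1

/-- the boxes which can meet the support -/
def k2rIdx (w : ℝ) : Finset K2rBx :=
  (Fintype.piFinset fun _ : Fin 2 => Finset.Icc (-k2rM w) (k2rM w)) ×ˢ (Fintype.piFinset fun _ : Fin 2 => Finset.Icc (-k2rM w) (k2rM w))

/-- the lines of the support in the box `c` -/
def k2rA (D : K2iDat) (k : ℕ) (w : ℝ) (c : K2rBx) : Set K2iLn :=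
  D.Sp k ∩ {l | k2bY l.1 ∈ k2iBin w c.1 ∧ k2bY l.2 ∈ k2iBin w c.2}

/-- the chart of the box `c` -/
def k2rCh (w : ℝ) (c : K2rBx) : KbChart KbVer.two where
  y0 := fun i => (c.1 i : ℝ) * w
  y1 := fun i => (c.2 i : ℝ) * w
  D := w • (1 : Matrix (Fin 2) (Fin 2) ℝ)
  Di := w⁻¹ • (1 : Matrix (Fin 2) (Fin 2) ℝ)
  T := kbsT KbVer.two

/-- **the crop system** -/
def k2rSys (D : K2iDat) (k : ℕ) (S : (D.pb k).W → Set ((D.pb k).Lam × ℝ)) (w : ℝ) : KbSys ((D.pb k).sel S) where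
  n := 0
  C := ↥(k2rIdx w)
  fC := inferInstance
  wd := fun _ => ()
  iv := fun _ => 0
  A := fun c => k2rA D k w c.1
  S := fun c => ((D.pb k).sel S).Ev () ∩ (k2rA D k w c.1 ×ˢ Set.Ico (0 : ℝ) 1)
  ch := fun c => k2rCh w c.1

theorem k2r_eqns_cite : True := by
  have := @k2rM.eq_1
  have := @k2rIdx.eq_1
  have := @k2rA.eq_1
  have := @k2rCh.eq_1
  have := @k2rSys.eq_1
  trivial

variable {D : K2iDat} {σ C : ℝ} {k : ℕ}

theorem k2r_q (D : K2iDat) (k : ℕ) (S : (D.pb k).W → Set ((D.pb k).Lam × ℝ)) (w : ℝ) : (k2rSys D k S w).q = 1 := by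
  show kbQ 0 = 1
  simp [kbQ]

theorem k2r_tc (D : K2iDat) (k : ℕ) (S : (D.pb k).W → Set ((D.pb k).Lam × ℝ)) (w : ℝ) (c : (k2rSys D k S w).C) : (k2rSys D k S w).tc c = 0 := by
  show ((0 : ℕ) : ℝ) * kbQ 0 = 0
  simp

theorem k2r_I (D : K2iDat) (k : ℕ) (S : (D.pb k).W → Set ((D.pb k).Lam × ℝ)) (w : ℝ) (c : (k2rSys D k S w).C) :
    (k2rSys D k S w).I c = Set.Ico (0 : ℝ) 1 := by
  show Set.Ico (((0 : ℕ) : ℝ) * kbQ 0) ((((0 : ℕ) : ℝ) + 1) * kbQ 0) = _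
  simp [kbQ]

theorem k2r_Y_meas : Measurable k2bY := by
  unfold k2bY
  fun_prop

theorem k2r_A_meas (D : K2iDat) (k : ℕ) (w : ℝ) (hw : 0 < w) (c : K2rBx) : MeasurableSet (k2rA D k w c) :=
  (k2i_sp_meas D k).inter (((k2r_Y_meas.comp measurable_fst) (k2i_bin_meas w hw c.1)).inter
    ((k2r_Y_meas.comp measurable_snd) (k2i_bin_meas w hw c.2)))

theorem k2r_A_disj (D : K2iDat) (k : ℕ) (w : ℝ) {c c' : K2rBx} (h : c ≠ c') : Disjoint (k2rA D k w c) (k2rA D k w c') := by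
  rw [Set.disjoint_left]
  rintro l ⟨-, h1, h2⟩ ⟨-, h1', h2'⟩
  exact h (Prod.ext (funext fun i => (h1 i).symm.trans (h1' i)) (funext fun i => (h2 i).symm.trans (h2' i)))

theorem k2r_inv (w : ℝ) (hw : 0 < w) : (w • (1 : Matrix (Fin 2) (Fin 2) ℝ)) * (w⁻¹ • (1 : Matrix (Fin 2) (Fin 2) ℝ)) = 1 := by
  rw [Matrix.smul_mul, Matrix.mul_smul, smul_smul, mul_inv_cancel₀ hw.ne', one_smul, Matrix.one_mul]

theorem k2r_wf (S : (D.pb k).W → Set ((D.pb k).Lam × ℝ)) (hW : ((D.pb k).sel S).WF) (w : ℝ) (hw : 0 < w) : (k2rSys D k S w).WF where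
  iv_lt := fun _ => by
    show (0 : ℕ) < 2 ^ 0
    norm_num
  A_meas := fun c => k2r_A_meas D k w hw c.1
  A_sub := fun _ => Set.inter_subset_left
  A_disj := fun c c' h _ _ => k2r_A_disj D k w fun h' => h (Subtype.ext h')
  S_meas := fun c => (hW.Ev_meas ()).inter ((k2r_A_meas D k w hw c.1).prod measurableSet_Ico)
  S_sub := fun c x hx => ⟨hx.1, hx.2.1, by rw [k2r_I]; exact hx.2.2⟩
  inv := fun _ => k2r_inv w hw
  adm := fun _ => kbs_T_adm _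

theorem k2r_bin_bd {w x : ℝ} {e : ℤ} (hw : 0 < w) (h : ⌊x / w⌋ = e) : 0 ≤ x - e * w ∧ x - e * w < w := by
  rw [Int.floor_eq_iff, le_div_iff₀ hw, div_lt_iff₀ hw] at h
  constructor <;> nlinarith [h.1, h.2]

theorem k2r_Di_apply (w : ℝ) (c : K2rBx) (v : Fin 2 → ℝ) (i : Fin 2) : (k2rCh w c).Di.mulVec v i = w⁻¹ * v i := by
  show (w⁻¹ • (1 : Matrix (Fin 2) (Fin 2) ℝ)).mulVec v i = _
  rw [Matrix.smul_mulVec, Matrix.one_mulVec]
  rfl

theorem k2r_box_aux (w : ℝ) (hw : 0 < w) (c : K2rBx) (l : K2iLn) (h1 : k2bY l.1 ∈ k2iBin w c.1) (h2 : k2bY l.2 ∈ k2iBin w c.2)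
    (t : ℝ) (ht : t ∈ Set.Ico (0 : ℝ) 1) : ‖(k2rCh w c).Di.mulVec (kbY (k2iCo l) t - (k2rCh w c).yc t)‖ ≤ 2 := by
  rw [pi_norm_le_iff_of_nonneg (by norm_num)]
  intro i
  have e : (k2rCh w c).Di.mulVec (kbY (k2iCo l) t - (k2rCh w c).yc t) i
      = w⁻¹ * ((l.1 (Fin.castSucc (i : Fin 2)) + t * l.2 (Fin.castSucc (i : Fin 2))) - ((c.1 i : ℝ) * w + t * ((c.2 i : ℝ) * w))) :=
    k2r_Di_apply w c _ i
  obtain ⟨a1, a2⟩ := k2r_bin_bd hw (h1 i)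
  obtain ⟨b1, b2⟩ := k2r_bin_bd hw (h2 i)
  have a1' : 0 ≤ l.1 (Fin.castSucc (i : Fin 2)) - (c.1 i : ℝ) * w := a1
  have a2' : l.1 (Fin.castSucc (i : Fin 2)) - (c.1 i : ℝ) * w < w := a2
  have b1' : 0 ≤ l.2 (Fin.castSucc (i : Fin 2)) - (c.2 i : ℝ) * w := b1
  have b2' : l.2 (Fin.castSucc (i : Fin 2)) - (c.2 i : ℝ) * w < w := b2
  refine (le_of_eq (congrArg abs e)).trans ?_
  rw [inv_mul_eq_div, abs_le, le_div_iff₀ hw, div_le_iff₀ hw]
  constructor <;> nlinarith [ht.1, ht.2]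

theorem k2r_geo (h : D.Bad σ C k) (S : (D.pb k).W → Set ((D.pb k).Lam × ℝ)) (w : ℝ) (hw : 0 < w) (hw2 : w ≤ 2) (K : ℝ) (hK : 7 ≤ K) :
    (k2rSys D k S w).Geo K 1 where
  size := fun c => by
    rw [k2r_q, one_mul]
    show kbMn (w • (1 : Matrix (Fin 2) (Fin 2) ℝ)) ≤ K
    unfold kbMn
    simp only [Fin.sum_univ_two, Matrix.smul_apply, Matrix.one_apply, smul_eq_mul]
    simp [abs_of_pos hw]
    linarith
  box := fun c (l : K2iLn) hl t ht => by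
    rw [k2r_I] at ht
    exact (k2r_box_aux w hw c.1 l hl.2.1 hl.2.2 t ht).trans (by linarith)
  val := fun c (l : K2iLn) hl t ht => by
    rw [k2r_I] at ht
    show |kbW (k2iCo l) t| ≤ K * 1
    rw [k2i_co_W]
    linarith [k2i_pos_bd h hl.1 ⟨ht.1, ht.2.le⟩ 2]
  dw := fun c (l : K2iLn) hl t ht => by
    show |kbDw (kbsT KbVer.two) t (kbY (k2iCo l) t) (kbW (k2iCo l) t)| ≤ K * 1
    rw [kbs_T_dw, abs_one]
    linarith
  dw_low := fun c (x : K2iLn × ℝ) hx => by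
    show (1 : ℝ) ≤ K * |kbDw (kbsT KbVer.two) x.2 (kbY (k2iCo x.1) x.2) (kbW (k2iCo x.1) x.2)|
    rw [kbs_T_dw, abs_one]
    linarith
  dww := fun c t y w' => by
    show |kbDww (kbsT KbVer.two) t y w'| * 1 ≤ K * 1 ^ 2
    rw [kbs_T_dww, abs_zero]
    linarith

/-- the index of the box of a line of the support -/
theorem k2r_idx_mem (h : D.Bad σ C k) (w : ℝ) (hw : 0 < w) {l : K2iLn} (hl : l ∈ D.Sp k) :
    ((fun i => ⌊k2bY l.1 i / w⌋, fun i => ⌊k2bY l.2 i / w⌋) : K2rBx) ∈ k2rIdx w := by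
  have key : ∀ x : ℝ, -(1 / 4) ≤ x → x ≤ 17 / 4 → ⌊x / w⌋ ∈ Finset.Icc (-k2rM w) (k2rM w) := by
    intro x h1 h2
    have hc := Int.le_ceil (5 / w)
    unfold k2rM
    rw [Finset.mem_Icc]
    constructor
    · rw [Int.le_floor]
      push_cast
      have : -(5 / w) ≤ x / w := by
        rw [← neg_div]
        exact div_le_div_of_nonneg_right (by linarith) hw.le
      linarith
    · have h3 : x / w ≤ 5 / w := div_le_div_of_nonneg_right (by linarith) hw.le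
      have h4 : (⌊x / w⌋ : ℝ) ≤ (⌈5 / w⌉ : ℝ) := (Int.floor_le _).trans (h3.trans hc)
      have h5 : ⌊x / w⌋ ≤ ⌈5 / w⌉ := by exact_mod_cast h4
      linarith
  unfold k2rIdx
  rw [Finset.mem_product, Fintype.mem_piFinset, Fintype.mem_piFinset]
  refine ⟨fun i => ?_, fun i => ?_⟩
  · have := (k2i_sp_bd h hl (Fin.castSucc i)).1
    exact key (l.1 (Fin.castSucc i)) this.1 this.2
  · have := (k2i_sp_bd h hl (Fin.castSucc i)).2
    exact key (l.2 (Fin.castSucc i)) this.1 (by linarith [this.2])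

/-- the crop loses no mass -/
theorem k2r_tot_le (h : D.Bad σ C k) (S : (D.pb k).W → Set ((D.pb k).Lam × ℝ)) (hW : ((D.pb k).sel S).WF) (w : ℝ) (hw : 0 < w) :
    ((D.pb k).sel S).tot ≤ (k2rSys D k S w).mass := by
  have := k2i_prior_prob h
  obtain ⟨μ, hμ⟩ : ∃ μ : Measure (K2iLn × ℝ), μ = ((D.pb k).sel S).mu () := ⟨_, rfl⟩
  obtain ⟨Ev, hEv⟩ : ∃ Ev : Set (K2iLn × ℝ), Ev = ((D.pb k).sel S).Ev () := ⟨_, rfl⟩
  have hEvm : MeasurableSet Ev := by rw [hEv]; exact hW.Ev_meas ()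
  have hEvs : Ev ⊆ D.Sp k ×ˢ Set.Icc (0 : ℝ) 1 := by rw [hEv]; exact hW.Ev_sub ()
  have hμr : μ = ((k2bPrior D.b D.s (1 / 2 ^ (k + 2))).prod KbPb.tm).restrict Ev := by rw [hμ, hEv]; rfl
  have e1 : ((D.pb k).sel S).tot = μ Set.univ := by
    have h0 : ∀ (F : Unit → ℝ≥0∞), ∑ γ' : Unit, (1 : ℝ≥0∞) * F γ' = F () := by
      intro F
      simp
    rw [hμ]
    exact h0 fun γ' => ((D.pb k).sel S).mu γ' Set.univ
  have e2 : (k2rSys D k S w).mass = ∑ c : ↥(k2rIdx w), μ (Ev ∩ (k2rA D k w c.1 ×ˢ Set.Ico (0 : ℝ) 1)) := by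
    rw [hμ, hEv]
    unfold KbSys.mass
    refine Finset.sum_congr rfl fun c _ => ?_
    exact one_mul _
  have hnull : μ {x : K2iLn × ℝ | x.2 = 1} = 0 := by
    rw [hμr]
    refine le_antisymm ((Measure.restrict_le_self _).trans ?_) zero_le
    have hs : {x : K2iLn × ℝ | x.2 = 1} ⊆ Set.univ ×ˢ {(1 : ℝ)} := fun x hx => ⟨trivial, hx⟩
    refine (measure_mono hs).trans ((Measure.prod_prod_le _ _).trans ?_)
    have : KbPb.tm {(1 : ℝ)} = 0 := by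
      refine le_antisymm ((Measure.restrict_le_self _).trans ?_) zero_le
      simp
    rw [this, mul_zero]
  have hae : ∀ᵐ x ∂μ, x ∈ (Set.univ : Set (K2iLn × ℝ)) → x ∈ ⋃ c : ↥(k2rIdx w), Ev ∩ (k2rA D k w c.1 ×ˢ Set.Ico (0 : ℝ) 1) := by
    have h1 : ∀ᵐ x ∂μ, x ∈ Ev := by rw [hμr]; exact ae_restrict_mem hEvm
    have h2 : ∀ᵐ x ∂μ, x ∉ {x : K2iLn × ℝ | x.2 = 1} := measure_eq_zero_iff_ae_notMem.1 hnull
    filter_upwards [h1, h2] with x hx1 hx2 _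
    have hx3 := hEvs hx1
    refine Set.mem_iUnion.2 ⟨⟨_, k2r_idx_mem h w hw hx3.1⟩, hx1, ⟨hx3.1, fun i => rfl, fun i => rfl⟩, hx3.2.1, lt_of_le_of_ne hx3.2.2 hx2⟩
  rw [e1, e2]
  exact (measure_mono_ae hae).trans ((measure_iUnion_le _).trans (by rw [tsum_fintype]))

theorem k2r_big (h : D.Bad σ C k) (S : (D.pb k).W → Set ((D.pb k).Lam × ℝ)) (hW : ((D.pb k).sel S).WF) (w : ℝ) (hw : 0 < w) (K : ℝ)
    (hN : ((D.pb k).sel S).Ntv K) : (k2rSys D k S w).Big K :=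
  hN.mass.trans (mul_le_mul' le_rfl (k2r_tot_le h S hW w hw))

theorem k2r_M_bd (w : ℝ) (hw : 0 < w) : 0 ≤ k2rM w ∧ (k2rM w : ℝ) ≤ 5 / w + 2 := by
  unfold k2rM
  have h1 : 0 ≤ ⌈5 / w⌉ := Int.ceil_nonneg (by positivity)
  have h2 := Int.ceil_lt_add_one (5 / w)
  refine ⟨by linarith, ?_⟩
  push_cast
  linarith

theorem k2r_card (w : ℝ) (hw : 0 < w) (hw1 : w ≤ 1) : ((k2rIdx w).card : ℝ) ≤ (15 / w) ^ 4 := by
  obtain ⟨h0, h1⟩ := k2r_M_bd w hw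
  have e : (k2rIdx w).card = ((2 * k2rM w + 1).toNat) ^ 4 := by
    unfold k2rIdx
    rw [Finset.card_product, Fintype.card_piFinset, Fin.prod_univ_two, Int.card_Icc]
    have : k2rM w + 1 - -k2rM w = 2 * k2rM w + 1 := by ring
    rw [this]
    ring
  rw [e]
  push_cast
  have h2 : (((2 * k2rM w + 1).toNat : ℕ) : ℝ) = 2 * (k2rM w : ℝ) + 1 := by
    have : (((2 * k2rM w + 1).toNat : ℕ) : ℤ) = 2 * k2rM w + 1 := Int.toNat_of_nonneg (by linarith)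
    have h3 : ((((2 * k2rM w + 1).toNat : ℕ) : ℤ) : ℝ) = ((2 * k2rM w + 1 : ℤ) : ℝ) := by rw [this]
    push_cast at h3
    exact h3
  rw [h2]
  have h3 : (5 : ℝ) ≤ 5 / w := by
    rw [le_div_iff₀ hw]
    nlinarith
  have h4 : 15 / w = 3 * (5 / w) := by ring
  have h5 : (0 : ℝ) ≤ k2rM w := by exact_mod_cast h0
  refine pow_le_pow_left₀ (by linarith) ?_ 4
  rw [h4]
  linarith

theorem k2r_J (w : ℝ) (c : K2rBx) : (k2rCh w c).J = w ^ 2 := by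
  show |(w • (1 : Matrix (Fin 2) (Fin 2) ℝ)).det| = w ^ 2
  rw [Matrix.det_smul, Matrix.det_one, Fintype.card_fin, mul_one, abs_of_nonneg (by positivity)]

theorem k2r_cen (w : ℝ) (hw : 0 < w) (hw1 : w ≤ 1) (e : Fin 2 → ℤ) (he : e ∈ Fintype.piFinset fun _ : Fin 2 => Finset.Icc (-k2rM w) (k2rM w)) :
    ‖(fun i => (e i : ℝ) * w : Fin 2 → ℝ)‖ ≤ 7 := by
  obtain ⟨h0, h1⟩ := k2r_M_bd w hw
  rw [pi_norm_le_iff_of_nonneg (by norm_num)]
  intro i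
  have h2 := Finset.mem_Icc.1 (Fintype.mem_piFinset.1 he i)
  have h3 : -(k2rM w : ℝ) ≤ (e i : ℝ) := by exact_mod_cast h2.1
  have h4 : (e i : ℝ) ≤ (k2rM w : ℝ) := by exact_mod_cast h2.2
  have h5 : (5 / w + 2) * w = 5 + 2 * w := by field_simp
  have h6 : (k2rM w : ℝ) * w ≤ 7 := by
    calc (k2rM w : ℝ) * w ≤ (5 / w + 2) * w := mul_le_mul_of_nonneg_right h1 hw.le
      _ = 5 + 2 * w := h5
      _ ≤ 7 := by linarith
  rw [Real.norm_eq_abs, abs_le]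
  constructor <;> nlinarith

theorem k2r_tmp (S : (D.pb k).W → Set ((D.pb k).Lam × ℝ)) (w : ℝ) (hw : 0 < w) (hw1 : w ≤ 1) (Q : ℝ) (hQ : (15 / w) ^ 4 ≤ Q) :
    (k2rSys D k S w).Tmp Q := by
  have h15 : (15 : ℝ) ≤ 15 / w := by
    rw [le_div_iff₀ hw]
    nlinarith
  have hQ1 : (15 : ℝ) ^ 4 ≤ Q := (pow_le_pow_left₀ (by norm_num) h15 4).trans hQ
  refine ⟨?_, ?_, fun c => ?_, fun c => ?_⟩
  · show ((Fintype.card ↥(k2rIdx w) : ℕ) : ℝ) ≤ Q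
    rw [Fintype.card_coe]
    exact (k2r_card w hw hw1).trans hQ
  · rw [k2r_q, mul_one]
    linarith
  · have e : ((k2rSys D k S w).ch c).J = w ^ 2 := k2r_J w c.1
    rw [e]
    have h1 : (15 / w) ^ 4 * w ^ 2 = 15 ^ 4 / w ^ 2 := by
      field_simp
    have h2 : (1 : ℝ) ≤ 15 ^ 4 / w ^ 2 := by
      rw [le_div_iff₀ (by positivity)]
      nlinarith
    calc (1 : ℝ) ≤ (15 / w) ^ 4 * w ^ 2 := by rw [h1]; exact h2
      _ ≤ Q * w ^ 2 := mul_le_mul_of_nonneg_right hQ (by positivity)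
  · have hc := Finset.mem_product.1 c.2
    have a1 : ‖((k2rSys D k S w).ch c).y0‖ ≤ 7 := k2r_cen w hw hw1 c.1.1 hc.1
    have a2 : ‖((k2rSys D k S w).ch c).y1‖ ≤ 7 := k2r_cen w hw hw1 c.1.2 hc.2
    linarith

end

end Claimed.Agent.R252
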