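import Claimed.Agent.R252.Norm.Seq

/-!
# Row 252 (S0492), unit S2b-CROP, file 3: typical densities through a normalisation, ANY pair of labels with bounded lists      (architect helper171, prefix `k2r_`)

Sequence versions of `k2n_norm_above_gen`, `k2n_norm_below_gen` (the proofs follow `k2n_typUp_hid`, `k2n_typLo_hid` of helper22).
-/

set_option autoImplicit false

namespace Claimed.Agent.R252

open MeasureTheory Filter Topology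
open Claimed.Agent.R255 (uf)
open scoped ENNReal BigOperators

noncomputable section

variable {v : KbVer}

namespace KbEx

variable (E : KbEx v)

/-- ceilings -/
theorem k2r_typUp_gen (hE : E.Ok) (Y : E.Sys) (r h e f₀ : ℝ) (hY : E.IsSys Y r h) (he : E.ChExp Y (E.k2nXJ Y) e)
    {D D' : Type} [Countable D] [Countable D'] (ℓ : E.Lab D) (ℓ' : (E.norm Y r).Lab D') (n : ℕ)
    (hℓ : ∀ᶠ k in uf, (E.P k).LabMeas (ℓ k)) (hℓ' : ∀ᶠ k in uf, ((Y k).norm (E.a r k)).LabMeas (ℓ' k))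
    (hL : ∀ᶠ k in uf, ∀ c, ∃ Lst : D' → ℝ × KbB v → Finset D, (∀ d o, (Lst d o).card ≤ n) ∧ (∀ d d', MeasurableSet {o | d' ∈ Lst d o}) ∧
      ∀ x ∈ (Y k).S c, ℓ k ((Y k).wd c) x ∈ Lst (ℓ' k c ((Y k).k2nBack c x)) ((E.P k).bs ((Y k).wd c) x))
    (hUp : E.TypUp ℓ f₀) : (E.norm Y r).TypUp ℓ' (f₀ + e) := by
  intro τ hτ
  have hτ5 : 0 < τ / 3 := by positivity
  obtain ⟨c, hc, hpow⟩ := hUp (τ / 3) hτ5
  have hE' := hE
  obtain ⟨_, ⟨M0, hP⟩, _⟩ := hE'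
  have hY' := hY
  obtain ⟨⟨M1, hM⟩, hG, _⟩ := hY'
  refine k2n_s1_pow_div E.R (fun k => (Y k).Z) _ (fun τ' hτ' => (E.k2n_Z_bounds hE Y r h hY τ' hτ').mono fun k hk => hk.2.2) 2 c hc ?_
  filter_upwards [hpow, hP, hM, E.k2n_XJ_bounds hE Y e he (τ / 3) hτ5, E.k2n_Z_bounds hE Y r h hY 1 one_pos,
    (kb_rpow_tendsto E.R hτ5).eventually_ge_atTop (2 * (n : ℝ)), hℓ, hℓ', hL] with k h1 h0 h2 h4 h5 h6 h7 h8 h9
  have hN1 := kb_res_one_le E.R k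
  have hN0 := kb_res_pos E.R k
  have key := (Y k).k2n_norm_above_gen h0.1 h2.1 (E.a r k) (E.R.N k ^ (-e + τ / 3)) (E.R.N k ^ (-f₀ + τ / 3))
    (E.k2n_a_pos r k) (Real.rpow_nonneg hN0.le _) (Real.rpow_nonneg hN0.le _)
    (fun c => (h4 c).1) h5.1 (fun c => (h4 c).2.1) (ℓ k) h7 (ℓ' k) h8 n h9
  have m1 : (E.P k).mass ((E.P k).above (ℓ k) (E.R.N k ^ (-f₀ + τ / 3))) ≤ ENNReal.ofReal (E.R.N k ^ (-c)) :=
    (ENNReal.le_ofReal_iff_toReal_le (k2n_s1_mass_ne_top h0.1 _) (Real.rpow_nonneg hN0.le _)).2 h1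
  have e1 : 2 * (n : ℝ) * E.R.N k ^ (-e + τ / 3) * E.R.N k ^ (-f₀ + τ / 3) ≤ E.R.N k ^ (-(f₀ + e) + τ) := by
    have e2 : E.R.N k ^ (-(f₀ + e) + τ) = E.R.N k ^ (τ / 3) * E.R.N k ^ (-e + τ / 3) * E.R.N k ^ (-f₀ + τ / 3) := by
      rw [← Real.rpow_add hN0, ← Real.rpow_add hN0]
      congr 1
      ring
    rw [e2]
    have p2 := Real.rpow_pos_of_pos hN0 (-e + τ / 3)
    have p3 := Real.rpow_pos_of_pos hN0 (-f₀ + τ / 3)
    gcongr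
  calc ((Y k).norm (E.a r k)).mass (((Y k).norm (E.a r k)).above (ℓ' k) (E.R.N k ^ (-(f₀ + e) + τ)))
      ≤ ((Y k).norm (E.a r k)).mass (((Y k).norm (E.a r k)).above (ℓ' k)
          (2 * (n : ℝ) * E.R.N k ^ (-e + τ / 3) * E.R.N k ^ (-f₀ + τ / 3))) :=
        k2a_mass_mono fun γ x hx => lt_of_le_of_lt (ENNReal.ofReal_le_ofReal e1) hx
    _ ≤ 2 * (E.P k).mass ((E.P k).above (ℓ k) (E.R.N k ^ (-f₀ + τ / 3))) / (Y k).Z := key
    _ ≤ ENNReal.ofReal (2 * E.R.N k ^ (-c)) / (Y k).Z := by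
        refine ENNReal.div_le_div_right ?_ _
        rw [ENNReal.ofReal_mul zero_le_two, ENNReal.ofReal_ofNat]
        exact mul_le_mul_right m1 _

/-- floors -/
theorem k2r_typLo_gen (hE : E.Ok) (Y : E.Sys) (r h e f₀ : ℝ) (hY : E.IsSys Y r h) (he : E.ChExp Y (E.k2nXJ Y) e)
    {D D' : Type} [Countable D] [Countable D'] (ℓ : E.Lab D) (ℓ' : (E.norm Y r).Lab D') (n : ℕ)
    (hℓ : ∀ᶠ k in uf, (E.P k).LabMeas (ℓ k)) (hℓ' : ∀ᶠ k in uf, ((Y k).norm (E.a r k)).LabMeas (ℓ' k))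
    (hL : ∀ᶠ k in uf, ∀ γ, ∃ Lst : D → ℝ × KbB v → Finset ((Y k).C × D'), (∀ d o, (Lst d o).card ≤ n) ∧ (∀ d p, MeasurableSet {o | p ∈ Lst d o}) ∧
      ∀ c, (Y k).wd c = γ → ∀ x ∈ (Y k).S c, (c, ℓ' k c ((Y k).k2nBack c x)) ∈ Lst (ℓ k γ x) ((E.P k).bs γ x))
    (hLo : E.TypLo ℓ f₀) : (E.norm Y r).TypLo ℓ' (f₀ + e) := by
  intro τ hτ
  have hτ5 : 0 < τ / 3 := by positivity
  obtain ⟨c, hc, hpow⟩ := hLo (τ / 3) hτ5
  have hE' := hE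
  obtain ⟨_, ⟨M0, hP⟩, _⟩ := hE'
  have hY' := hY
  obtain ⟨⟨M1, hM⟩, hG, _⟩ := hY'
  have hc1 : 0 < min c (τ / 3) := lt_min hc hτ5
  refine k2n_s1_pow_div E.R (fun k => (Y k).Z) _ (fun τ' hτ' => (E.k2n_Z_bounds hE Y r h hY τ' hτ').mono fun k hk => hk.2.2) (1 + n) (min c (τ / 3)) hc1 ?_
  filter_upwards [hpow, hP, hM, E.k2n_XJ_bounds hE Y e he (τ / 3) hτ5, E.k2n_Z_bounds hE Y r h hY 1 one_pos, hℓ, hℓ', hL] with k h1 h0 h2 h4 h5 h7 h8 h9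
  have hN1 := kb_res_one_le E.R k
  have hN0 := kb_res_pos E.R k
  have key := (Y k).k2n_norm_below_gen h0.1 h2.1 (E.a r k) (E.R.N k ^ (-e - τ / 3)) (E.R.N k ^ (-(τ / 3))) (E.R.N k ^ (-f₀ - τ / 3))
    (E.k2n_a_pos r k) (Real.rpow_nonneg hN0.le _) (Real.rpow_nonneg hN0.le _) (Real.rpow_nonneg hN0.le _)
    (fun c => (h4 c).1) h5.1 (fun c => (h4 c).2.2) (ℓ k) h7 (ℓ' k) h8 n h9
  have m1 : (E.P k).mass ((E.P k).below (ℓ k) (E.R.N k ^ (-f₀ - τ / 3))) ≤ ENNReal.ofReal (E.R.N k ^ (-c)) :=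
    (ENNReal.le_ofReal_iff_toReal_le (k2n_s1_mass_ne_top h0.1 _) (Real.rpow_nonneg hN0.le _)).2 h1
  have e1 : E.R.N k ^ (-(f₀ + e) - τ) ≤ E.R.N k ^ (-(τ / 3)) * E.R.N k ^ (-e - τ / 3) * E.R.N k ^ (-f₀ - τ / 3) := by
    rw [← Real.rpow_add hN0, ← Real.rpow_add hN0]
    exact Real.rpow_le_rpow_of_exponent_le hN1 (by linarith)
  have pm := Real.rpow_nonneg hN0.le (-(min c (τ / 3)))
  calc ((Y k).norm (E.a r k)).mass (((Y k).norm (E.a r k)).below (ℓ' k) (E.R.N k ^ (-(f₀ + e) - τ)))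
      ≤ ((Y k).norm (E.a r k)).mass (((Y k).norm (E.a r k)).below (ℓ' k)
          (E.R.N k ^ (-(τ / 3)) * E.R.N k ^ (-e - τ / 3) * E.R.N k ^ (-f₀ - τ / 3))) :=
        k2a_mass_mono fun γ x hx => lt_of_lt_of_le hx (ENNReal.ofReal_le_ofReal e1)
    _ ≤ ((E.P k).mass ((E.P k).below (ℓ k) (E.R.N k ^ (-f₀ - τ / 3)))
          + ENNReal.ofReal ((n : ℝ) * E.R.N k ^ (-(τ / 3))) * (E.P k).tot) / (Y k).Z := key
    _ ≤ ENNReal.ofReal ((1 + (n : ℝ)) * E.R.N k ^ (-(min c (τ / 3)))) / (Y k).Z := by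
        refine ENNReal.div_le_div_right ?_ _
        have a1 : ENNReal.ofReal (E.R.N k ^ (-c)) ≤ ENNReal.ofReal (E.R.N k ^ (-(min c (τ / 3)))) :=
          ENNReal.ofReal_le_ofReal (Real.rpow_le_rpow_of_exponent_le hN1 (neg_le_neg (min_le_left _ _)))
        have a2 : ENNReal.ofReal ((n : ℝ) * E.R.N k ^ (-(τ / 3))) * (E.P k).tot ≤ ENNReal.ofReal ((n : ℝ) * E.R.N k ^ (-(min c (τ / 3)))) := by
          calc ENNReal.ofReal ((n : ℝ) * E.R.N k ^ (-(τ / 3))) * (E.P k).tot ≤ ENNReal.ofReal ((n : ℝ) * E.R.N k ^ (-(τ / 3))) * 1 :=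
                mul_le_mul_right (k2a_tot_le h0.1) _
            _ = ENNReal.ofReal ((n : ℝ) * E.R.N k ^ (-(τ / 3))) := mul_one _
            _ ≤ _ := ENNReal.ofReal_le_ofReal (mul_le_mul_of_nonneg_left
                (Real.rpow_le_rpow_of_exponent_le hN1 (neg_le_neg (min_le_right _ _))) (Nat.cast_nonneg n))
        have a3 : (1 + (n : ℝ)) * E.R.N k ^ (-(min c (τ / 3))) = E.R.N k ^ (-(min c (τ / 3))) + (n : ℝ) * E.R.N k ^ (-(min c (τ / 3))) := by ring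
        rw [a3, ENNReal.ofReal_add pm (by positivity)]
        exact add_le_add (m1.trans a1) a2

end KbEx

end

end Claimed.Agent.R252
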