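import Claimed.Agent.R252.S2b.CropDefs
import Claimed.Agent.R252.Norm.Bins

/-!
# Row 252 (S0492), unit S2b-CROP, file 2: the bounded lists between old and new labels at ONE scale      (architect helper171, prefix `k2r_`)

02-framework.tex l.1404-1410, l.1428-1437.   `P = (D.pb k).sel S`,  `Y = (k2rSys D k S w).restr keep univ` a sub-collection of the boxes,  `Y.norm a` the cropped problem.
Old label `P.hv (a a') bo` (velocity bins of width `kbDy bo`), new label `(Y.norm a).hv a' b` (bins of width `kbDy b` of `V' = (V - e₁ w) / w`).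
* `k2r_vel_new`  the new velocity bin in the old coordinates;
* `k2r_list_up`  (input `hL` of `k2n_norm_above_gen`, `n = 25`): in a chart the old label lies in a list determined by the new label, if `w kbDy b ≤ 4 kbDy bo`;
* `k2r_list_lo`  (input `hL` of `k2n_norm_below_gen`, `n = 729`): the pair (box, new label) lies in a list determined by the old label and the exact base, if `kbDy bo ≤ 2 w` and `kbDy bo ≤ 2 w kbDy b`.
-/

set_option autoImplicit false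

namespace Claimed.Agent.R252

open MeasureTheory
open scoped ENNReal BigOperators

noncomputable section

/-! ## concrete lists -/

theorem k2r_win_card (n : ℤ) (m : ℕ) : (Finset.Icc n (n + (m : ℤ))).card = m + 1 := by
  rw [Int.card_Icc]
  have : n + (m : ℤ) + 1 - n = ((m + 1 : ℕ) : ℤ) := by push_cast; ring
  rw [this, Int.toNat_natCast]

/-- a square of windows of `m + 1` consecutive integers -/
def k2rWin (m : ℕ) (n : Fin 2 → ℤ) : Finset (Fin 2 → ℤ) := Fintype.piFinset fun i => Finset.Icc (n i) (n i + (m : ℤ))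

theorem k2r_win_mem (m : ℕ) (n p : Fin 2 → ℤ) : p ∈ k2rWin m n ↔ ∀ i, p i ∈ Finset.Icc (n i) (n i + (m : ℤ)) := Fintype.mem_piFinset

theorem k2r_win_sq (m : ℕ) (n : Fin 2 → ℤ) : (k2rWin m n).card = (m + 1) * (m + 1) := by
  unfold k2rWin
  rw [Fintype.card_piFinset, Fin.prod_univ_two, k2r_win_card, k2r_win_card]

/-- the list of the ceilings -/
def k2rLu (w δn δo : ℝ) (e : Fin 2 → ℤ) (d : ℤ × (Fin 2 → ℤ)) : Finset (ℤ × (Fin 2 → ℤ)) :=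
  ({d.1} : Finset ℤ) ×ˢ k2rWin 4 fun i => ⌊(w * ((d.2 i : ℝ) * δn) + (e i : ℝ) * w) / δo⌋

theorem k2r_Lu_card (w δn δo : ℝ) (e : Fin 2 → ℤ) (d : ℤ × (Fin 2 → ℤ)) : (k2rLu w δn δo e d).card ≤ 25 := by
  unfold k2rLu
  rw [Finset.card_product, Finset.card_singleton, one_mul, k2r_win_sq]

theorem k2r_Lu_mem (w δn δo : ℝ) (e : Fin 2 → ℤ) (d p : ℤ × (Fin 2 → ℤ)) : p ∈ k2rLu w δn δo e d ↔
    p.1 = d.1 ∧ ∀ i, p.2 i ∈ Finset.Icc ⌊(w * ((d.2 i : ℝ) * δn) + (e i : ℝ) * w) / δo⌋ (⌊(w * ((d.2 i : ℝ) * δn) + (e i : ℝ) * w) / δo⌋ + ((4 : ℕ) : ℤ)) := by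
  unfold k2rLu
  rw [Finset.mem_product, Finset.mem_singleton, k2r_win_mem]

/-- the list of the floors: boxes and new labels compatible with the old label `d` and the base `o` -/
def k2rLl (w δn δo : ℝ) (d : ℤ × (Fin 2 → ℤ)) (o : ℝ × (Fin 2 → ℝ)) : Finset (K2rBx × (ℤ × (Fin 2 → ℤ))) :=
  ((k2rWin 2 fun i => ⌊(o.2 i - o.1 * (((d.2 i : ℝ) + 1) * δo)) / w⌋) ×ˢ (k2rWin 2 fun i => ⌊(1 * ((d.2 i : ℝ) * δo) + 0) / w⌋)).biUnion fun e =>
    (({d.1} : Finset ℤ) ×ˢ k2rWin 2 fun i => ⌊(w⁻¹ * ((d.2 i : ℝ) * δo) + -(e.2 i : ℝ)) / δn⌋).image fun q => (e, q)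

theorem k2r_Ll_card (w δn δo : ℝ) (d : ℤ × (Fin 2 → ℤ)) (o : ℝ × (Fin 2 → ℝ)) : (k2rLl w δn δo d o).card ≤ 729 := by
  unfold k2rLl
  refine Finset.card_biUnion_le.trans ?_
  refine (Finset.sum_le_card_nsmul _ _ 9 fun e _ => ?_).trans ?_
  · refine Finset.card_image_le.trans ?_
    rw [Finset.card_product, Finset.card_singleton, one_mul, k2r_win_sq]
  · rw [Finset.card_product, k2r_win_sq, k2r_win_sq]
    norm_num

theorem k2r_Ll_mem (w δn δo : ℝ) (d : ℤ × (Fin 2 → ℤ)) (o : ℝ × (Fin 2 → ℝ)) (p : K2rBx × (ℤ × (Fin 2 → ℤ))) : p ∈ k2rLl w δn δo d o ↔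
    (∀ i, p.1.1 i ∈ Finset.Icc ⌊(o.2 i - o.1 * (((d.2 i : ℝ) + 1) * δo)) / w⌋ (⌊(o.2 i - o.1 * (((d.2 i : ℝ) + 1) * δo)) / w⌋ + ((2 : ℕ) : ℤ))) ∧
    ((∀ i, p.1.2 i ∈ Finset.Icc ⌊(1 * ((d.2 i : ℝ) * δo) + 0) / w⌋ (⌊(1 * ((d.2 i : ℝ) * δo) + 0) / w⌋ + ((2 : ℕ) : ℤ))) ∧ p.2.1 = d.1 ∧
      ∀ i, p.2.2 i ∈ Finset.Icc ⌊(w⁻¹ * ((d.2 i : ℝ) * δo) + -(p.1.2 i : ℝ)) / δn⌋ (⌊(w⁻¹ * ((d.2 i : ℝ) * δo) + -(p.1.2 i : ℝ)) / δn⌋ + ((2 : ℕ) : ℤ))) := by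
  unfold k2rLl
  rw [Finset.mem_biUnion]
  constructor
  · rintro ⟨e, he, hp⟩
    rw [Finset.mem_image] at hp
    obtain ⟨q, hq, rfl⟩ := hp
    rw [Finset.mem_product, k2r_win_mem, k2r_win_mem] at he
    rw [Finset.mem_product, Finset.mem_singleton, k2r_win_mem] at hq
    exact ⟨he.1, he.2, hq.1, hq.2⟩
  · rintro ⟨h1, h2, h3, h4⟩
    refine ⟨p.1, ?_, ?_⟩
    · rw [Finset.mem_product, k2r_win_mem, k2r_win_mem]
      exact ⟨h1, h2⟩
    · rw [Finset.mem_image]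
      refine ⟨p.2, ?_, rfl⟩
      rw [Finset.mem_product, Finset.mem_singleton, k2r_win_mem]
      exact ⟨h3, h4⟩

theorem k2r_Ll_meas (w δn δo : ℝ) (d : ℤ × (Fin 2 → ℤ)) (p : K2rBx × (ℤ × (Fin 2 → ℤ))) : MeasurableSet {o : ℝ × (Fin 2 → ℝ) | p ∈ k2rLl w δn δo d o} := by
  have e : {o : ℝ × (Fin 2 → ℝ) | p ∈ k2rLl w δn δo d o}
      = (⋂ i, {o : ℝ × (Fin 2 → ℝ) | p.1.1 i ∈ Finset.Icc ⌊(o.2 i - o.1 * (((d.2 i : ℝ) + 1) * δo)) / w⌋ (⌊(o.2 i - o.1 * (((d.2 i : ℝ) + 1) * δo)) / w⌋ + ((2 : ℕ) : ℤ))}) ∩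
        {_o | (∀ i, p.1.2 i ∈ Finset.Icc ⌊(1 * ((d.2 i : ℝ) * δo) + 0) / w⌋ (⌊(1 * ((d.2 i : ℝ) * δo) + 0) / w⌋ + ((2 : ℕ) : ℤ))) ∧ p.2.1 = d.1 ∧
      ∀ i, p.2.2 i ∈ Finset.Icc ⌊(w⁻¹ * ((d.2 i : ℝ) * δo) + -(p.1.2 i : ℝ)) / δn⌋ (⌊(w⁻¹ * ((d.2 i : ℝ) * δo) + -(p.1.2 i : ℝ)) / δn⌋ + ((2 : ℕ) : ℤ))} := by
    ext o
    rw [Set.mem_ofPred_eq, k2r_Ll_mem, Set.mem_inter_iff, Set.mem_iInter]
    rfl
  rw [e]
  refine (MeasurableSet.iInter fun i => ?_).inter (MeasurableSet.const _)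
  refine k2n_win_meas (f := fun o : ℝ × (Fin 2 → ℝ) => (o.2 i - o.1 * (((d.2 i : ℝ) + 1) * δo)) / w) ?_ (p.1.1 i)
  fun_prop

/-- the intercept bin from the position and the velocity bin -/
theorem k2r_icpt {w δo y0 V t : ℝ} (hw : 0 < w) (hδ : 0 < δo) (hcmp : δo ≤ 2 * w) (ht : t ∈ Set.Ico (0 : ℝ) 1) :
    ⌊y0 / w⌋ ∈ Finset.Icc ⌊(y0 + t * V - t * (((⌊V / δo⌋ : ℤ) + 1) * δo)) / w⌋ (⌊(y0 + t * V - t * (((⌊V / δo⌋ : ℤ) + 1) * δo)) / w⌋ + ((2 : ℕ) : ℤ)) := by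
  have hb1 : (⌊V / δo⌋ : ℝ) * δo ≤ V := by
    have := Int.floor_le (V / δo)
    rwa [le_div_iff₀ hδ] at this
  have hb2 : V < ((⌊V / δo⌋ : ℝ) + 1) * δo := by
    have := Int.lt_floor_add_one (V / δo)
    rwa [div_lt_iff₀ hδ] at this
  rw [Finset.mem_Icc]
  constructor
  · apply Int.floor_le_floor
    apply div_le_div_of_nonneg_right _ hw.le
    nlinarith [ht.1, ht.2]
  · rw [← Int.floor_add_natCast]
    apply Int.floor_le_floor
    rw [div_add' _ _ _ hw.ne']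
    apply div_le_div_of_nonneg_right _ hw.le
    push_cast
    nlinarith [ht.1, ht.2]

/-! ## the crop system -/

variable (D : K2iDat) (k : ℕ) (S : (D.pb k).W → Set ((D.pb k).Lam × ℝ)) (w : ℝ) (keep : Set (k2rSys D k S w).C)

/-- a sub-collection of the boxes -/
abbrev k2rY : KbSys ((D.pb k).sel S) := (k2rSys D k S w).restr keep fun _ => Set.univ

/-- the box of a chart -/
def k2rBox (c : (k2rY D k S w keep).C) : K2rBx := (c : keep).1.1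

theorem k2r_box_inj : Function.Injective (k2rBox D k S w keep) := fun _ _ h => Subtype.ext (Subtype.ext h)

/-- the new velocity in the old coordinates -/
theorem k2r_V_new (a : ℝ) (c : (k2rY D k S w keep).C) (l : K2iLn) (i : Fin 2) :
    kbV ((k2rY D k S w keep).coN a c l) i = w⁻¹ * k2bY l.2 i + -((k2rBox D k S w keep c).2 i : ℝ) * (w⁻¹ * w) := by
  have e1 : kbV ((k2rY D k S w keep).coN a c l) i
      = (k2rSys D k S w).q * (k2rCh w (k2rBox D k S w keep c)).Di.mulVec (fun j : Fin 2 => k2bY l.2 j - ((k2rBox D k S w keep c).2 j : ℝ) * w) i := rfl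
  rw [e1, k2r_q, one_mul, k2r_Di_apply]
  ring

theorem k2r_vel_new (hw : 0 < w) (a b : ℝ) (c : (k2rY D k S w keep).C) (x : K2iLn × ℝ) (i : Fin 2) :
    ((k2rY D k S w keep).norm a).vel b c ((k2rY D k S w keep).k2nBack c x) i
      = ⌊(w⁻¹ * k2bY x.1.2 i + -((k2rBox D k S w keep c).2 i : ℝ)) / kbDy b⌋ := by
  have e : ((k2rY D k S w keep).norm a).vel b c ((k2rY D k S w keep).k2nBack c x) i
      = ⌊kbV ((k2rY D k S w keep).coN a c x.1) i / kbDy b⌋ := rfl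
  rw [e, k2r_V_new, inv_mul_cancel₀ hw.ne', mul_one]

theorem k2r_vel_old (b : ℝ) (γ : ((D.pb k).sel S).W) (x : K2iLn × ℝ) (i : Fin 2) :
    ((D.pb k).sel S).vel b γ x i = ⌊k2bY x.1.2 i / kbDy b⌋ := rfl

theorem k2r_bs_old (γ : ((D.pb k).sel S).W) (x : K2iLn × ℝ) : ((D.pb k).sel S).bs γ x = (x.2, fun i : Fin 2 => k2bY x.1.1 i + x.2 * k2bY x.1.2 i) := rfl

/-- **the list for the ceilings** -/
theorem k2r_list_up (hw : 0 < w) (a a' b bo : ℝ) (ha : 0 < a) (hcmp : w * kbDy b ≤ 4 * kbDy bo) (c : (k2rY D k S w keep).C) :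
    ∃ Lst : ℤ × (Fin KbVer.two.j → ℤ) → ℝ × KbB KbVer.two → Finset (ℤ × (Fin KbVer.two.j → ℤ)),
      (∀ d o, (Lst d o).card ≤ 25) ∧ (∀ d d', MeasurableSet {o | d' ∈ Lst d o}) ∧
      ∀ x ∈ (k2rY D k S w keep).S c, ((D.pb k).sel S).hv (a * a') bo ((k2rY D k S w keep).wd c) x
        ∈ Lst (((k2rY D k S w keep).norm a).hv a' b c ((k2rY D k S w keep).k2nBack c x)) (((D.pb k).sel S).bs ((k2rY D k S w keep).wd c) x) := by
  have hδ : 0 < kbDy bo := k2a_dy_pos bo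
  have hδ' : 0 < kbDy b := k2a_dy_pos b
  refine ⟨fun d _ => k2rLu w (kbDy b) (kbDy bo) (k2rBox D k S w keep c).2 d, fun d _ => k2r_Lu_card _ _ _ _ d,
      fun d d' => MeasurableSet.const _, fun (x : K2iLn × ℝ) _ => (k2r_Lu_mem _ _ _ _ _ _).2 ⟨?_, fun i => ?_⟩⟩
  · exact ((k2rY D k S w keep).k2n_hid_two rfl a a' ha c (kbs_T_adm _) x).symm
  · have h1 := k2n_grid (kbDy bo) (kbDy b) w (((k2rBox D k S w keep c).2 i : ℝ) * w) 4 hδ hδ' hw (by push_cast; exact hcmp)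
      (w⁻¹ * k2bY x.1.2 i + -((k2rBox D k S w keep c).2 i : ℝ))
    have e1 : w * (w⁻¹ * k2bY x.1.2 i + -((k2rBox D k S w keep c).2 i : ℝ)) + ((k2rBox D k S w keep c).2 i : ℝ) * w = k2bY x.1.2 i := by
      field_simp
      ring
    rw [e1, ← k2r_vel_new D k S w keep hw a b c x i] at h1
    exact h1

/-- **the list for the floors** -/
theorem k2r_list_lo (hw : 0 < w) (a a' b bo : ℝ) (ha : 0 < a) (hc1 : kbDy bo ≤ 2 * w) (hc2 : kbDy bo ≤ 2 * (w * kbDy b)) (γ : ((D.pb k).sel S).W) :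
    ∃ Lst : ℤ × (Fin KbVer.two.j → ℤ) → ℝ × KbB KbVer.two → Finset ((k2rY D k S w keep).C × (ℤ × (Fin KbVer.two.j → ℤ))),
      (∀ d o, (Lst d o).card ≤ 729) ∧ (∀ d p, MeasurableSet {o | p ∈ Lst d o}) ∧
      ∀ c, (k2rY D k S w keep).wd c = γ → ∀ x ∈ (k2rY D k S w keep).S c,
        (c, ((k2rY D k S w keep).norm a).hv a' b c ((k2rY D k S w keep).k2nBack c x)) ∈ Lst (((D.pb k).sel S).hv (a * a') bo γ x) (((D.pb k).sel S).bs γ x) := by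
  classical
  have hδ : 0 < kbDy bo := k2a_dy_pos bo
  have hδ' : 0 < kbDy b := k2a_dy_pos b
  have hinj : Function.Injective fun p : (k2rY D k S w keep).C × (ℤ × (Fin 2 → ℤ)) => ((k2rBox D k S w keep p.1, p.2) : K2rBx × (ℤ × (Fin 2 → ℤ))) := by
    intro p p' h
    have h' := Prod.ext_iff.1 h
    exact Prod.ext (k2r_box_inj D k S w keep h'.1) h'.2
  refine ⟨fun d o => (k2rLl w (kbDy b) (kbDy bo) d o).preimage _ hinj.injOn, fun d o => ?_, fun d p => ?_, fun c _ (x : K2iLn × ℝ) hx => ?_⟩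
  · refine le_trans ?_ (k2r_Ll_card w (kbDy b) (kbDy bo) d o)
    exact Finset.card_le_card_of_injOn _ (fun p hp => Finset.mem_preimage.1 hp) hinj.injOn
  · have := k2r_Ll_meas w (kbDy b) (kbDy bo) d (k2rBox D k S w keep p.1, p.2)
    have e : {o : ℝ × (Fin 2 → ℝ) | p ∈ (k2rLl w (kbDy b) (kbDy bo) d o).preimage _ hinj.injOn}
        = {o : ℝ × (Fin 2 → ℝ) | ((k2rBox D k S w keep p.1, p.2) : K2rBx × (ℤ × (Fin 2 → ℤ))) ∈ k2rLl w (kbDy b) (kbDy bo) d o} := by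
      ext o
      exact Finset.mem_preimage
    exact e ▸ this
  · have hA : k2bY x.1.1 ∈ k2iBin w (k2rBox D k S w keep c).1 ∧ k2bY x.1.2 ∈ k2iBin w (k2rBox D k S w keep c).2 := hx.1.2.1.2
    have ht : x.2 ∈ Set.Ico (0 : ℝ) 1 := hx.1.2.2
    refine Finset.mem_preimage.2 ((k2r_Ll_mem _ _ _ _ _ _).2 ⟨fun i => ?_, fun i => ?_, ?_, fun i => ?_⟩)
    · have h1 := k2r_icpt (y0 := k2bY x.1.1 i) (V := k2bY x.1.2 i) hw hδ hc1 ht
      have h2 : ⌊k2bY x.1.1 i / w⌋ = (k2rBox D k S w keep c).1 i := hA.1 i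
      rw [h2] at h1
      exact h1
    · have h1 := k2n_grid w (kbDy bo) 1 0 2 hw hδ one_pos (by push_cast; linarith) (k2bY x.1.2 i)
      have h2 : ⌊k2bY x.1.2 i / w⌋ = (k2rBox D k S w keep c).2 i := hA.2 i
      rw [one_mul (k2bY x.1.2 i), add_zero (k2bY x.1.2 i), h2] at h1
      exact h1
    · exact (k2rY D k S w keep).k2n_hid_two rfl a a' ha c (kbs_T_adm _) x
    · have h1 := k2n_grid (kbDy b) (kbDy bo) w⁻¹ (-((k2rBox D k S w keep c).2 i : ℝ)) 2 hδ' hδ (inv_pos.2 hw)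
        (by push_cast; rw [inv_mul_le_iff₀ hw]; linarith) (k2bY x.1.2 i)
      rw [← k2r_vel_new D k S w keep hw a b c x i] at h1
      exact h1

end

end Claimed.Agent.R252
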