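import Claimed.Agent.R252.S2b.CropList
import Claimed.Agent.R252.S2b.CropGen
import Claimed.Agent.R252.S2b.InitSeq
import Claimed.Agent.R252.Norm.Exist

/-!
# Row 252 (S0492), unit S2b-CROP, file 4: the crop of the exact problem      (architect helper171, prefix `k2r_`)

02-framework.tex l.1394-1437.   `E = Q.ex.sel S`;  side `w_n = kbDy a_{u₀}`;  `k2rAll` the system of ALL boxes : `k2r_all_sys : E.IsSys (k2rAll ..) 0 0`;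
`k2r_crop_main` : light boxes discarded and `J_c / ν_c` homogenised (`k2n_exist_charts`), the normalised problem is an exact problem (`k2n_norm_ok`), homogeneous with profile `f(s, u₀ + u) + e` (2.39).
-/

set_option autoImplicit false

namespace Claimed.Agent.R252

open MeasureTheory Filter Topology
open Claimed.Agent.R255 (uf)
open scoped ENNReal BigOperators

noncomputable section

theorem k2r_dy_le_one {x : ℝ} (hx : 0 < x) (h1 : x ≤ 1) : kbDy x ≤ 1 := by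
  unfold kbDy
  refine zpow_le_one_of_nonpos₀ (by norm_num) ?_
  rw [Int.ceil_le]
  push_cast
  exact Real.logb_nonpos (by norm_num) hx.le h1

variable {σ C : ℝ} (Q : K2iSeq σ C) (S : Q.ex.Sel) (u0 : ℝ)

/-- the side of the boxes -/
def k2rW (n : ℕ) : ℝ := kbDy (Q.ex.a u0 n)

theorem k2r_W_pos (n : ℕ) : 0 < k2rW Q u0 n := k2a_dy_pos _

theorem k2r_W_le (hu0 : 0 ≤ u0) (n : ℕ) : k2rW Q u0 n ≤ 1 := k2r_dy_le_one (Q.ex.k2n_a_pos u0 n) (Q.ex.k2n_a_le_one u0 hu0 n)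

theorem k2r_W_ge (n : ℕ) : Q.ex.a u0 n ≤ k2rW Q u0 n := (k2a_dy_bounds (Q.ex.k2n_a_pos u0 n)).1

theorem k2r_W_lt (n : ℕ) : k2rW Q u0 n < 2 * Q.ex.a u0 n := (k2a_dy_bounds (Q.ex.k2n_a_pos u0 n)).2

/-- the system of all boxes -/
def k2rAll : (Q.ex.sel S).Sys := fun n => k2rSys (Q.D n) (Q.k n) (S n) (k2rW Q u0 n)

theorem k2r_seq_eqns_cite : True := by
  have := @k2rW.eq_1
  have := @k2rAll.eq_1
  trivial

theorem k2r_W_tmp (n : ℕ) : (15 / k2rW Q u0 n) ^ 4 ≤ Q.ex.R.N n ^ (16 + 4 * u0) := by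
  have hN0 := kb_res_pos Q.ex.R n
  have hN2 := Q.ex.R.two_le n
  have hw := k2r_W_pos Q u0 n
  have ha := Q.ex.k2n_a_pos u0 n
  have h1 : 15 / k2rW Q u0 n ≤ Q.ex.R.N n ^ (4 + u0) := by
    have e1 : Q.ex.R.N n ^ (4 + u0) = Q.ex.R.N n ^ (4 : ℕ) / Q.ex.a u0 n := by
      unfold KbEx.a
      rw [Real.rpow_add hN0, Real.rpow_neg hN0.le, div_inv_eq_mul]
      norm_num
    rw [e1]
    have h2 : (15 : ℝ) ≤ Q.ex.R.N n ^ (4 : ℕ) := le_trans (by norm_num) (pow_le_pow_left₀ (by norm_num) hN2 4)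
    calc 15 / k2rW Q u0 n ≤ 15 / Q.ex.a u0 n := div_le_div_of_nonneg_left (by norm_num) ha (k2r_W_ge Q u0 n)
      _ ≤ _ := div_le_div_of_nonneg_right h2 ha.le
  calc (15 / k2rW Q u0 n) ^ 4 ≤ (Q.ex.R.N n ^ (4 + u0)) ^ 4 := pow_le_pow_left₀ (by positivity) h1 4
    _ = Q.ex.R.N n ^ (16 + 4 * u0) := by
        rw [← Real.rpow_natCast, ← Real.rpow_mul hN0.le]
        congr 1
        push_cast
        ring

/-- **the boxes are a chart system at depth `0` with time cost `0`** -/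
theorem k2r_all_sys (hE : (Q.ex.sel S).Ok) (hu0 : 0 ≤ u0) : (Q.ex.sel S).IsSys (k2rAll Q S u0) 0 0 := by
  have hE' := hE
  obtain ⟨_, ⟨M0, hP⟩, hN⟩ := hE'
  refine ⟨⟨16 + 4 * u0, ?_⟩, fun τ hτ => ?_, fun τ hτ => ?_⟩
  · filter_upwards [hP] with n h0
    exact ⟨k2r_wf (S n) h0.1 _ (k2r_W_pos Q u0 n), k2r_tmp (S n) _ (k2r_W_pos Q u0 n) (k2r_W_le Q u0 hu0 n) _ (k2r_W_tmp Q u0 n)⟩
  · filter_upwards [hP, hN τ hτ, (kb_rpow_tendsto Q.ex.R hτ).eventually_ge_atTop 7] with n h0 h1 h2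
    refine ⟨?_, k2r_big (Q.bad n) (S n) h0.1 _ (k2r_W_pos Q u0 n) _ h1⟩
    rw [k2a_a_zero]
    exact k2r_geo (Q.bad n) (S n) _ (k2r_W_pos Q u0 n) ((k2r_W_le Q u0 hu0 n).trans (by norm_num)) _ h2
  · refine Eventually.of_forall fun n => ?_
    have hN1 := kb_res_one_le Q.ex.R n
    have e : (k2rAll Q S u0 n).q = 1 := k2r_q _ _ _ _
    show Q.ex.R.N n ^ (-0 - τ) ≤ (k2rAll Q S u0 n).q ∧ (k2rAll Q S u0 n).q ≤ Q.ex.R.N n ^ (-0 + τ)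
    rw [e]
    exact ⟨Real.rpow_le_one_of_one_le_of_nonpos hN1 (by linarith), Real.one_le_rpow hN1 (by linarith)⟩

/-- comparison of the widths -/
theorem k2r_cmp (u : ℝ) (hu : 0 ≤ u) (n : ℕ) :
    k2rW Q u0 n * kbDy (Q.ex.a u n) ≤ 4 * kbDy (Q.ex.a (u0 + u) n) ∧ kbDy (Q.ex.a (u0 + u) n) ≤ 2 * k2rW Q u0 n ∧
      kbDy (Q.ex.a (u0 + u) n) ≤ 2 * (k2rW Q u0 n * kbDy (Q.ex.a u n)) := by
  have a0 := Q.ex.k2n_a_pos u0 n
  have a1 := Q.ex.k2n_a_pos u n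
  have a2 := Q.ex.k2n_a_pos (u0 + u) n
  have a3 := Q.ex.k2n_a_le_one u hu n
  have e := Q.ex.k2n_a_mul u0 u n
  obtain ⟨b1, b2⟩ := k2a_dy_bounds a1
  obtain ⟨c1, c2⟩ := k2a_dy_bounds a2
  have w1 := k2r_W_ge Q u0 n
  have w2 := k2r_W_lt Q u0 n
  have w0 := k2r_W_pos Q u0 n
  have d0 := k2a_dy_pos (Q.ex.a u n)
  refine ⟨?_, ?_, ?_⟩
  · have : k2rW Q u0 n * kbDy (Q.ex.a u n) ≤ (2 * Q.ex.a u0 n) * (2 * Q.ex.a u n) := mul_le_mul w2.le b2.le d0.le (by positivity)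
    nlinarith
  · have : Q.ex.a u0 n * Q.ex.a u n ≤ Q.ex.a u0 n * 1 := mul_le_mul_of_nonneg_left a3 a0.le
    nlinarith
  · have : Q.ex.a u0 n * Q.ex.a u n ≤ k2rW Q u0 n * kbDy (Q.ex.a u n) := mul_le_mul w1 b1 a1.le w0.le
    nlinarith

/-- **the crop** -/
theorem k2r_crop_main (hE : (Q.ex.sel S).Ok) (f : ℝ → ℝ → ℝ) (hf : (Q.ex.sel S).Hom f) (hu0 : 0 ≤ u0) :
    ∃ (Y₀ : (Q.ex.sel S).Sys) (e : ℝ), (Q.ex.sel S).IsSys Y₀ 0 0 ∧ (Q.ex.sel S).ChExp Y₀ ((Q.ex.sel S).k2nXJ Y₀) e ∧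
      ((Q.ex.sel S).norm Y₀ 0).Ok ∧ ((Q.ex.sel S).norm Y₀ 0).Hom fun s u => f s (u0 + u) + e := by
  obtain ⟨keep, e, M, hY, he, hν⟩ := (Q.ex.sel S).k2n_exist_charts hE (k2rAll Q S u0) 0 0 (k2r_all_sys Q S u0 hE hu0)
  obtain ⟨Y₀, hY₀⟩ : ∃ Y₀ : (Q.ex.sel S).Sys, Y₀ = (Q.ex.sel S).restr (k2rAll Q S u0) keep fun _ _ => Set.univ := ⟨_, rfl⟩
  rw [← hY₀] at hY he hν
  have hOk : ((Q.ex.sel S).norm Y₀ 0).Ok := (Q.ex.sel S).k2n_norm_ok hE Y₀ 0 0 M le_rfl one_pos hY hν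
  have hjoint : ∀ s ∈ Set.Icc 0 ((Q.ex.sel S).norm Y₀ 0).L, ∀ u : ℝ, 0 ≤ u →
      ((Q.ex.sel S).norm Y₀ 0).Typ (((Q.ex.sel S).norm Y₀ 0).hv s u) (f s (u0 + u) + e) := by
    intro s hs u hu
    have hs' : s ∈ Set.Icc 0 (Q.ex.sel S).L := ⟨hs.1, hs.2.trans (le_of_eq (sub_zero _))⟩
    have hT := hf.joint s hs' (u0 + u) (by linarith)
    have hℓ : ∀ᶠ n in uf, ((Q.ex.sel S).P n).LabMeas ((Q.ex.sel S).hv s (u0 + u) n) := (k2a_ok_wf hE).mono fun n hn => k2a_hv_meas hn _ _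
    have hℓ' : ∀ᶠ n in uf, ((Y₀ n).norm ((Q.ex.sel S).a 0 n)).LabMeas (((Q.ex.sel S).norm Y₀ 0).hv s u n) :=
      (k2a_ok_wf hOk).mono fun n hn => k2a_hv_meas hn _ _
    refine ⟨(Q.ex.sel S).k2r_typUp_gen hE Y₀ 0 0 e _ hY he ((Q.ex.sel S).hv s (u0 + u)) (((Q.ex.sel S).norm Y₀ 0).hv s u) 25 hℓ hℓ' ?_ hT.1,
      (Q.ex.sel S).k2r_typLo_gen hE Y₀ 0 0 e _ hY he ((Q.ex.sel S).hv s (u0 + u)) (((Q.ex.sel S).norm Y₀ 0).hv s u) 729 hℓ hℓ' ?_ hT.2⟩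
    · refine Eventually.of_forall fun n => ?_
      subst hY₀
      intro c
      have h1 := k2r_list_up (Q.D n) (Q.k n) (S n) (k2rW Q u0 n) (keep n) (k2r_W_pos Q u0 n) (Q.ex.a 0 n) (Q.ex.a s n) (Q.ex.a u n) (Q.ex.a (u0 + u) n)
        (Q.ex.k2n_a_pos 0 n) (k2r_cmp Q u0 u hu n).1 c
      have e1 : Q.ex.a 0 n * Q.ex.a s n = Q.ex.a s n := by rw [k2a_a_zero, one_mul]
      rw [e1] at h1
      exact h1
    · refine Eventually.of_forall fun n => ?_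
      subst hY₀
      intro γ
      have h1 := k2r_list_lo (Q.D n) (Q.k n) (S n) (k2rW Q u0 n) (keep n) (k2r_W_pos Q u0 n) (Q.ex.a 0 n) (Q.ex.a s n) (Q.ex.a u n) (Q.ex.a (u0 + u) n)
        (Q.ex.k2n_a_pos 0 n) (k2r_cmp Q u0 u hu n).2.1 (k2r_cmp Q u0 u hu n).2.2 γ
      have e1 : Q.ex.a 0 n * Q.ex.a s n = Q.ex.a s n := by rw [k2a_a_zero, one_mul]
      rw [e1] at h1
      exact h1
  refine ⟨Y₀, e, hY, he, hOk, ⟨fun s hs => ?_, hjoint⟩⟩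
  exact k2a_rel_typ hOk (k2a_rel_hv_hid hOk s 0) (k2a_rel_hid_hv hOk s) (hjoint s hs 0 le_rfl)

end

end Claimed.Agent.R252
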