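import Claimed.Agent.R252.S2b.Defs
import Claimed.Agent.R252.S2b.Shear

/-!
# Row 252, unit S2b, file 3 (CONTRACT): `g(0,0) ≤ 0`      (architect helper264)

02-framework.tex l.1320-1365 at ONE scale `δ = 2^{-k}`.   REPAIR / SIMPLIFICATION of the paper's argument: the paper flattens at a fine polynomial mesh `ρ = N₀^{-D}` (this needs temperedness of the selection);
because the prior is smoothed at the scale `δ`, the mesh `ρ = δ` is enough and NO regularity of the selection is needed: the statement `k2b_g00` holds for EVERY measurable base set `G`.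
Use: `G = {base density of the current selection ≥ λ}` has `λ |G| ≤ 1` and carries mass `≥ 1/K`, hence `λ ≤ C K^C δ^{-ε}`.
-/

set_option autoImplicit false

namespace Claimed.Agent.R252

open MeasureTheory
open scoped ENNReal

theorem k2b_toNat_le (x : ℤ) (y : ℝ) (hy : 0 ≤ y) (h : (x : ℝ) ≤ y) : ((x.toNat : ℕ) : ℝ) ≤ y := by
  rcases le_total 0 x with h0 | h0
  · have e : ((x.toNat : ℕ) : ℤ) = x := Int.toNat_of_nonneg h0
    have e' : ((x.toNat : ℕ) : ℝ) = (x : ℝ) := by exact_mod_cast congrArg (fun z : ℤ => (z : ℝ)) e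
    rw [e']
    exact h
  · rw [Int.toNat_of_nonpos h0]
    simpa using hy

/-- the floors of the points of an interval of length `2 L` -/
theorem k2b_floor_range (x L y : ℝ) (h : |y - x| ≤ L) : ⌊y⌋ ∈ Finset.Icc ⌊x - L⌋ ⌊x + L⌋ := by
  rw [abs_le] at h
  rw [Finset.mem_Icc]
  exact ⟨Int.floor_le_floor (by linarith), Int.floor_le_floor (by linarith)⟩

theorem k2b_floor_card (x L : ℝ) (hL : 0 ≤ L) : ((Finset.Icc ⌊x - L⌋ ⌊x + L⌋).card : ℝ) ≤ 2 * L + 2 := by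
  rw [Int.card_Icc]
  apply k2b_toNat_le _ _ (by linarith)
  have h1 := Int.floor_le (x + L)
  have h2 := Int.lt_floor_add_one (x - L)
  push_cast
  linarith

/-- equal floors -/
theorem k2b_floor_eq {x y : ℝ} (h : ⌊x⌋ = ⌊y⌋) : |x - y| < 1 := by
  have a1 := Int.floor_le x
  have a2 := Int.lt_floor_add_one x
  have b1 := Int.floor_le y
  have b2 := Int.lt_floor_add_one y
  rw [h] at a1 a2
  rw [abs_lt]
  constructor <;> linarith

theorem k2b_unit_le (x y : ℝ) (h : x ^ 2 + y ^ 2 = 1) : |x| ≤ 1 := by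
  rw [abs_le]
  constructor <;> nlinarith [sq_nonneg y, sq_nonneg (x - 1), sq_nonneg (x + 1)]

/-- a planar vector with small coordinates in an orthonormal frame -/
theorem k2b_frame_small (d0 d1 e0 e1 r : ℝ) (he : e0 ^ 2 + e1 ^ 2 = 1) (hP : |d0 * e0 + d1 * e1| < r) (hQ : |-d0 * e1 + d1 * e0| < r) :
    |d0| < 2 * r ∧ |d1| < 2 * r := by
  have he0 : |e0| ≤ 1 := k2b_unit_le e0 e1 he
  have he1 : |e1| ≤ 1 := k2b_unit_le e1 e0 (by linarith)
  have m1 : ∀ x y : ℝ, |y| ≤ 1 → |x * y| ≤ |x| := fun x y hy => by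
    rw [abs_mul]
    exact mul_le_of_le_one_right (abs_nonneg _) hy
  have i0 : d0 = (d0 * e0 + d1 * e1) * e0 - (-d0 * e1 + d1 * e0) * e1 := by linear_combination (-d0) * he
  have i1 : d1 = (d0 * e0 + d1 * e1) * e1 + (-d0 * e1 + d1 * e0) * e0 := by linear_combination (-d1) * he
  constructor
  · calc |d0| = |(d0 * e0 + d1 * e1) * e0 - (-d0 * e1 + d1 * e0) * e1| := by rw [← i0]
      _ ≤ |(d0 * e0 + d1 * e1) * e0| + |(-d0 * e1 + d1 * e0) * e1| := abs_sub _ _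
      _ ≤ |d0 * e0 + d1 * e1| + |-d0 * e1 + d1 * e0| := add_le_add (m1 _ _ he0) (m1 _ _ he1)
      _ < 2 * r := by linarith
  · calc |d1| = |(d0 * e0 + d1 * e1) * e1 + (-d0 * e1 + d1 * e0) * e0| := by rw [← i1]
      _ ≤ |(d0 * e0 + d1 * e1) * e1| + |(-d0 * e1 + d1 * e0) * e0| := abs_add_le _ _
      _ ≤ |d0 * e0 + d1 * e1| + |-d0 * e1 + d1 * e0| := add_le_add (m1 _ _ he1) (m1 _ _ he0)
      _ < 2 * r := by linarith

/-- the label of a slope -/
noncomputable def k2bLab (N : ℝ) (e : Fin 2 → ℝ) (s : Fin 3 → ℝ) : ℤ × ℤ × ℤ :=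
  (⌊2 * N * (s 0 * e 0 + s 1 * e 1)⌋, ⌊2 * N * (-(s 0) * e 1 + s 1 * e 0)⌋, ⌊N * s 2⌋)

theorem k2bLab_eqns_cite : True := by
  have := @k2bLab.eq_1
  trivial

/-- slopes with the same label are close -/
theorem k2b_lab_close (N : ℝ) (hN0 : 0 < N) (e : Fin 2 → ℝ) (he : e 0 ^ 2 + e 1 ^ 2 = 1) (s s' : Fin 3 → ℝ) (h : k2bLab N e s = k2bLab N e s') (a : Fin 3) :
    |s a - s' a| < 1 / N := by
  unfold k2bLab at h
  simp only [Prod.mk.injEq] at h
  obtain ⟨h1, h2, h3⟩ := h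
  have g1 := k2b_floor_eq h1
  have g2 := k2b_floor_eq h2
  have g3 := k2b_floor_eq h3
  rw [← mul_sub, abs_mul, abs_of_pos (by positivity : (0 : ℝ) < 2 * N)] at g1 g2
  rw [← mul_sub, abs_mul, abs_of_pos hN0] at g3
  have P1 : |(s 0 - s' 0) * e 0 + (s 1 - s' 1) * e 1| < 1 / (2 * N) := by
    rw [lt_div_iff₀ (by positivity)]
    have : (s 0 - s' 0) * e 0 + (s 1 - s' 1) * e 1 = s 0 * e 0 + s 1 * e 1 - (s' 0 * e 0 + s' 1 * e 1) := by ring
    rw [this]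
    linarith
  have Q1 : |-(s 0 - s' 0) * e 1 + (s 1 - s' 1) * e 0| < 1 / (2 * N) := by
    rw [lt_div_iff₀ (by positivity)]
    have : -(s 0 - s' 0) * e 1 + (s 1 - s' 1) * e 0 = -(s 0) * e 1 + s 1 * e 0 - (-(s' 0) * e 1 + s' 1 * e 0) := by ring
    rw [this]
    linarith
  have S1 : |s 2 - s' 2| < 1 / N := by rw [lt_div_iff₀ hN0]; linarith
  have hhalf : 2 * (1 / (2 * N)) = 1 / N := by field_simp
  obtain ⟨D0, D1⟩ := k2b_frame_small _ _ _ _ _ he P1 Q1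
  rw [hhalf] at D0 D1
  fin_cases a
  · exact D0
  · exact D1
  · exact S1

/-- the labels of the slopes of the traces in a plank -/
theorem k2b_lab_range (N : ℝ) (hN0 : 0 < N) (b s : Fin 3 → ℝ) (hs : 0 ≤ s 2 ∧ s 2 ≤ 1) (c v e : Fin 2 → ℝ) (α β : ℝ)
    (h : K2bIn (k2bY b) (k2bY s) c v e (α / N) (β / N)) :
    k2bLab N e s ∈ Finset.Icc ⌊2 * N * (v 0 * e 0 + v 1 * e 1) - 4 * α⌋ ⌊2 * N * (v 0 * e 0 + v 1 * e 1) + 4 * α⌋ ×ˢ
      (Finset.Icc ⌊2 * N * (-(v 0) * e 1 + v 1 * e 0) - 4 * β⌋ ⌊2 * N * (-(v 0) * e 1 + v 1 * e 0) + 4 * β⌋ ×ˢ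
        Finset.Icc 0 ⌊N⌋) := by
  have t0 := h 0 ⟨le_rfl, zero_le_one⟩
  have t1 := h 1 ⟨zero_le_one, le_rfl⟩
  have y0 : k2bY s 0 = s 0 := rfl
  have y1 : k2bY s 1 = s 1 := rfl
  rw [y0, y1] at t0 t1
  obtain ⟨a0, b0⟩ := t0
  obtain ⟨a1, b1⟩ := t1
  rw [abs_le] at a0 b0 a1 b1
  have A1 : |s 0 * e 0 + s 1 * e 1 - (v 0 * e 0 + v 1 * e 1)| ≤ 2 * (α / N) := by
    have e1 : s 0 * e 0 + s 1 * e 1 - (v 0 * e 0 + v 1 * e 1)
        = ((k2bY b 0 + 1 * s 0 - c 0 - 1 * v 0) * e 0 + (k2bY b 1 + 1 * s 1 - c 1 - 1 * v 1) * e 1)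
          - ((k2bY b 0 + 0 * s 0 - c 0 - 0 * v 0) * e 0 + (k2bY b 1 + 0 * s 1 - c 1 - 0 * v 1) * e 1) := by ring
    rw [e1, abs_le]
    constructor <;> linarith [a0.1, a0.2, a1.1, a1.2]
  have B1 : |-(s 0) * e 1 + s 1 * e 0 - (-(v 0) * e 1 + v 1 * e 0)| ≤ 2 * (β / N) := by
    have e1 : -(s 0) * e 1 + s 1 * e 0 - (-(v 0) * e 1 + v 1 * e 0)
        = (-(k2bY b 0 + 1 * s 0 - c 0 - 1 * v 0) * e 1 + (k2bY b 1 + 1 * s 1 - c 1 - 1 * v 1) * e 0)
          - (-(k2bY b 0 + 0 * s 0 - c 0 - 0 * v 0) * e 1 + (k2bY b 1 + 0 * s 1 - c 1 - 0 * v 1) * e 0) := by ring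
    rw [e1, abs_le]
    constructor <;> linarith [b0.1, b0.2, b1.1, b1.2]
  unfold k2bLab
  rw [Finset.mem_product, Finset.mem_product]
  refine ⟨k2b_floor_range _ _ _ ?_, k2b_floor_range _ _ _ ?_, ?_⟩
  · rw [← mul_sub, abs_mul, abs_of_pos (by positivity : (0 : ℝ) < 2 * N)]
    calc 2 * N * |s 0 * e 0 + s 1 * e 1 - (v 0 * e 0 + v 1 * e 1)| ≤ 2 * N * (2 * (α / N)) := mul_le_mul_of_nonneg_left A1 (by positivity)
      _ = 4 * α := by field_simp; ring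
  · rw [← mul_sub, abs_mul, abs_of_pos (by positivity : (0 : ℝ) < 2 * N)]
    calc 2 * N * |-(s 0) * e 1 + s 1 * e 0 - (-(v 0) * e 1 + v 1 * e 0)| ≤ 2 * N * (2 * (β / N)) := mul_le_mul_of_nonneg_left B1 (by positivity)
      _ = 4 * β := by field_simp; ring
  · rw [Finset.mem_Icc]
    refine ⟨Int.floor_nonneg.2 (mul_nonneg hN0.le hs.1), Int.floor_le_floor ?_⟩
    calc N * s 2 ≤ N * 1 := mul_le_mul_of_nonneg_left hs.2 hN0.le
      _ = N := mul_one _

open Classical in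
/-- **LEAF L-252-S2b-G1: the projected plank cap, counting form** (02 (2.36), l.1320-1331).   No measure theory.   `K2bIn` at `t = 0` and `t = 1` gives `|⟨V_i - v, e⟩| ≤ 2 α δ`, `|⟨V_i - v, e^⊥⟩| ≤ 2 β δ` (`δ = 2^{-k}`, `V_i = k2bY (s i)`).
The map `i ↦ (⌊2 ⟨V_i, e⟩ / δ⌋, ⌊2 ⟨V_i, e^⊥⟩ / δ⌋, ⌊s i 2 / δ⌋)` is injective: equal values give `|⟨V_i - V_i', e⟩|, |⟨V_i - V_i', e^⊥⟩| < δ / 2`, so `|V_i - V_i'|_∞ ≤ |V_i - V_i'|_2 < δ`, and `|s i 2 - s i' 2| < δ`, against `K2bSep`.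
Its values lie in a product of integer intervals with `≤ 8 α + 2`, `8 β + 2`, `2^k + 1` points:  `10 α · 10 β · 2 · 2^k = 200 α β 2^k`. -/
theorem k2b_plank_count {ι : Type} [Fintype ι] (k : ℕ) (b s : ι → Fin 3 → ℝ) (hs : ∀ i, 0 ≤ s i 2 ∧ s i 2 ≤ 1)
    (hsep : K2bSep (1 / 2 ^ k) s) (c v e : Fin 2 → ℝ) (α β : ℝ) (he : e 0 ^ 2 + e 1 ^ 2 = 1) (hα : 1 ≤ α) (hβ : 1 ≤ β) :
    ((Finset.univ.filter fun i => K2bIn (k2bY (b i)) (k2bY (s i)) c v e (α / 2 ^ k) (β / 2 ^ k)).card : ℝ)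
      ≤ 200 * α * β * 2 ^ k := by
  obtain ⟨N, hN⟩ : ∃ N : ℝ, N = 2 ^ k := ⟨_, rfl⟩
  have hN1 : 1 ≤ N := by rw [hN]; exact one_le_pow₀ (by norm_num)
  have hN0 : 0 < N := by linarith
  rw [← hN] at hsep ⊢
  have hinj : Function.Injective fun i => k2bLab N e (s i) := by
    intro i i' h
    by_contra hne
    obtain ⟨a, ha⟩ := hsep i i' hne
    exact absurd ha (not_lt.2 (k2b_lab_close N hN0 e he (s i) (s i') h a).le)
  have hcard := Finset.card_le_card_of_injOn (s := Finset.univ.filter fun i => K2bIn (k2bY (b i)) (k2bY (s i)) c v e (α / N) (β / N))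
    (fun i => k2bLab N e (s i))
    (fun i hi => k2b_lab_range N hN0 (b i) (s i) (hs i) c v e α β (Finset.mem_filter.1 hi).2) (hinj.injOn)
  rw [Finset.card_product, Finset.card_product] at hcard
  have c1 := k2b_floor_card (2 * N * (v 0 * e 0 + v 1 * e 1)) (4 * α) (by linarith)
  have c2 := k2b_floor_card (2 * N * (-(v 0) * e 1 + v 1 * e 0)) (4 * β) (by linarith)
  have c3 : ((Finset.Icc (0 : ℤ) ⌊N⌋).card : ℝ) ≤ N + 1 := by
    rw [Int.card_Icc]
    apply k2b_toNat_le _ _ (by linarith)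
    have := Int.floor_le N
    push_cast
    linarith
  have hcard' := (Nat.cast_le (α := ℝ)).2 hcard
  push_cast at hcard'
  refine hcard'.trans ?_
  calc _ ≤ (10 * α) * ((10 * β) * (2 * N)) := by
        apply mul_le_mul (by linarith) _ (by positivity) (by positivity)
        apply mul_le_mul (by linarith) (by linarith) (by positivity) (by positivity)
    _ = 200 * α * β * N := by ring

open Classical in
/-- **LEAF L-252-S2b-G2: the base footprint of the projected lines, finite form.**   `η, C₀` from `H 4 ε`;  `D = 2^k`, `M = card ι`.   `I' = {i | 2^k ≤ 2 K #J i}`: `∑_{i ∉ I'} #J i < M 2^k / (2K)`, so `∑_{I'} #J i ≥ M 2^k / (2K)`.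
Case `D^η ≥ 2K`: on `I'` (apply `H` to the subtype `↥I'`), `#J i ≥ D / (2K) ≥ D^{1-η}`;  weights `ω = 1 / M`;  `A = 200 K / 4^k` by `k2b_plank_count` and `2^{3k} ≤ K M`;
conclusion `2^k / (2K) ≤ C₀ (200 K / 4^k) 2^{εk} #cells`.     Case `D^η < 2K`: `2^{3k} < (2K)^{3/η}` and `#cells ≥ 1`.     `C = max (400 C₀) (max (2^{3/η}) (3/η + 2))` works. -/
theorem k2b_g00_fin (H : K2bPlankFin) (ε : ℝ) (hε : 0 < ε) : ∃ C : ℝ, 1 ≤ C ∧
    ∀ (K : ℝ) (k : ℕ) (ι : Type) [Fintype ι] (b s : ι → Fin 3 → ℝ) (J : ι → Finset ℕ), 1 ≤ K →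
      (∀ i a, 0 ≤ b i a ∧ b i a ≤ 4) → (∀ i a, 0 ≤ s i a ∧ s i a ≤ 1) → K2bSep (1 / 2 ^ k) s →
      (2 : ℝ) ^ (3 * k) ≤ K * Fintype.card ι → (∀ i, J i ⊆ Finset.range (2 ^ k)) →
      (2 : ℝ) ^ k * Fintype.card ι ≤ K * ∑ i, ((J i).card : ℝ) →
      (2 : ℝ) ^ (3 * k) ≤ C * K ^ C * (2 : ℝ) ^ (ε * k) *
        ((Finset.univ.biUnion fun i => (J i).image (k2bCell (2 ^ k) (k2bY (b i)) (k2bY (s i)))).card : ℝ) := by
  obtain ⟨η, C₀, hη, hC₀, hH⟩ := H 4 ε hε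
  have h3η : 0 < 3 / η := by positivity
  refine ⟨max (400 * C₀) (max ((2 : ℝ) ^ (3 / η)) (3 / η + 2)), ?_, ?_⟩
  · exact le_max_of_le_right (le_max_of_le_right (by linarith))
  intro K k ι _ b s J hK hb hs hsep hM hJ hsum
  set C : ℝ := max (400 * C₀) (max ((2 : ℝ) ^ (3 / η)) (3 / η + 2)) with hC
  have hC1 : 400 * C₀ ≤ C := le_max_left _ _
  have hC2 : (2 : ℝ) ^ (3 / η) ≤ C := le_max_of_le_right (le_max_left _ _)
  have hC3 : 3 / η + 2 ≤ C := le_max_of_le_right (le_max_right _ _)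
  have hC0 : 0 < C := by linarith
  have hK0 : 0 < K := by linarith
  set D : ℝ := 2 ^ k with hD
  set M : ℝ := (Fintype.card ι : ℝ) with hMd
  set cells := (Finset.univ.biUnion fun i => (J i).image (k2bCell (2 ^ k) (k2bY (b i)) (k2bY (s i)))) with hcells
  have hD1 : 1 ≤ D := one_le_pow₀ (by norm_num)
  have hD0 : 0 < D := by linarith
  have hD3 : (2 : ℝ) ^ (3 * k) = D ^ 3 := by
    rw [hD, ← pow_mul, mul_comm]
  rw [hD3] at hM ⊢
  have hMpos : 0 < M := by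
    by_contra h
    push Not at h
    have h1 : K * M ≤ 0 := mul_nonpos_of_nonneg_of_nonpos hK0.le h
    have h2 : 0 < D ^ 3 := by positivity
    linarith
  have hDε : (2 : ℝ) ^ (ε * k) = D ^ ε := by
    rw [hD, ← Real.rpow_natCast 2 k, ← Real.rpow_mul (by norm_num), mul_comm]
  have hDε1 : 1 ≤ D ^ ε := Real.one_le_rpow hD1 hε.le
  rw [hDε]
  have hcell1 : 1 ≤ (cells.card : ℝ) := by
    have h1 : 0 < ∑ i, ((J i).card : ℝ) := by
      by_contra h
      push Not at h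
      have h1 : K * ∑ i, ((J i).card : ℝ) ≤ 0 := mul_nonpos_of_nonneg_of_nonpos hK0.le h
      have h2 : 0 < D * M := by positivity
      linarith
    obtain ⟨i, -, hi⟩ := Finset.exists_ne_zero_of_sum_ne_zero h1.ne'
    have h2 : (J i).Nonempty := by
      rw [← Finset.card_pos]
      rcases Nat.eq_zero_or_pos (J i).card with h0 | h0
      · rw [h0] at hi
        exact absurd Nat.cast_zero hi
      · exact h0
    obtain ⟨j, hj⟩ := h2
    have h3 : k2bCell (2 ^ k) (k2bY (b i)) (k2bY (s i)) j ∈ cells := by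
      rw [hcells, Finset.mem_biUnion]
      exact ⟨i, Finset.mem_univ _, Finset.mem_image_of_mem _ hj⟩
    have h4 : 0 < cells.card := Finset.card_pos.2 ⟨_, h3⟩
    exact_mod_cast h4
  by_cases hcase : 2 * K ≤ D ^ η
  · -- the main case
    have hcast : ((2 ^ k : ℕ) : ℝ) = D := by
      rw [hD]
      push_cast
      rfl
    set n : ι → ℝ := fun i => ((J i).card : ℝ) with hn
    set I' : Finset ι := Finset.univ.filter fun i => D ≤ 2 * K * n i with hI'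
    have hsplit : ∑ i, n i = ∑ i ∈ I', n i + ∑ i ∈ Finset.univ.filter (fun i => ¬ D ≤ 2 * K * n i), n i :=
      (Finset.sum_filter_add_sum_filter_not _ _ _).symm
    have hsmall : ∑ i ∈ Finset.univ.filter (fun i => ¬ D ≤ 2 * K * n i), n i ≤ M * (D / (2 * K)) := by
      calc ∑ i ∈ Finset.univ.filter (fun i => ¬ D ≤ 2 * K * n i), n i
          ≤ ∑ i ∈ Finset.univ.filter (fun i => ¬ D ≤ 2 * K * n i), D / (2 * K) :=
            Finset.sum_le_sum fun i hi => by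
              have h1 := (Finset.mem_filter.1 hi).2
              push Not at h1
              rw [le_div_iff₀ (by positivity)]
              linarith
        _ = ((Finset.univ.filter (fun i => ¬ D ≤ 2 * K * n i)).card : ℝ) * (D / (2 * K)) := by
            rw [Finset.sum_const, nsmul_eq_mul]
        _ ≤ M * (D / (2 * K)) := by
            gcongr
            rw [hMd]
            exact_mod_cast Finset.card_le_univ _
    have hbig : D * M / (2 * K) ≤ ∑ i ∈ I', n i := by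
      have h1 : K * (M * (D / (2 * K))) = D * M / 2 := by field_simp
      have h2 : D * M ≤ K * ∑ i ∈ I', n i + D * M / 2 := by
        calc D * M ≤ K * ∑ i, n i := hsum
          _ = K * ∑ i ∈ I', n i + K * ∑ i ∈ Finset.univ.filter (fun i => ¬ D ≤ 2 * K * n i), n i := by
              rw [hsplit, mul_add]
          _ ≤ K * ∑ i ∈ I', n i + D * M / 2 := by
              rw [← h1]
              gcongr
      rw [div_le_iff₀ (by positivity)]
      linarith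
    have key := hH (2 ^ k) (↥I') (fun i => k2bY (b i.1)) (fun i => k2bY (s i.1)) (fun _ => 1 / M)
      (200 * K / D ^ 2) (fun i => J i.1) Nat.one_le_two_pow
      (by
        intro i a
        constructor
        · show |b i.1 a.castSucc| ≤ 4
          rw [abs_of_nonneg (hb i.1 _).1]
          exact (hb i.1 _).2
        · show |s i.1 a.castSucc| ≤ 4
          rw [abs_of_nonneg (hs i.1 _).1]
          linarith [(hs i.1 a.castSucc).2])
      (fun _ => by positivity)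
      (by
        intro c v e α β he hα hαβ hβ
        rw [hcast]
        rw [Finset.sum_const, nsmul_eq_mul]
        have hcount := k2b_plank_count k b s (fun i => hs i 2) hsep c v e α β he hα (hα.trans hαβ)
        have hle : (Finset.univ.filter fun i : ↥I' =>
              K2bIn (k2bY (b i.1)) (k2bY (s i.1)) c v e (α / D) (β / D)).card
            ≤ (Finset.univ.filter fun i => K2bIn (k2bY (b i)) (k2bY (s i)) c v e (α / 2 ^ k) (β / 2 ^ k)).card :=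
          Finset.card_le_card_of_injOn (fun i => i.1)
            (fun i hi => by
              have h1 := (Finset.mem_filter.1 (Finset.mem_coe.1 hi)).2
              exact Finset.mem_coe.2 (Finset.mem_filter.2 ⟨Finset.mem_univ _, h1⟩))
            Subtype.val_injective.injOn
        have hle' : ((Finset.univ.filter fun i : ↥I' =>
              K2bIn (k2bY (b i.1)) (k2bY (s i.1)) c v e (α / D) (β / D)).card : ℝ) ≤ 200 * α * β * D :=
          le_trans (by exact_mod_cast hle) hcount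
        have hα0 : 0 < α := by linarith
        have hβ0 : 0 < β := by linarith
        calc ((Finset.univ.filter fun i : ↥I' =>
              K2bIn (k2bY (b i.1)) (k2bY (s i.1)) c v e (α / D) (β / D)).card : ℝ) * (1 / M)
            ≤ 200 * α * β * D * (1 / M) := by gcongr
          _ ≤ 200 * K / D ^ 2 * α * β := by
              rw [mul_one_div, div_le_iff₀ hMpos]
              have h1 : 200 * K / D ^ 2 * α * β * M = 200 * α * β * (K * M) / D ^ 2 := by ring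
              rw [h1, le_div_iff₀ (by positivity)]
              have h2 : 200 * α * β * D * D ^ 2 = 200 * α * β * D ^ 3 := by ring
              rw [h2]
              gcongr)
      (by
        intro i
        refine ⟨hJ i.1, ?_⟩
        rw [hcast, Real.rpow_sub hD0, Real.rpow_one]
        have h1 : D ≤ 2 * K * n i.1 := (Finset.mem_filter.1 i.2).2
        calc D / D ^ η ≤ D / (2 * K) := by gcongr
          _ ≤ n i.1 := by
              rw [div_le_iff₀ (by positivity)]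
              linarith)
    rw [hcast] at key
    have e1 : ∑ i : ↥I', 1 / M * ((J i.1).card : ℝ) = 1 / M * ∑ i ∈ I', n i := by
      rw [Finset.sum_coe_sort I' (fun i => 1 / M * ((J i).card : ℝ)), ← Finset.mul_sum]
    rw [e1] at key
    have hsub : (Finset.univ.biUnion fun i : ↥I' =>
        (J i.1).image (k2bCell (2 ^ k) (k2bY (b i.1)) (k2bY (s i.1)))) ⊆ cells := by
      intro x hx
      obtain ⟨i, -, hi⟩ := Finset.mem_biUnion.1 hx
      exact Finset.mem_biUnion.2 ⟨i.1, Finset.mem_univ _, hi⟩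
    have hcard : ((Finset.univ.biUnion fun i : ↥I' =>
        (J i.1).image (k2bCell (2 ^ k) (k2bY (b i.1)) (k2bY (s i.1)))).card : ℝ) ≤ (cells.card : ℝ) := by
      exact_mod_cast Finset.card_le_card hsub
    have h5 : D / (2 * K) ≤ C₀ * (200 * K / D ^ 2) * D ^ ε * (cells.card : ℝ) := by
      calc D / (2 * K) = 1 / M * (D * M / (2 * K)) := by field_simp
        _ ≤ 1 / M * ∑ i ∈ I', n i := by gcongr
        _ ≤ _ := key
        _ ≤ C₀ * (200 * K / D ^ 2) * D ^ ε * (cells.card : ℝ) := by gcongr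
    have h6 : D ^ 3 ≤ 400 * C₀ * K ^ 2 * D ^ ε * (cells.card : ℝ) := by
      rw [div_le_iff₀ (by positivity)] at h5
      have h7 : C₀ * (200 * K / D ^ 2) * D ^ ε * (cells.card : ℝ) * (2 * K)
          = 400 * C₀ * K ^ 2 * D ^ ε * (cells.card : ℝ) / D ^ 2 := by ring
      rw [h7, le_div_iff₀ (by positivity)] at h5
      calc D ^ 3 = D * D ^ 2 := by ring
        _ ≤ _ := h5
    have h8 : K ^ 2 ≤ K ^ C := by
      rw [← Real.rpow_natCast K 2]
      exact Real.rpow_le_rpow_of_exponent_le hK (by push_cast; linarith)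
    calc D ^ 3 ≤ 400 * C₀ * K ^ 2 * D ^ ε * (cells.card : ℝ) := h6
      _ ≤ C * K ^ C * D ^ ε * (cells.card : ℝ) := by gcongr
  · push Not at hcase
    have h1 : D ^ 3 ≤ (2 * K) ^ (3 / η) := by
      have h2 : (D ^ η) ^ (3 / η) = D ^ 3 := by
        rw [← Real.rpow_mul hD0.le, mul_div_cancel₀ _ hη.ne']
        exact_mod_cast Real.rpow_natCast D 3
      rw [← h2]
      exact Real.rpow_le_rpow (by positivity) hcase.le h3η.le
    rw [Real.mul_rpow (by norm_num) hK0.le] at h1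
    have h3 : K ^ (3 / η) ≤ K ^ C := Real.rpow_le_rpow_of_exponent_le hK (by linarith)
    have hKC : 0 < K ^ C := Real.rpow_pos_of_pos hK0 _
    calc D ^ 3 ≤ 2 ^ (3 / η) * K ^ (3 / η) := h1
      _ ≤ C * K ^ C := mul_le_mul hC2 h3 (by positivity) hC0.le
      _ = C * K ^ C * 1 * 1 := by ring
      _ ≤ C * K ^ C * D ^ ε * (cells.card : ℝ) := by gcongr

/-- **LEAF L-252-S2b-G3: one component, law of `y(t)`.**   For fixed `(V, w₀, W)` (measure `(2ϱ)^4` of them in the box) the set of `y₀` in the square of radius `ϱ` about `k2bY b` with `y₀ + t V ∈ A` is a translate of a subset of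
`A ∩ closedBall (y_{(b,s)}(t)) (2ϱ)` (`|y₀ + t V - (k2bY b + t k2bY s)| ≤ ϱ + t ϱ`).   Same coordinates as `k2b_comp_joint` (file MixContract). -/
theorem k2b_comp_tube (b s : Fin 3 → ℝ) (ϱ t : ℝ) (hϱ : 0 < ϱ) (ht : t ∈ Set.Icc (0 : ℝ) 1) (A : Set (Fin 2 → ℝ)) (hA : MeasurableSet A) :
    volume (Metric.closedBall (b, s) ϱ ∩ {p | k2bY (k2bPos p t) ∈ A})
      ≤ ENNReal.ofReal ((2 * ϱ) ^ 4) * volume (A ∩ Metric.closedBall (k2bY (k2bPos (b, s) t)) (2 * ϱ)) := by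
  exact k2b_shear_tube b s ϱ t hϱ ht A hA

theorem k2b_measurable_obs0 :
    Measurable fun x : ((Fin 3 → ℝ) × (Fin 3 → ℝ)) × ℝ => (x.2, k2bY (k2bPos x.1 x.2)) := by
  unfold k2bY k2bPos
  fun_prop

theorem k2b_measurable_trace (p : (Fin 3 → ℝ) × (Fin 3 → ℝ)) : Measurable fun t : ℝ => k2bY (k2bPos p t) := by
  unfold k2bY k2bPos
  fun_prop

theorem k2b_sfinite_prior {ι : Type} [Fintype ι] (b s : ι → Fin 3 → ℝ) (ϱ : ℝ) : SFinite (k2bPrior b s ϱ) := by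
  unfold k2bPrior
  rw [← Measure.sum_fintype]
  infer_instance

/-- **LEAF L-252-S2b-G4: the mass over `G` is an average over tubes.**   Tonelli (`Measure.prod_apply`, `lintegral` of a finite sum of `smul` of restrictions) and `k2b_comp_tube` for every `t ∈ [0,1]`.
`k2bTube` is written out: `{z ∈ G | 0 ≤ z.1 ≤ 1, z.2 ∈ closedBall (y_i(z.1)) (2ϱ)}`. -/
theorem k2b_mass_le_tubes {ι : Type} [Fintype ι] (b s : ι → Fin 3 → ℝ) (ϱ : ℝ) (hϱ : 0 < ϱ)
    (G : Set (ℝ × (Fin 2 → ℝ))) (hG : MeasurableSet G) :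
    ((k2bPrior b s ϱ).prod (volume.restrict (Set.Icc (0 : ℝ) 1))) {x | (x.2, k2bY (k2bPos x.1 x.2)) ∈ G}
      ≤ ∑ i, ENNReal.ofReal (1 / ((Fintype.card ι : ℝ) * (2 * ϱ) ^ 2)) *
          volume (G ∩ {z | z.1 ∈ Set.Icc (0 : ℝ) 1 ∧ z.2 ∈ Metric.closedBall (k2bY (k2bPos (b i, s i) z.1)) (2 * ϱ)}) := by
  classical
  have hEm : MeasurableSet {x : ((Fin 3 → ℝ) × (Fin 3 → ℝ)) × ℝ | (x.2, k2bY (k2bPos x.1 x.2)) ∈ G} :=
    k2b_measurable_obs0 hG
  have := k2b_sfinite_prior b s ϱ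
  rw [Measure.prod_apply_symm hEm]
  -- the tubes
  set T : ι → Set (ℝ × (Fin 2 → ℝ)) := fun i =>
    G ∩ {z | z.2 ∈ Metric.closedBall (k2bY (k2bPos (b i, s i) z.1)) (2 * ϱ)} with hT
  have hTm : ∀ i, MeasurableSet (T i) := by
    intro i
    refine hG.inter ?_
    have h1 : Measurable fun z : ℝ × (Fin 2 → ℝ) => dist z.2 (k2bY (k2bPos (b i, s i) z.1)) :=
      measurable_snd.dist ((k2b_measurable_trace (b i, s i)).comp measurable_fst)
    exact measurableSet_le h1 measurable_const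
  have hslice : ∀ i, Measurable fun t : ℝ => volume (Prod.mk t ⁻¹' T i) := fun i =>
    measurable_measure_prodMk_left (hTm i)
  set c' : ℝ≥0∞ := ENNReal.ofReal (1 / ((Fintype.card ι : ℝ) * (2 * ϱ) ^ 2)) with hc'
  have hpt : ∀ t ∈ Set.Icc (0 : ℝ) 1,
      (k2bPrior b s ϱ) ((fun p => (p, t)) ⁻¹' {x : ((Fin 3 → ℝ) × (Fin 3 → ℝ)) × ℝ | (x.2, k2bY (k2bPos x.1 x.2)) ∈ G})
        ≤ ∑ i, c' * volume (Prod.mk t ⁻¹' T i) := by
    intro t ht
    have hGt : MeasurableSet {y : Fin 2 → ℝ | (t, y) ∈ G} := measurable_prodMk_left hG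
    have hA : MeasurableSet ((fun p => (p, t)) ⁻¹' {x : ((Fin 3 → ℝ) × (Fin 3 → ℝ)) × ℝ | (x.2, k2bY (k2bPos x.1 x.2)) ∈ G}) :=
      measurable_prodMk_right hEm
    unfold k2bPrior
    rw [Measure.finsetSum_apply]
    refine Finset.sum_le_sum fun i _ => ?_
    rw [Measure.smul_apply, Measure.restrict_apply hA, smul_eq_mul, Set.inter_comm]
    have h1 := k2b_comp_tube (b i) (s i) ϱ t hϱ ht {y : Fin 2 → ℝ | (t, y) ∈ G} hGt
    have hM : (0 : ℝ) < Fintype.card ι := by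
      have : 0 < Fintype.card ι := Fintype.card_pos_iff.2 ⟨i⟩
      exact_mod_cast this
    have e : ENNReal.ofReal (1 / ((Fintype.card ι : ℝ) * (2 * ϱ) ^ 6)) * ENNReal.ofReal ((2 * ϱ) ^ 4) = c' := by
      rw [← ENNReal.ofReal_mul (by positivity), hc']
      congr 1
      field_simp
    calc ENNReal.ofReal (1 / ((Fintype.card ι : ℝ) * (2 * ϱ) ^ 6)) *
          volume (Metric.closedBall (b i, s i) ϱ ∩ {p | k2bY (k2bPos p t) ∈ {y : Fin 2 → ℝ | (t, y) ∈ G}})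
        ≤ ENNReal.ofReal (1 / ((Fintype.card ι : ℝ) * (2 * ϱ) ^ 6)) * (ENNReal.ofReal ((2 * ϱ) ^ 4) *
            volume ({y : Fin 2 → ℝ | (t, y) ∈ G} ∩ Metric.closedBall (k2bY (k2bPos (b i, s i) t)) (2 * ϱ))) := by
          gcongr
      _ = c' * volume (Prod.mk t ⁻¹' T i) := by
          rw [← mul_assoc, e]
          rfl
  refine (setLIntegral_mono' measurableSet_Icc hpt).trans ?_
  rw [lintegral_finsetSum _ (fun i _ => (hslice i).const_mul c')]
  refine Finset.sum_le_sum fun i _ => ?_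
  rw [lintegral_const_mul _ (hslice i)]
  refine mul_le_mul_right (le_of_eq ?_) c'
  have e1 : ((volume.restrict (Set.Icc (0 : ℝ) 1)).prod (volume : Measure (Fin 2 → ℝ))) (T i)
      = ∫⁻ t in Set.Icc (0 : ℝ) 1, volume (Prod.mk t ⁻¹' T i) := Measure.prod_apply (hTm i)
  rw [← e1]
  have e2 : (volume.restrict (Set.Icc (0 : ℝ) 1)).prod (volume : Measure (Fin 2 → ℝ))
      = (volume : Measure (ℝ × (Fin 2 → ℝ))).restrict (Set.Icc (0 : ℝ) 1 ×ˢ Set.univ) := by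
    rw [Measure.volume_eq_prod, ← Measure.prod_restrict, Measure.restrict_univ]
  rw [e2, Measure.restrict_apply (hTm i)]
  congr 1
  ext z
  simp only [hT, Set.mem_inter_iff, Set.mem_ofPred_eq, Set.mem_prod, Set.mem_univ, and_true]
  tauto

/-- **LEAF L-252-S2b-G5: a tube in a time bin lies in 16 cells.**   `δ = 2^{-k}`, `0 ≤ V ≤ 1`, `t ∈ [j δ, (j+1) δ)`, `|y a - (b a + t V a)| ≤ δ / 2`, `z a = ⌊(b a + j δ V a) / δ⌋`:  `y a ∈ [(z a - 1/2) δ, (z a + 5/2) δ)`, so `⌊y a / δ⌋ - z a ∈ {-1, 0, 1, 2}`; and `⌊t 2^k⌋₊ = j`. -/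
theorem k2b_tube_cells (k j : ℕ) (b V y : Fin 2 → ℝ) (t : ℝ) (hV : ∀ a, 0 ≤ V a ∧ V a ≤ 1)
    (ht : (j : ℝ) / 2 ^ k ≤ t ∧ t < ((j : ℝ) + 1) / 2 ^ k) (hy : ∀ a, |y a - (b a + t * V a)| ≤ 1 / 2 ^ (k + 1)) :
    (k2bCellAt (2 ^ k) t y).1 = j ∧
      ∀ a, (k2bCell (2 ^ k) b V j).2 a - 1 ≤ (k2bCellAt (2 ^ k) t y).2 a ∧ (k2bCellAt (2 ^ k) t y).2 a ≤ (k2bCell (2 ^ k) b V j).2 a + 2 := by
  have hP : (0 : ℝ) < 2 ^ k := by positivity
  have hD : (((2 ^ k : ℕ)) : ℝ) = 2 ^ k := by push_cast; rfl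
  have h1 : (j : ℝ) ≤ t * 2 ^ k := (div_le_iff₀ hP).1 ht.1
  have h2 : t * 2 ^ k < (j : ℝ) + 1 := (lt_div_iff₀ hP).1 ht.2
  refine ⟨?_, fun a => ?_⟩
  · show ⌊t * ((2 ^ k : ℕ) : ℝ)⌋₊ = j
    rw [hD, Nat.floor_eq_iff (le_trans (Nat.cast_nonneg j) h1)]
    exact ⟨h1, h2⟩
  · show ⌊(b a + (j : ℝ) / ((2 ^ k : ℕ) : ℝ) * V a) * ((2 ^ k : ℕ) : ℝ)⌋ - 1 ≤ ⌊y a * ((2 ^ k : ℕ) : ℝ)⌋ ∧
      ⌊y a * ((2 ^ k : ℕ) : ℝ)⌋ ≤ ⌊(b a + (j : ℝ) / ((2 ^ k : ℕ) : ℝ) * V a) * ((2 ^ k : ℕ) : ℝ)⌋ + 2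
    rw [hD]
    have hu' : (b a + (j : ℝ) / 2 ^ k * V a) * 2 ^ k = b a * 2 ^ k + j * V a := by field_simp
    rw [hu']
    have hz1 := Int.floor_le (b a * 2 ^ k + j * V a)
    have hz2 := Int.lt_floor_add_one (b a * 2 ^ k + j * V a)
    obtain ⟨hV0, hV1⟩ := hV a
    obtain ⟨hy1, hy2⟩ := abs_le.1 (hy a)
    have e : (1 : ℝ) / 2 ^ (k + 1) * 2 ^ k = 1 / 2 := by rw [pow_succ]; field_simp
    have y1 := mul_le_mul_of_nonneg_right hy1 hP.le
    have y2 := mul_le_mul_of_nonneg_right hy2 hP.le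
    rw [neg_mul, e] at y1
    rw [e] at y2
    have t1 := mul_le_mul_of_nonneg_right h1 hV0
    have t2 := mul_le_mul_of_nonneg_right h2.le hV0
    constructor
    · rw [Int.le_floor]
      push_cast
      linarith
    · have h3 : ⌊y a * 2 ^ k⌋ < ⌊b a * 2 ^ k + j * V a⌋ + 3 := by
        rw [Int.floor_lt]
        push_cast
        linarith
      omega

/-- the fibre of `k2bCellAt D` over the cell `c` -/
def k2bFib (D : ℕ) (c : ℕ × (Fin 2 → ℤ)) : Set (ℝ × (Fin 2 → ℝ)) := {z | k2bCellAt D z.1 z.2 = c}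

theorem k2b_fib_meas (D : ℕ) (c : ℕ × (Fin 2 → ℤ)) : MeasurableSet (k2bFib D c) := by
  have hm : Measurable (fun z : ℝ × (Fin 2 → ℝ) => k2bCellAt D z.1 z.2) := by
    unfold k2bCellAt
    refine Measurable.prodMk ?_ ?_
    · exact Nat.measurable_floor.comp (measurable_fst.mul_const _)
    · refine measurable_pi_lambda _ fun a => ?_
      exact Int.measurable_floor.comp (((measurable_pi_apply a).comp measurable_snd).mul_const _)
  exact hm (measurableSet_singleton c)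

/-- the offsets `{-1, 0, 1, 2}²` -/
noncomputable def k2bOff : Finset (Fin 2 → ℤ) := Fintype.piFinset fun _ => Finset.Icc (-1) 2

theorem k2b_off_card : k2bOff.card = 16 := by
  unfold k2bOff
  rw [Fintype.card_piFinset]
  simp

/-- heavy fibres are few -/
theorem k2b_heavy_count (D : ℕ) (G : Set (ℝ × (Fin 2 → ℝ))) (hG : MeasurableSet G) (τ : ℝ≥0∞)
    (Hv : Finset (ℕ × (Fin 2 → ℤ))) (hHv : ∀ c ∈ Hv, τ ≤ volume (G ∩ k2bFib D c)) :
    (Hv.card : ℝ≥0∞) * τ ≤ volume G := by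
  calc (Hv.card : ℝ≥0∞) * τ = ∑ _c ∈ Hv, τ := by rw [Finset.sum_const, nsmul_eq_mul]
    _ ≤ ∑ c ∈ Hv, volume (G ∩ k2bFib D c) := Finset.sum_le_sum hHv
    _ = volume (⋃ c ∈ Hv, G ∩ k2bFib D c) := by
        rw [measure_biUnion_finset]
        · intro c _ c' _ hcc
          refine Set.disjoint_left.2 fun z hz hz' => hcc ?_
          exact hz.2.symm.trans hz'.2
        · intro c _
          exact hG.inter (k2b_fib_meas D c)
    _ ≤ volume G := by
        refine measure_mono ?_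
        intro z hz
        simp only [Set.mem_iUnion] at hz
        obtain ⟨c, _, hz⟩ := hz
        exact hz.1

/-- the part of the tube of half width `δ / 2` about the planar trace `(b, V)` in the time bin `j` -/
def k2bTb (k : ℕ) (b V : Fin 2 → ℝ) (j : ℕ) : Set (ℝ × (Fin 2 → ℝ)) :=
  {z | ((j : ℝ) / 2 ^ k ≤ z.1 ∧ z.1 < ((j : ℝ) + 1) / 2 ^ k) ∧ ∀ a, |z.2 a - (b a + z.1 * V a)| ≤ 1 / 2 ^ (k + 1)}

theorem k2b_tb_vol (k : ℕ) (b V : Fin 2 → ℝ) (j : ℕ) (hV : ∀ a, 0 ≤ V a ∧ V a ≤ 1) :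
    volume (k2bTb k b V j) ≤ ENNReal.ofReal (4 / 2 ^ (3 * k)) := by
  have hP : (0 : ℝ) < 2 ^ k := by positivity
  have hsub : k2bTb k b V j ⊆ Set.Ico ((j : ℝ) / 2 ^ k) (((j : ℝ) + 1) / 2 ^ k) ×ˢ
      Set.Icc (fun a => b a + (j : ℝ) / 2 ^ k * V a - 1 / 2 ^ (k + 1))
        (fun a => b a + (j : ℝ) / 2 ^ k * V a - 1 / 2 ^ (k + 1) + 2 / 2 ^ k) := by
    rintro z ⟨⟨h1, h2⟩, h3⟩
    refine ⟨⟨h1, h2⟩, ?_, ?_⟩
    · intro a
      have h := abs_le.1 (h3 a)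
      have : (j : ℝ) / 2 ^ k * V a ≤ z.1 * V a := mul_le_mul_of_nonneg_right h1 (hV a).1
      show b a + (j : ℝ) / 2 ^ k * V a - 1 / 2 ^ (k + 1) ≤ z.2 a
      linarith [h.1]
    · intro a
      have h := abs_le.1 (h3 a)
      have h4 : z.1 * V a ≤ ((j : ℝ) + 1) / 2 ^ k * V a := mul_le_mul_of_nonneg_right h2.le (hV a).1
      have h5 : ((j : ℝ) + 1) / 2 ^ k * V a = (j : ℝ) / 2 ^ k * V a + 1 / 2 ^ k * V a := by ring
      have h6 : 1 / 2 ^ k * V a ≤ 1 / (2 : ℝ) ^ k := by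
        have : (0 : ℝ) ≤ 1 / 2 ^ k := by positivity
        nlinarith [(hV a).2]
      have h7 : (1 : ℝ) / 2 ^ (k + 1) = 1 / 2 ^ k / 2 := by rw [pow_succ]; field_simp
      have h8 : (2 : ℝ) / 2 ^ k = 2 * (1 / 2 ^ k) := by ring
      show z.2 a ≤ b a + (j : ℝ) / 2 ^ k * V a - 1 / 2 ^ (k + 1) + 2 / 2 ^ k
      linarith [h.2]
  refine (measure_mono hsub).trans ?_
  rw [Measure.volume_eq_prod, Measure.prod_prod, Real.volume_Ico, Real.volume_Icc_pi]
  simp only [Fin.prod_univ_two, add_sub_cancel_left]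
  have h : ((j : ℝ) + 1) / 2 ^ k - (j : ℝ) / 2 ^ k = 1 / 2 ^ k := by ring
  rw [h, ← ENNReal.ofReal_mul (by positivity), ← ENNReal.ofReal_mul (by positivity)]
  refine ENNReal.ofReal_le_ofReal (le_of_eq ?_)
  rw [pow_mul']
  field_simp
  ring

theorem k2b_tb_sub (k : ℕ) (b V : Fin 2 → ℝ) (j : ℕ) (hV : ∀ a, 0 ≤ V a ∧ V a ≤ 1) :
    k2bTb k b V j ⊆ ⋃ o ∈ k2bOff, k2bFib (2 ^ k) (j, (k2bCell (2 ^ k) b V j).2 + o) := by
  rintro z ⟨h1, h3⟩
  obtain ⟨e1, e2⟩ := k2b_tube_cells k j b V z.2 z.1 hV h1 h3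
  simp only [Set.mem_iUnion]
  refine ⟨fun a => (k2bCellAt (2 ^ k) z.1 z.2).2 a - (k2bCell (2 ^ k) b V j).2 a, ?_, ?_⟩
  · unfold k2bOff
    rw [Fintype.mem_piFinset]
    intro a
    rw [Finset.mem_Icc]
    constructor <;> linarith [(e2 a).1, (e2 a).2]
  · show k2bCellAt (2 ^ k) z.1 z.2 = _
    refine Prod.ext e1 ?_
    funext a
    simp

theorem k2b_tube_split (k : ℕ) (b s : Fin 3 → ℝ) :
    {z : ℝ × (Fin 2 → ℝ) | z.1 ∈ Set.Icc (0 : ℝ) 1 ∧
        z.2 ∈ Metric.closedBall (k2bY (k2bPos (b, s) z.1)) (2 * (1 / 2 ^ (k + 2)))}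
      ⊆ (⋃ j ∈ Finset.range (2 ^ k), k2bTb k (k2bY b) (k2bY s) j) ∪ ({1} : Set ℝ) ×ˢ Set.univ := by
  rintro z ⟨⟨h0, h1⟩, hz⟩
  have hP : (0 : ℝ) < 2 ^ k := by positivity
  rcases eq_or_lt_of_le h1 with h1 | h1
  · right
    exact ⟨h1, trivial⟩
  left
  simp only [Set.mem_iUnion]
  have hnn : 0 ≤ z.1 * 2 ^ k := by positivity
  refine ⟨⌊z.1 * 2 ^ k⌋₊, ?_, ⟨?_, ?_⟩, ?_⟩
  · rw [Finset.mem_range]
    have : ((⌊z.1 * 2 ^ k⌋₊ : ℕ) : ℝ) < ((2 ^ k : ℕ) : ℝ) := by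
      push_cast
      calc ((⌊z.1 * 2 ^ k⌋₊ : ℕ) : ℝ) ≤ z.1 * 2 ^ k := Nat.floor_le hnn
        _ < 1 * 2 ^ k := by exact mul_lt_mul_of_pos_right h1 hP
        _ = 2 ^ k := one_mul _
    exact_mod_cast this
  · rw [div_le_iff₀ hP]
    exact Nat.floor_le hnn
  · rw [lt_div_iff₀ hP]
    exact Nat.lt_floor_add_one _
  · intro a
    rw [Metric.mem_closedBall, dist_pi_le_iff (by positivity)] at hz
    have := hz a
    rw [Real.dist_eq] at this
    have e : (2 : ℝ) * (1 / 2 ^ (k + 2)) = 1 / 2 ^ (k + 1) := by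
      rw [pow_succ 2 (k + 1)]; field_simp
    rw [e] at this
    exact this

open Classical in
/-- the mass of `G` in one tube: marked bins cost `4 δ³`, unmarked bins `16 τ` -/
theorem k2b_tube_mass (k : ℕ) (b s : Fin 3 → ℝ) (hs : ∀ a, 0 ≤ s a ∧ s a ≤ 1) (G : Set (ℝ × (Fin 2 → ℝ)))
    (τ : ℝ) (hτ : 0 ≤ τ) (J : Finset ℕ)
    (hJ : ∀ j ∈ Finset.range (2 ^ k), j ∉ J → ∀ o ∈ k2bOff,
      volume (G ∩ k2bFib (2 ^ k) (j, (k2bCell (2 ^ k) (k2bY b) (k2bY s) j).2 + o)) ≤ ENNReal.ofReal τ) :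
    volume (G ∩ {z : ℝ × (Fin 2 → ℝ) | z.1 ∈ Set.Icc (0 : ℝ) 1 ∧
        z.2 ∈ Metric.closedBall (k2bY (k2bPos (b, s) z.1)) (2 * (1 / 2 ^ (k + 2)))})
      ≤ ENNReal.ofReal (4 / 2 ^ (3 * k) * J.card + 16 * τ * 2 ^ k) := by
  have hV : ∀ a, 0 ≤ k2bY s a ∧ k2bY s a ≤ 1 := fun a => hs _
  have hnull : volume ((({1} : Set ℝ) ×ˢ Set.univ : Set (ℝ × (Fin 2 → ℝ)))) = 0 := by
    rw [Measure.volume_eq_prod, Measure.prod_prod, Real.volume_singleton, zero_mul]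
  have hbin : ∀ j ∈ Finset.range (2 ^ k), volume (G ∩ k2bTb k (k2bY b) (k2bY s) j)
      ≤ ENNReal.ofReal ((if j ∈ J then 4 / 2 ^ (3 * k) else 0) + 16 * τ) := by
    intro j hj
    by_cases hjJ : j ∈ J
    · rw [if_pos hjJ]
      refine (measure_mono Set.inter_subset_right).trans ((k2b_tb_vol k _ _ j hV).trans ?_)
      refine ENNReal.ofReal_le_ofReal ?_
      linarith
    · rw [if_neg hjJ, zero_add]
      have hsub : G ∩ k2bTb k (k2bY b) (k2bY s) j ⊆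
          ⋃ o ∈ k2bOff, G ∩ k2bFib (2 ^ k) (j, (k2bCell (2 ^ k) (k2bY b) (k2bY s) j).2 + o) := by
        rintro z ⟨hzG, hz⟩
        have := k2b_tb_sub k _ _ j hV hz
        simp only [Set.mem_iUnion] at this ⊢
        obtain ⟨o, ho, hz⟩ := this
        exact ⟨o, ho, hzG, hz⟩
      refine (measure_mono hsub).trans ((measure_biUnion_finset_le _ _).trans ?_)
      refine (Finset.sum_le_sum (hJ j hj hjJ)).trans ?_
      rw [Finset.sum_const, k2b_off_card, nsmul_eq_mul, ENNReal.ofReal_mul (by norm_num)]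
      simp
  have hsub : G ∩ {z : ℝ × (Fin 2 → ℝ) | z.1 ∈ Set.Icc (0 : ℝ) 1 ∧
        z.2 ∈ Metric.closedBall (k2bY (k2bPos (b, s) z.1)) (2 * (1 / 2 ^ (k + 2)))}
      ⊆ (⋃ j ∈ Finset.range (2 ^ k), G ∩ k2bTb k (k2bY b) (k2bY s) j) ∪ ({1} : Set ℝ) ×ˢ Set.univ := by
    rintro z ⟨hzG, hz⟩
    rcases k2b_tube_split k b s hz with h | h
    · left
      simp only [Set.mem_iUnion] at h ⊢
      obtain ⟨j, hj, hz⟩ := h
      exact ⟨j, hj, hzG, hz⟩
    · right; exact h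
  refine (measure_mono hsub).trans ((measure_union_le _ _).trans ?_)
  rw [hnull, add_zero]
  refine (measure_biUnion_finset_le _ _).trans ((Finset.sum_le_sum hbin).trans ?_)
  rw [← ENNReal.ofReal_sum_of_nonneg]
  · refine ENNReal.ofReal_le_ofReal ?_
    rw [Finset.sum_add_distrib, Finset.sum_ite_mem, Finset.sum_const, Finset.sum_const, Finset.card_range,
      nsmul_eq_mul, nsmul_eq_mul]
    have h1 : (((Finset.range (2 ^ k) ∩ J).card : ℕ) : ℝ) ≤ J.card := by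
      exact_mod_cast Finset.card_le_card Finset.inter_subset_right
    have h2 : (0 : ℝ) ≤ 4 / 2 ^ (3 * k) := by positivity
    push_cast
    nlinarith
  · intro j _
    split_ifs <;> positivity

/-- **LEAF L-252-S2b-G6: `g(0,0) ≤ 0` for every measurable base set.**   `δ = 2^{-k}`, `D = 2^k`, `ϱ = δ / 4`, `M = card ι`.   If `volume G = ⊤` nothing to prove.   `θ = 1 / (128 K)`;  `Hv` = the finite set of the cells `Q` (fibres of `k2bCellAt D`) with
`volume (G ∩ Q) ≥ θ δ³`: `#Hv θ δ³ ≤ volume G`.   `J i` = the `j < D` such that `(j, z_{ij} + o) ∈ Hv` for some `o ∈ {-1,0,1,2}²`, `(j, z_{ij}) = k2bCell D (k2bY (b i)) (k2bY (s i)) j`.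
By `k2b_tube_cells`: tube `i` in a bin `j ∉ J i` meets `G` in measure `< 16 θ δ³`, in a bin `j ∈ J i` in measure `≤ δ · δ²`;  so `(2ϱ)^{-2} volume (G ∩ tube i) ≤ 4 #J i / D + 64 θ`.
`k2b_mass_le_tubes`: `1/K ≤ (1/M) ∑ 4 #J i / D + 1/(2K)`, i.e. `D M ≤ 8 K ∑ #J i`.   `k2b_g00_fin` with `8 K`; the visited cells are `≤ 16 #Hv ≤ 16 · 128 K D³ volume G`.   New constant `C' = 2048 · C · 8^C + C + 1`. -/
theorem k2b_g00 (H : K2bPlankFin) (ε : ℝ) (hε : 0 < ε) : ∃ C : ℝ, 1 ≤ C ∧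
    ∀ (K : ℝ) (k : ℕ) (ι : Type) [Fintype ι] (b s : ι → Fin 3 → ℝ) (G : Set (ℝ × (Fin 2 → ℝ))), 1 ≤ K →
      (∀ i a, 0 ≤ b i a ∧ b i a ≤ 4) → (∀ i a, 0 ≤ s i a ∧ s i a ≤ 1) → K2bSep (1 / 2 ^ k) s →
      (2 : ℝ) ^ (3 * k) ≤ K * Fintype.card ι → MeasurableSet G →
      ENNReal.ofReal (1 / K) ≤ ((k2bPrior b s (1 / 2 ^ (k + 2))).prod (volume.restrict (Set.Icc (0 : ℝ) 1)))
        {x | (x.2, k2bY (k2bPos x.1 x.2)) ∈ G} →
      ENNReal.ofReal (1 / (C * K ^ C * (2 : ℝ) ^ (ε * k))) ≤ volume G := by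
  classical
  obtain ⟨C, hC1, hfin⟩ := k2b_g00_fin H ε hε
  have hC0 : 0 < C := by linarith
  have h32 : (0 : ℝ) < (32 : ℝ) ^ C := by positivity
  refine ⟨2048 * C * (32 : ℝ) ^ C + C + 1, ?_, ?_⟩
  · have : 0 ≤ 2048 * C * (32 : ℝ) ^ C := by positivity
    linarith
  intro K k ι _ b s G hK hb hs hsep hM hG hmass
  by_cases htop : volume G = ⊤
  · rw [htop]; exact le_top
  have hK0 : 0 < K := by linarith
  have hP : (0 : ℝ) < 2 ^ k := by positivity
  have hP3 : (2 : ℝ) ^ (3 * k) = (2 ^ k) ^ 3 := by rw [pow_mul']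
  have hM0 : (0 : ℝ) < Fintype.card ι := by
    have h1 : (0 : ℝ) < K * Fintype.card ι := lt_of_lt_of_le (by positivity) hM
    exact (pos_iff_pos_of_mul_pos h1).1 hK0
  set τ : ℝ := 1 / (128 * K * 2 ^ (3 * k)) with hτ
  have hτpos : 0 < τ := by positivity
  set J : ι → Finset ℕ := fun i => (Finset.range (2 ^ k)).filter fun j => ∃ o ∈ k2bOff,
    ENNReal.ofReal τ ≤ volume (G ∩ k2bFib (2 ^ k) (j, (k2bCell (2 ^ k) (k2bY (b i)) (k2bY (s i)) j).2 + o)) with hJ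
  -- the mass inequality in real numbers
  have hreal : 1 / K ≤ ∑ i, 1 / ((Fintype.card ι : ℝ) * (2 * (1 / 2 ^ (k + 2))) ^ 2) *
      (4 / 2 ^ (3 * k) * (J i).card + 16 * τ * 2 ^ k) := by
    have h1 := hmass.trans (k2b_mass_le_tubes b s (1 / 2 ^ (k + 2)) (by positivity) G hG)
    have h2 : ∀ i ∈ (Finset.univ : Finset ι), ENNReal.ofReal (1 / ((Fintype.card ι : ℝ) * (2 * (1 / 2 ^ (k + 2))) ^ 2)) *
          volume (G ∩ {z | z.1 ∈ Set.Icc (0 : ℝ) 1 ∧
            z.2 ∈ Metric.closedBall (k2bY (k2bPos (b i, s i) z.1)) (2 * (1 / 2 ^ (k + 2)))})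
        ≤ ENNReal.ofReal (1 / ((Fintype.card ι : ℝ) * (2 * (1 / 2 ^ (k + 2))) ^ 2) *
          (4 / 2 ^ (3 * k) * (J i).card + 16 * τ * 2 ^ k)) := by
      intro i _
      rw [ENNReal.ofReal_mul (by positivity)]
      refine mul_le_mul_right ?_ _
      refine k2b_tube_mass k (b i) (s i) (hs i) G τ hτpos.le (J i) ?_
      intro j hj hjJ o ho
      by_contra hcon
      refine hjJ ?_
      rw [hJ]
      exact Finset.mem_filter.2 ⟨hj, o, ho, (not_le.1 hcon).le⟩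
    have h3 := h1.trans (Finset.sum_le_sum h2)
    rw [← ENNReal.ofReal_sum_of_nonneg (fun i _ => by positivity)] at h3
    refine (ENNReal.ofReal_le_ofReal_iff ?_).1 h3
    exact Finset.sum_nonneg fun i _ => by positivity
  have hmarks : (2 : ℝ) ^ k * Fintype.card ι ≤ 32 * K * ∑ i, ((J i).card : ℝ) := by
    rw [← Finset.mul_sum, Finset.sum_add_distrib, ← Finset.mul_sum, Finset.sum_const, Finset.card_univ,
      nsmul_eq_mul] at hreal
    have e : 1 / ((Fintype.card ι : ℝ) * (2 * (1 / 2 ^ (k + 2))) ^ 2) *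
        (4 / 2 ^ (3 * k) * ∑ i, ((J i).card : ℝ) + (Fintype.card ι : ℝ) * (16 * τ * 2 ^ k))
        = 16 * (∑ i, ((J i).card : ℝ)) / ((Fintype.card ι : ℝ) * 2 ^ k) + 1 / (2 * K) := by
      rw [hτ, hP3, pow_add]
      field_simp
      ring
    rw [e] at hreal
    have h1 : 1 / (2 * K) ≤ 16 * (∑ i, ((J i).card : ℝ)) / ((Fintype.card ι : ℝ) * 2 ^ k) := by
      have : 1 / K = 1 / (2 * K) + 1 / (2 * K) := by field_simp; norm_num
      linarith
    rw [div_le_div_iff₀ (by positivity) (by positivity)] at h1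
    linarith
  have hfin' := hfin (32 * K) k ι b s J (by linarith) hb hs hsep
    (hM.trans (by nlinarith)) (fun i => Finset.filter_subset _ _) hmarks
  set Vc : Finset (ℕ × (Fin 2 → ℤ)) :=
    Finset.univ.biUnion fun i => (J i).image (k2bCell (2 ^ k) (k2bY (b i)) (k2bY (s i))) with hVc
  set Hv : Finset (ℕ × (Fin 2 → ℤ)) := ((Vc ×ˢ k2bOff).image fun p => (p.1.1, p.1.2 + p.2)).filter
    fun c => ENNReal.ofReal τ ≤ volume (G ∩ k2bFib (2 ^ k) c) with hHv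
  have hcard : Vc.card ≤ Hv.card * 16 := by
    have hsub : Vc ⊆ (Hv ×ˢ k2bOff).image fun p => (p.1.1, p.1.2 - p.2) := by
      intro c hc
      have hc' := hc
      rw [hVc, Finset.mem_biUnion] at hc'
      obtain ⟨i, _, hc'⟩ := hc'
      rw [Finset.mem_image] at hc'
      obtain ⟨j, hj, rfl⟩ := hc'
      rw [hJ] at hj
      obtain ⟨_, o, ho, hheavy⟩ := Finset.mem_filter.1 hj
      rw [Finset.mem_image]
      refine ⟨((j, (k2bCell (2 ^ k) (k2bY (b i)) (k2bY (s i)) j).2 + o), o), ?_, ?_⟩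
      · rw [Finset.mem_product]
        refine ⟨?_, ho⟩
        rw [hHv, Finset.mem_filter]
        refine ⟨?_, hheavy⟩
        rw [Finset.mem_image]
        exact ⟨(k2bCell (2 ^ k) (k2bY (b i)) (k2bY (s i)) j, o), Finset.mem_product.2 ⟨hc, ho⟩, rfl⟩
      · refine Prod.ext rfl ?_
        simp
    calc Vc.card ≤ ((Hv ×ˢ k2bOff).image fun p => (p.1.1, p.1.2 - p.2)).card := Finset.card_le_card hsub
      _ ≤ (Hv ×ˢ k2bOff).card := Finset.card_image_le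
      _ = Hv.card * 16 := by rw [Finset.card_product, k2b_off_card]
  have hheavy : (Hv.card : ℝ) * τ ≤ (volume G).toReal := by
    have h1 := k2b_heavy_count (2 ^ k) G hG (ENNReal.ofReal τ) Hv (fun c hc => (Finset.mem_filter.1 hc).2)
    have h2 := ENNReal.toReal_mono htop h1
    rwa [ENNReal.toReal_mul, ENNReal.toReal_natCast, ENNReal.toReal_ofReal hτpos.le] at h2
  have hg0 : 0 ≤ (volume G).toReal := ENNReal.toReal_nonneg
  have hE : (0 : ℝ) < (2 : ℝ) ^ (ε * k) := by positivity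
  have hV : (Vc.card : ℝ) ≤ 2048 * K * 2 ^ (3 * k) * (volume G).toReal := by
    have h1 : (Vc.card : ℝ) ≤ Hv.card * 16 := by exact_mod_cast hcard
    have h2 : (Hv.card : ℝ) ≤ 128 * K * 2 ^ (3 * k) * (volume G).toReal := by
      rw [hτ, mul_one_div, div_le_iff₀ (by positivity)] at hheavy
      linarith
    linarith
  have h3 : (2 : ℝ) ^ (3 * k) ≤ C * (32 * K) ^ C * (2 : ℝ) ^ (ε * k) * (2048 * K * 2 ^ (3 * k) * (volume G).toReal) :=
    hfin'.trans (mul_le_mul_of_nonneg_left hV (by positivity))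
  have h4 : 1 ≤ C * (32 * K) ^ C * (2 : ℝ) ^ (ε * k) * (2048 * K * (volume G).toReal) := by
    have : (2 : ℝ) ^ (3 * k) * 1 ≤
        (2 : ℝ) ^ (3 * k) * (C * (32 * K) ^ C * (2 : ℝ) ^ (ε * k) * (2048 * K * (volume G).toReal)) := by
      calc (2 : ℝ) ^ (3 * k) * 1 = (2 : ℝ) ^ (3 * k) := mul_one _
        _ ≤ _ := h3
        _ = _ := by ring
    exact le_of_mul_le_mul_left this (by positivity)
  rw [Real.mul_rpow (by norm_num) hK0.le] at h4
  have h5 : K ^ C * K ≤ K ^ (2048 * C * (32 : ℝ) ^ C + C + 1) := by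
    rw [← Real.rpow_add_one hK0.ne']
    refine Real.rpow_le_rpow_of_exponent_le hK ?_
    have : 0 ≤ 2048 * C * (32 : ℝ) ^ C := by positivity
    linarith
  have h6 : 1 ≤ (2048 * C * (32 : ℝ) ^ C + C + 1) * K ^ (2048 * C * (32 : ℝ) ^ C + C + 1) * (2 : ℝ) ^ (ε * k) *
      (volume G).toReal := by
    calc 1 ≤ C * ((32 : ℝ) ^ C * K ^ C) * (2 : ℝ) ^ (ε * k) * (2048 * K * (volume G).toReal) := h4
      _ = (2048 * C * (32 : ℝ) ^ C) * (K ^ C * K) * (2 : ℝ) ^ (ε * k) * (volume G).toReal := by ring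
      _ ≤ _ := by
        gcongr
        linarith
  rw [ENNReal.ofReal_le_iff_le_toReal htop, div_le_iff₀ (by positivity)]
  linarith

end Claimed.Agent.R252
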