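import Claimed.Agent.R252.S2b.Defs

/-!
# Row 252, unit S2b: Lemma 2.15 for a continuous law      (LEAF L-252-S2b-P2, helper25)

`k2b_plank_cont_aux` (= `k2b_plank_cont` of `S2b/GroupContract.lean`): round the coefficients to the mesh `1 / (8 D)`, group the trajectories by (rounded coefficients, mark set), apply the finite form.
Reusable: `k2b_grp_lintegral`, `k2b_grp_sum_le` (grouping a measure by a key with finitely many values), `k2b_in_perturb`, `k2b_in_mono`, `k2b_slice_le`, `k2b_cell_near`, `k2b_nb_card`.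
-/

set_option autoImplicit false

namespace Claimed.Agent.R252

open MeasureTheory
open scoped ENNReal

/-! ## 1. Grouping a measure by a key with finitely many values -/

section Group

variable {Ω κ : Type} [MeasurableSpace Ω]

theorem k2b_grp_lintegral (lam : Measure Ω) (key : Ω → κ) (Kf : Finset κ) (U : Set Ω)
    (hC : ∀ k ∈ Kf, MeasurableSet (key ⁻¹' {k} ∩ U)) (hK : ∀ l ∈ U, key l ∈ Kf)
    (f : Ω → ℝ≥0∞) (F : κ → ℝ≥0∞) (hf0 : ∀ l, l ∉ U → f l = 0) (hfF : ∀ l ∈ U, f l ≤ F (key l)) :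
    ∫⁻ l, f l ∂lam ≤ ∑ k ∈ Kf, F k * lam (key ⁻¹' {k} ∩ U) := by
  have h1 : ∀ l, f l ≤ ∑ k ∈ Kf, (key ⁻¹' {k} ∩ U).indicator (fun _ => F k) l := by
    intro l
    by_cases hl : l ∈ U
    · refine (hfF l hl).trans ?_
      have hm : l ∈ key ⁻¹' {key l} ∩ U := ⟨rfl, hl⟩
      have h2 : (key ⁻¹' {key l} ∩ U).indicator (fun _ => F (key l)) l = F (key l) := Set.indicator_of_mem hm _
      rw [← h2]
      exact Finset.single_le_sum (f := fun k => (key ⁻¹' {k} ∩ U).indicator (fun _ => F k) l) (fun _ _ => zero_le) (hK l hl)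
    · rw [hf0 l hl]
      exact zero_le
  calc ∫⁻ l, f l ∂lam ≤ ∫⁻ l, ∑ k ∈ Kf, (key ⁻¹' {k} ∩ U).indicator (fun _ => F k) l ∂lam := lintegral_mono h1
    _ = ∑ k ∈ Kf, ∫⁻ l, (key ⁻¹' {k} ∩ U).indicator (fun _ => F k) l ∂lam :=
        lintegral_finsetSum _ (fun k hk => measurable_const.indicator (hC k hk))
    _ = ∑ k ∈ Kf, F k * lam (key ⁻¹' {k} ∩ U) := by
        refine Finset.sum_congr rfl fun k hk => ?_
        rw [lintegral_indicator_const (hC k hk)]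

theorem k2b_grp_sum_le (lam : Measure Ω) (key : Ω → κ) (Kf : Finset κ) (U : Set Ω)
    (hC : ∀ k ∈ Kf, MeasurableSet (key ⁻¹' {k} ∩ U)) (S : Set Ω) (hS : ∀ k ∈ Kf, key ⁻¹' {k} ∩ U ⊆ S) :
    ∑ k ∈ Kf, lam (key ⁻¹' {k} ∩ U) ≤ lam S := by
  rw [← measure_biUnion_finset ?_ hC]
  · exact measure_mono (Set.iUnion₂_subset hS)
  · intro k _ k' _ hne
    refine Set.disjoint_left.2 fun l h1 h2 => hne ?_
    have a1 : key l = k := h1.1
    have a2 : key l = k' := h2.1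
    rw [← a1, ← a2]

end Group

/-! ## 2. Rounding, planks, cells -/

theorem k2b_rd_err (D : ℕ) (hD : 1 ≤ D) (x : ℝ) :
    0 ≤ x - (⌊x * (8 * D)⌋ : ℝ) / (8 * D) ∧ x - (⌊x * (8 * D)⌋ : ℝ) / (8 * D) ≤ 1 / (8 * D) := by
  have hD0 : (0 : ℝ) < 8 * D := by
    have : (1 : ℝ) ≤ D := by exact_mod_cast hD
    linarith
  have h1 := Int.floor_le (x * (8 * D))
  have h2 := (Int.lt_floor_add_one (x * (8 * D))).le
  constructor
  · rw [sub_nonneg, div_le_iff₀ hD0]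
    exact h1
  · rw [sub_le_iff_le_add, ← add_div, le_div_iff₀ hD0]
    linarith

theorem k2b_in_mono {b u c v e : Fin 2 → ℝ} {α β α' β' : ℝ} (hα : α ≤ α') (hβ : β ≤ β') (h : K2bIn b u c v e α β) :
    K2bIn b u c v e α' β' := fun t ht => ⟨(h t ht).1.trans hα, (h t ht).2.trans hβ⟩

theorem k2b_in_perturb (b u b' u' c v e : Fin 2 → ℝ) (α β r : ℝ) (he : e 0 ^ 2 + e 1 ^ 2 = 1)
    (hb : ∀ a, |b a - b' a| ≤ r) (hu : ∀ a, |u a - u' a| ≤ r) (h : K2bIn b' u' c v e α β) :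
    K2bIn b u c v e (α + 4 * r) (β + 4 * r) := by
  intro t ht
  obtain ⟨h1, h2⟩ := h t ht
  have he0 : |e 0| ≤ 1 := by
    rw [abs_le]
    constructor <;> nlinarith [sq_nonneg (e 1), sq_nonneg (e 0 - 1), sq_nonneg (e 0 + 1)]
  have he1 : |e 1| ≤ 1 := by
    rw [abs_le]
    constructor <;> nlinarith [sq_nonneg (e 0), sq_nonneg (e 1 - 1), sq_nonneg (e 1 + 1)]
  have hd : ∀ a, |(b a - b' a) + t * (u a - u' a)| ≤ 2 * r := by
    intro a
    refine (abs_add_le _ _).trans ?_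
    rw [abs_mul, abs_of_nonneg ht.1]
    have : t * |u a - u' a| ≤ 1 * r := mul_le_mul ht.2 (hu a) (abs_nonneg _) zero_le_one
    linarith [hb a]
  have hde : ∀ a a' : Fin 2, |((b a - b' a) + t * (u a - u' a)) * e a'| ≤ 2 * r := by
    intro a a'
    rw [abs_mul]
    have hr : 0 ≤ 2 * r := (abs_nonneg _).trans (hd a)
    have hea : |e a'| ≤ 1 := by
      fin_cases a'
      · exact he0
      · exact he1
    calc |(b a - b' a) + t * (u a - u' a)| * |e a'| ≤ (2 * r) * 1 := mul_le_mul (hd a) hea (abs_nonneg _) hr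
      _ = 2 * r := by ring
  constructor
  · have e1 : (b 0 + t * u 0 - c 0 - t * v 0) * e 0 + (b 1 + t * u 1 - c 1 - t * v 1) * e 1
        = ((b' 0 + t * u' 0 - c 0 - t * v 0) * e 0 + (b' 1 + t * u' 1 - c 1 - t * v 1) * e 1)
          + (((b 0 - b' 0) + t * (u 0 - u' 0)) * e 0 + ((b 1 - b' 1) + t * (u 1 - u' 1)) * e 1) := by ring
    rw [e1]
    refine (abs_add_le _ _).trans ?_
    have := (abs_add_le (((b 0 - b' 0) + t * (u 0 - u' 0)) * e 0) (((b 1 - b' 1) + t * (u 1 - u' 1)) * e 1))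
    linarith [hde 0 0, hde 1 1]
  · have e1 : -(b 0 + t * u 0 - c 0 - t * v 0) * e 1 + (b 1 + t * u 1 - c 1 - t * v 1) * e 0
        = (-(b' 0 + t * u' 0 - c 0 - t * v 0) * e 1 + (b' 1 + t * u' 1 - c 1 - t * v 1) * e 0)
          + (-(((b 0 - b' 0) + t * (u 0 - u' 0)) * e 1) + ((b 1 - b' 1) + t * (u 1 - u' 1)) * e 0) := by ring
    rw [e1]
    refine (abs_add_le _ _).trans ?_
    have := (abs_add_le (-(((b 0 - b' 0) + t * (u 0 - u' 0)) * e 1)) (((b 1 - b' 1) + t * (u 1 - u' 1)) * e 0))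
    rw [abs_neg] at this
    linarith [hde 0 1, hde 1 0]

/-! ## 3. Marks and keys -/

section Keys

variable {Ω : Type}

/-- the part of the slice of `E` over `l` in the time bin `j` -/
def k2bSlB (D : ℕ) (E : Set (Ω × ℝ)) (l : Ω) (j : ℕ) : Set ℝ := {t | (l, t) ∈ E ∧ (j : ℝ) / D ≤ t ∧ t < ((j : ℝ) + 1) / D}

open Classical in
/-- the marked bins of `l` -/
noncomputable def k2bMk (D : ℕ) (E : Set (Ω × ℝ)) (l : Ω) : Finset ℕ := (Finset.range D).filter fun j => volume (k2bSlB D E l j) ≠ 0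

/-- the key of `l`: rounded coefficients and mark set -/
noncomputable def k2bKey (D : ℕ) (b u : Ω → Fin 2 → ℝ) (E : Set (Ω × ℝ)) (l : Ω) : (Fin 2 → ℤ) × (Fin 2 → ℤ) × Finset ℕ :=
  (fun a => ⌊b l a * (8 * D)⌋, fun a => ⌊u l a * (8 * D)⌋, k2bMk D E l)

/-- the rounded coefficients -/
noncomputable def k2bRd (D : ℕ) (z : Fin 2 → ℤ) : Fin 2 → ℝ := fun a => (z a : ℝ) / (8 * D)

theorem k2b_eqns_cite_p2 : True := by
  have := @k2bSlB.eq_1
  have := @k2bMk.eq_1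
  have := @k2bKey.eq_1
  have := @k2bRd.eq_1
  trivial

theorem k2b_mem_mk (D : ℕ) (E : Set (Ω × ℝ)) (l : Ω) (j : ℕ) : j ∈ k2bMk D E l ↔ j < D ∧ volume (k2bSlB D E l j) ≠ 0 := by
  unfold k2bMk
  rw [Finset.mem_filter, Finset.mem_range]

theorem k2b_slB_vol_le (D : ℕ) (E : Set (Ω × ℝ)) (l : Ω) (j : ℕ) : volume (k2bSlB D E l j) ≤ ENNReal.ofReal (1 / D) := by
  have h : k2bSlB D E l j ⊆ Set.Ico ((j : ℝ) / D) (((j : ℝ) + 1) / D) := fun t ht => ht.2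
  refine (measure_mono h).trans (le_of_eq ?_)
  rw [Real.volume_Ico]
  congr 1
  ring

/-- the slice is covered by the marked bins -/
theorem k2b_slice_le (D : ℕ) (hD : 1 ≤ D) (E : Set (Ω × ℝ)) (l : Ω) (h01 : ∀ t, (l, t) ∈ E → 0 ≤ t ∧ t < 1) :
    volume {t | (l, t) ∈ E} ≤ ENNReal.ofReal (((k2bMk D E l).card : ℝ) / D) := by
  have hD0 : (0 : ℝ) < D := by exact_mod_cast hD
  have hsub : {t | (l, t) ∈ E} ⊆ ⋃ j ∈ Finset.range D, k2bSlB D E l j := by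
    intro t ht
    obtain ⟨h0, h1⟩ := h01 t ht
    have hn : 0 ≤ t * D := by positivity
    refine Set.mem_iUnion₂.2 ⟨⌊t * D⌋₊, ?_, ht, ?_, ?_⟩
    · rw [Finset.mem_range, Nat.floor_lt hn]
      nlinarith
    · rw [div_le_iff₀ hD0]
      exact Nat.floor_le hn
    · rw [lt_div_iff₀ hD0]
      exact Nat.lt_floor_add_one _
  refine (measure_mono hsub).trans ((measure_biUnion_finset_le _ _).trans ?_)
  have h2 : ∑ j ∈ Finset.range D, volume (k2bSlB D E l j) = ∑ j ∈ k2bMk D E l, volume (k2bSlB D E l j) := by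
    symm
    refine Finset.sum_subset (fun j hj => Finset.mem_range.2 ((k2b_mem_mk D E l j).1 hj).1) fun j hj hn => ?_
    by_contra h0
    exact hn ((k2b_mem_mk D E l j).2 ⟨Finset.mem_range.1 hj, h0⟩)
  rw [h2]
  refine (Finset.sum_le_sum fun j _ => k2b_slB_vol_le D E l j).trans (le_of_eq ?_)
  rw [Finset.sum_const, nsmul_eq_mul, ← ENNReal.ofReal_natCast, ← ENNReal.ofReal_mul (by positivity)]
  congr 1
  ring

variable [MeasurableSpace Ω]

theorem k2b_meas_slB (D : ℕ) (E : Set (Ω × ℝ)) (hE : MeasurableSet E) (j : ℕ) : Measurable fun l => volume (k2bSlB D E l j) := by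
  have h := measurable_measure_prodMk_left (ν := (volume : Measure ℝ))
    (hE.inter ((MeasurableSet.univ (α := Ω)).prod (measurableSet_Ico (a := (j : ℝ) / D) (b := ((j : ℝ) + 1) / D))))
  have e : (fun l => volume (k2bSlB D E l j))
      = fun l => volume (Prod.mk l ⁻¹' (E ∩ (Set.univ : Set Ω) ×ˢ Set.Ico ((j : ℝ) / D) (((j : ℝ) + 1) / D))) := by
    funext l
    congr 1
    ext t
    simp [k2bSlB]
  rw [e]
  exact h

theorem k2b_meas_mk (D : ℕ) (E : Set (Ω × ℝ)) (hE : MeasurableSet E) (S : Finset ℕ) : MeasurableSet {l | k2bMk D E l = S} := by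
  have e : {l | k2bMk D E l = S} = ⋂ j : ℕ, {l | j ∈ k2bMk D E l ↔ j ∈ S} := by
    ext l
    simp only [Set.mem_ofPred_eq, Set.mem_iInter]
    exact Finset.ext_iff
  rw [e]
  refine MeasurableSet.iInter fun j => ?_
  have hP : MeasurableSet {l | j ∈ k2bMk D E l} := by
    simp only [k2b_mem_mk]
    by_cases hj : j < D
    · simp only [hj, true_and]
      exact ((k2b_meas_slB D E hE j) (measurableSet_singleton 0)).compl
    · simp only [hj, false_and]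
      exact MeasurableSet.const _
  by_cases hS : j ∈ S
  · simp only [hS, iff_true]
    exact hP
  · simp only [hS, iff_false]
    exact hP.compl

theorem k2b_meas_key (D : ℕ) (b u : Ω → Fin 2 → ℝ) (hb : Measurable b) (hu : Measurable u) (E : Set (Ω × ℝ)) (hE : MeasurableSet E)
    (k : (Fin 2 → ℤ) × (Fin 2 → ℤ) × Finset ℕ) : MeasurableSet (k2bKey D b u E ⁻¹' {k}) := by
  have e : k2bKey D b u E ⁻¹' {k} = ((fun l => (fun a => ⌊b l a * (8 * D)⌋ : Fin 2 → ℤ)) ⁻¹' {k.1}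
      ∩ (fun l => (fun a => ⌊u l a * (8 * D)⌋ : Fin 2 → ℤ)) ⁻¹' {k.2.1}) ∩ {l | k2bMk D E l = k.2.2} := by
    ext l
    simp only [Set.mem_preimage, Set.mem_singleton_iff, Set.mem_inter_iff, Set.mem_ofPred_eq, k2bKey, Prod.ext_iff, and_assoc]
  rw [e]
  have h1 : ∀ w : Ω → Fin 2 → ℝ, Measurable w → Measurable fun l => (fun a => ⌊w l a * (8 * D)⌋ : Fin 2 → ℤ) := by
    intro w hw
    refine measurable_pi_lambda _ fun a => ?_
    exact (((measurable_pi_apply a).comp hw).mul_const _).floor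
  exact (((h1 b hb) (measurableSet_singleton _)).inter ((h1 u hu) (measurableSet_singleton _))).inter (k2b_meas_mk D E hE _)

/-- the finite box of the keys -/
noncomputable def k2bBox (D : ℕ) (R : ℝ) : Finset ((Fin 2 → ℤ) × (Fin 2 → ℤ) × Finset ℕ) :=
  (Fintype.piFinset fun _ : Fin 2 => Finset.Icc (-(⌈R * (8 * D)⌉ + 1)) (⌈R * (8 * D)⌉ + 1)) ×ˢ
    ((Fintype.piFinset fun _ : Fin 2 => Finset.Icc (-(⌈R * (8 * D)⌉ + 1)) (⌈R * (8 * D)⌉ + 1)) ×ˢ (Finset.range D).powerset)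

theorem k2b_eqns_cite_box : True := by
  have := @k2bBox.eq_1
  trivial

theorem k2b_floor_box (D : ℕ) (R x : ℝ) (hx : |x| ≤ R) :
    ⌊x * (8 * D)⌋ ∈ Finset.Icc (-(⌈R * (8 * D)⌉ + 1)) (⌈R * (8 * D)⌉ + 1) := by
  have hD0 : (0 : ℝ) ≤ 8 * D := by positivity
  obtain ⟨h1, h2⟩ := abs_le.1 hx
  have hc := Int.le_ceil (R * (8 * D))
  rw [Finset.mem_Icc]
  constructor
  · rw [Int.le_floor]
    push_cast
    nlinarith
  · have h3 := Int.floor_le (x * (8 * D))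
    have h4 : ((⌊x * (8 * D)⌋ : ℤ) : ℝ) ≤ ((⌈R * (8 * D)⌉ + 1 : ℤ) : ℝ) := by
      push_cast
      nlinarith
    exact_mod_cast h4

omit [MeasurableSpace Ω] in
theorem k2b_key_box (D : ℕ) (R : ℝ) (b u : Ω → Fin 2 → ℝ) (E : Set (Ω × ℝ)) (hbd : ∀ l a, |b l a| ≤ R ∧ |u l a| ≤ R) (l : Ω) :
    k2bKey D b u E l ∈ k2bBox D R := by
  unfold k2bKey k2bBox
  rw [Finset.mem_product, Finset.mem_product, Fintype.mem_piFinset, Fintype.mem_piFinset, Finset.mem_powerset]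
  refine ⟨fun a => k2b_floor_box D R _ (hbd l a).1, fun a => k2b_floor_box D R _ (hbd l a).2, ?_⟩
  intro j hj
  exact Finset.mem_range.2 ((k2b_mem_mk D E l j).1 hj).1

end Keys

/-! ## 4. Cells -/

/-- the cell of the rounded trace at the beginning of a bin is close to the cell of the true trace at any time of the bin -/
theorem k2b_cell_near (D : ℕ) (hD : 1 ≤ D) (R : ℝ) (b u : Fin 2 → ℝ) (hu : ∀ a, |u a| ≤ R) (j : ℕ) (hj : j < D) (t : ℝ)
    (ht1 : (j : ℝ) / D ≤ t) (ht2 : t < ((j : ℝ) + 1) / D) :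
    (k2bCellAt D t (fun a => b a + t * u a)).1 = j ∧
      ∀ a, (k2bCell D (k2bRd D fun a => ⌊b a * (8 * D)⌋) (k2bRd D fun a => ⌊u a * (8 * D)⌋) j).2 a
          - (k2bCellAt D t (fun a => b a + t * u a)).2 a ∈ Finset.Icc (-((⌈R⌉₊ : ℤ) + 2)) ((⌈R⌉₊ : ℤ) + 2) := by
  have hD0 : (0 : ℝ) < D := by exact_mod_cast hD
  have hjD : (j : ℝ) / D ≤ 1 := by
    rw [div_le_one hD0]
    exact_mod_cast hj.le
  have hj0 : (0 : ℝ) ≤ (j : ℝ) / D := by positivity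
  constructor
  · show ⌊t * D⌋₊ = j
    rw [Nat.floor_eq_iff (by have := hj0.trans ht1; positivity)]
    constructor
    · rwa [div_le_iff₀ hD0] at ht1
    · rwa [lt_div_iff₀ hD0] at ht2
  · intro a
    show ⌊((⌊b a * (8 * D)⌋ : ℝ) / (8 * D) + (j : ℝ) / D * ((⌊u a * (8 * D)⌋ : ℝ) / (8 * D))) * D⌋ - ⌊(b a + t * u a) * D⌋ ∈ _
    obtain ⟨b1, b2⟩ := k2b_rd_err D hD (b a)
    obtain ⟨u1, u2⟩ := k2b_rd_err D hD (u a)
    obtain ⟨bt, hbt⟩ : ∃ bt : ℝ, bt = (⌊b a * (8 * D)⌋ : ℝ) / (8 * D) := ⟨_, rfl⟩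
    obtain ⟨ut, hut⟩ : ∃ ut : ℝ, ut = (⌊u a * (8 * D)⌋ : ℝ) / (8 * D) := ⟨_, rfl⟩
    rw [← hbt] at b1 b2 ⊢
    rw [← hut] at u1 u2 ⊢
    have hR : R ≤ (⌈R⌉₊ : ℝ) := Nat.le_ceil R
    obtain ⟨ua1, ua2⟩ := abs_le.1 (hu a)
    -- the difference of the two arguments
    have e8 : 1 / (8 * (D : ℝ)) * D = 1 / 8 := by field_simp
    have d1 : 0 ≤ (b a - bt) * D ∧ (b a - bt) * D ≤ 1 / 8 := by
      constructor
      · positivity
      · rw [← e8]; exact mul_le_mul_of_nonneg_right b2 hD0.le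
    have d2 : 0 ≤ (j : ℝ) / D * (u a - ut) * D ∧ (j : ℝ) / D * (u a - ut) * D ≤ 1 / 8 := by
      constructor
      · positivity
      · rw [← e8]
        refine mul_le_mul_of_nonneg_right ?_ hD0.le
        calc (j : ℝ) / D * (u a - ut) ≤ 1 * (1 / (8 * D)) := mul_le_mul hjD u2 u1 zero_le_one
          _ = 1 / (8 * D) := one_mul _
    have d3 : |(t - (j : ℝ) / D) * u a * D| ≤ R := by
      have s1 : 0 ≤ t - (j : ℝ) / D := by linarith
      have s2 : (t - (j : ℝ) / D) * D ≤ 1 := by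
        have : t * D < (j : ℝ) + 1 := by rwa [lt_div_iff₀ hD0] at ht2
        have e : (j : ℝ) / D * D = j := by field_simp
        nlinarith
      have e : (t - (j : ℝ) / D) * u a * D = ((t - (j : ℝ) / D) * D) * u a := by ring
      rw [e, abs_mul, abs_of_nonneg (by positivity)]
      calc (t - (j : ℝ) / D) * D * |u a| ≤ 1 * R := mul_le_mul s2 (hu a) (abs_nonneg _) zero_le_one
        _ = R := one_mul _
    obtain ⟨d3a, d3b⟩ := abs_le.1 d3
    have ediff : (b a + t * u a) * D - (bt + (j : ℝ) / D * ut) * D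
        = (b a - bt) * D + (j : ℝ) / D * (u a - ut) * D + (t - (j : ℝ) / D) * u a * D := by ring
    have f1 := Int.floor_le ((bt + (j : ℝ) / D * ut) * D)
    have f2 := Int.lt_floor_add_one ((bt + (j : ℝ) / D * ut) * D)
    have f3 := Int.floor_le ((b a + t * u a) * D)
    have f4 := Int.lt_floor_add_one ((b a + t * u a) * D)
    rw [Finset.mem_Icc]
    constructor
    · have : ((-((⌈R⌉₊ : ℤ) + 2) : ℤ) : ℝ) < ((⌊(bt + (j : ℝ) / D * ut) * D⌋ - ⌊(b a + t * u a) * D⌋ + 1 : ℤ) : ℝ) := by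
        push_cast
        linarith [d1.1, d1.2, d2.1, d2.2]
      have := Int.cast_lt.1 this
      omega
    · have : ((⌊(bt + (j : ℝ) / D * ut) * D⌋ - ⌊(b a + t * u a) * D⌋ : ℤ) : ℝ) < (((⌈R⌉₊ : ℤ) + 2 : ℤ) : ℝ) := by
        push_cast
        linarith [d1.1, d1.2, d2.1, d2.2]
      have := Int.cast_lt.1 this
      omega

/-- the neighbours of the cells of `Vis` -/
noncomputable def k2bNb (m : ℤ) (Vis : Finset (ℕ × (Fin 2 → ℤ))) : Finset (ℕ × (Fin 2 → ℤ)) :=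
  Vis.biUnion fun c => (Fintype.piFinset fun _ : Fin 2 => Finset.Icc (-m) m).image fun o => (c.1, fun a => c.2 a + o a)

theorem k2b_eqns_cite_nb : True := by
  have := @k2bNb.eq_1
  trivial

theorem k2b_nb_card (m : ℕ) (Vis : Finset (ℕ × (Fin 2 → ℤ))) : ((k2bNb (m : ℤ) Vis).card : ℝ) ≤ (2 * (m : ℝ) + 1) ^ 2 * Vis.card := by
  have h1 : (k2bNb (m : ℤ) Vis).card ≤ Vis.card * (2 * m + 1) ^ 2 := by
    unfold k2bNb
    refine Finset.card_biUnion_le_card_mul _ _ _ fun c _ => ?_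
    refine Finset.card_image_le.trans (le_of_eq ?_)
    rw [Fintype.card_piFinset, Finset.prod_const, Finset.card_univ, Fintype.card_fin, Int.card_Icc]
    congr 1
    omega
  have h2 : ((k2bNb (m : ℤ) Vis).card : ℝ) ≤ ((Vis.card * (2 * m + 1) ^ 2 : ℕ) : ℝ) := by exact_mod_cast h1
  push_cast at h2
  linarith

/-! ## 5. Lemma 2.15 for a continuous law -/

theorem k2b_rd_abs (D : ℕ) (hD : 1 ≤ D) (x R : ℝ) (hx : |x| ≤ R) : |(⌊x * (8 * D)⌋ : ℝ) / (8 * D)| ≤ R + 1 := by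
  obtain ⟨h1, h2⟩ := k2b_rd_err D hD x
  obtain ⟨h3, h4⟩ := abs_le.1 hx
  have h5 : 1 / (8 * (D : ℝ)) ≤ 1 := by
    have : (1 : ℝ) ≤ D := by exact_mod_cast hD
    rw [div_le_one (by positivity)]
    linarith
  rw [abs_le]
  constructor <;> linarith

theorem k2b_rd_abs_sub (D : ℕ) (hD : 1 ≤ D) (x : ℝ) : |x - (⌊x * (8 * D)⌋ : ℝ) / (8 * D)| ≤ 1 / (8 * D) := by
  obtain ⟨h1, h2⟩ := k2b_rd_err D hD x
  rw [abs_of_nonneg h1]
  exact h2

/-- `k2b_plank_cont` (file GroupContract) -/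
theorem k2b_plank_cont_aux (H : K2bPlankFin) (R ε : ℝ) (hR : 0 ≤ R) (hε : 0 < ε) : ∃ η C : ℝ, 0 < η ∧ 0 < C ∧
    ∀ (D : ℕ) (Ω : Type) [MeasurableSpace Ω] (lam : Measure Ω) [IsFiniteMeasure lam] (b u : Ω → Fin 2 → ℝ) (E : Set (Ω × ℝ))
      (A : ℝ) (Vis : Finset (ℕ × (Fin 2 → ℤ))),
      1 ≤ D → Measurable b → Measurable u → MeasurableSet E → 0 ≤ A → (∀ l a, |b l a| ≤ R ∧ |u l a| ≤ R) →
      (∀ x ∈ E, 0 ≤ x.2 ∧ x.2 < 1 ∧ k2bCellAt D x.2 (fun a => b x.1 a + x.2 * u x.1 a) ∈ Vis) →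
      (∀ l, volume {t | (l, t) ∈ E} = 0 ∨ ENNReal.ofReal ((D : ℝ) ^ (-η)) ≤ volume {t | (l, t) ∈ E}) →
      (∀ (c v e : Fin 2 → ℝ) (α β : ℝ), e 0 ^ 2 + e 1 ^ 2 = 1 → 1 ≤ α → α ≤ β → β ≤ 2 * D →
        lam {l | volume {t | (l, t) ∈ E} ≠ 0 ∧ K2bIn (b l) (u l) c v e (α / D) (β / D)} ≤ ENNReal.ofReal (A * α * β)) →
      (lam.prod volume) E * D ≤ ENNReal.ofReal (C * A * (D : ℝ) ^ ε * Vis.card) := by
  classical
  obtain ⟨η, C₀, hη, hC₀, HH⟩ := H (R + 1) ε hε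
  refine ⟨η, 4 * C₀ * (2 * ((⌈R⌉₊ + 2 : ℕ) : ℝ) + 1) ^ 2, hη, by positivity, ?_⟩
  intro D Ω _ lam _ b u E A Vis hD hb hu hE hA hbd hEv hlong hcap
  have hD0 : (0 : ℝ) < D := by exact_mod_cast hD
  obtain ⟨U, hU⟩ : ∃ U : Set Ω, U = {l | volume {t | (l, t) ∈ E} ≠ 0} := ⟨_, rfl⟩
  obtain ⟨key, hkey⟩ : ∃ key : Ω → (Fin 2 → ℤ) × (Fin 2 → ℤ) × Finset ℕ, key = k2bKey D b u E := ⟨_, rfl⟩
  have hUm : MeasurableSet U := by
    rw [hU]
    exact ((measurable_measure_prodMk_left (ν := (volume : Measure ℝ)) hE) (measurableSet_singleton 0)).compl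
  obtain ⟨Kf, hKf⟩ : ∃ Kf : Finset ((Fin 2 → ℤ) × (Fin 2 → ℤ) × Finset ℕ), Kf = (k2bBox D R).filter (fun k => ∃ l ∈ U, key l = k) := ⟨_, rfl⟩
  have hCm : ∀ k ∈ Kf, MeasurableSet (key ⁻¹' {k} ∩ U) := fun k _ => by
    rw [hkey]
    exact (k2b_meas_key D b u hb hu E hE k).inter hUm
  have hK : ∀ l ∈ U, key l ∈ Kf := by
    intro l hl
    rw [hKf, Finset.mem_filter]
    exact ⟨by rw [hkey]; exact k2b_key_box D R b u E hbd l, l, hl, rfl⟩
  have hwit : ∀ k ∈ Kf, ∃ l ∈ U, key l = k := fun k hk => by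
    rw [hKf, Finset.mem_filter] at hk
    exact hk.2
  have h01 : ∀ l t, (l, t) ∈ E → 0 ≤ t ∧ t < 1 := fun l t h => ⟨(hEv _ h).1, (hEv _ h).2.1⟩
  obtain ⟨ω, hω⟩ : ∃ ω : (Fin 2 → ℤ) × (Fin 2 → ℤ) × Finset ℕ → ℝ, ω = fun k => (lam (key ⁻¹' {k} ∩ U)).toReal := ⟨_, rfl⟩
  have hω0 : ∀ k, 0 ≤ ω k := fun k => by rw [hω]; exact ENNReal.toReal_nonneg
  have hωl : ∀ k, lam (key ⁻¹' {k} ∩ U) = ENNReal.ofReal (ω k) := fun k => by
    rw [hω]
    exact (ENNReal.ofReal_toReal (measure_ne_top _ _)).symm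
  -- the hypotheses of the finite form
  have a_bd : ∀ (i : ↥Kf) (a : Fin 2), |k2bRd D i.1.1 a| ≤ R + 1 ∧ |k2bRd D i.1.2.1 a| ≤ R + 1 := by
    intro i a
    obtain ⟨l, -, hlk⟩ := hwit i.1 i.2
    rw [← hlk, hkey]
    exact ⟨k2b_rd_abs D hD _ R (hbd l a).1, k2b_rd_abs D hD _ R (hbd l a).2⟩
  have a_cap : ∀ (c v e : Fin 2 → ℝ) (α β : ℝ), e 0 ^ 2 + e 1 ^ 2 = 1 → 1 ≤ α → α ≤ β → β ≤ D →
      ∑ i : ↥Kf with K2bIn (k2bRd D i.1.1) (k2bRd D i.1.2.1) c v e (α / D) (β / D), ω i.1 ≤ 4 * A * α * β := by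
    intro c v e α β he hα hαβ hβ
    rw [Finset.sum_filter,
      Finset.sum_coe_sort Kf (fun k => if K2bIn (k2bRd D k.1) (k2bRd D k.2.1) c v e (α / D) (β / D) then ω k else 0),
      ← Finset.sum_filter]
    have hsub : ∀ k ∈ Kf.filter (fun k => K2bIn (k2bRd D k.1) (k2bRd D k.2.1) c v e (α / D) (β / D)),
        key ⁻¹' {k} ∩ U ⊆ {l | volume {t | (l, t) ∈ E} ≠ 0 ∧ K2bIn (b l) (u l) c v e (2 * α / D) (2 * β / D)} := by
      rintro k hk l ⟨hlk, hlU⟩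
      have hlk' : key l = k := hlk
      rw [hU] at hlU
      refine ⟨hlU, ?_⟩
      have hin := (Finset.mem_filter.1 hk).2
      rw [← hlk', hkey] at hin
      have hp := k2b_in_perturb (b l) (u l) _ _ c v e (α / D) (β / D) (1 / (8 * D)) he
        (fun a => k2b_rd_abs_sub D hD (b l a)) (fun a => k2b_rd_abs_sub D hD (u l a)) hin
      refine k2b_in_mono ?_ ?_ hp
      · rw [div_add' _ _ _ hD0.ne', div_le_div_iff_of_pos_right hD0]
        have : 4 * (1 / (8 * (D : ℝ))) * D = 1 / 2 := by field_simp; norm_num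
        linarith
      · rw [div_add' _ _ _ hD0.ne', div_le_div_iff_of_pos_right hD0]
        have : 4 * (1 / (8 * (D : ℝ))) * D = 1 / 2 := by field_simp; norm_num
        linarith
    have h1 := k2b_grp_sum_le lam key _ U (fun k hk => hCm k (Finset.mem_filter.1 hk).1) _ hsub
    have h2 := h1.trans (hcap c v e (2 * α) (2 * β) he (by linarith) (by linarith) (by linarith))
    have h3 : ∑ k ∈ Kf.filter (fun k => K2bIn (k2bRd D k.1) (k2bRd D k.2.1) c v e (α / D) (β / D)), ω k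
        = (∑ k ∈ Kf.filter (fun k => K2bIn (k2bRd D k.1) (k2bRd D k.2.1) c v e (α / D) (β / D)), lam (key ⁻¹' {k} ∩ U)).toReal := by
      rw [ENNReal.toReal_sum (fun _ _ => measure_ne_top _ _), hω]
    rw [h3]
    have h4 := ENNReal.toReal_mono ENNReal.ofReal_ne_top h2
    have hα0 : 0 ≤ α := by linarith
    have hβ0 : 0 ≤ β := by linarith
    rw [ENNReal.toReal_ofReal (by positivity)] at h4
    linarith
  have a_mk : ∀ i : ↥Kf, i.1.2.2 ⊆ Finset.range D ∧ (D : ℝ) ^ (1 - η) ≤ (i.1.2.2.card : ℝ) := by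
    intro i
    obtain ⟨l, hlU, hlk⟩ := hwit i.1 i.2
    have e : i.1.2.2 = k2bMk D E l := by rw [← hlk, hkey]; rfl
    rw [e]
    constructor
    · intro j hj
      exact Finset.mem_range.2 ((k2b_mem_mk D E l j).1 hj).1
    · rw [hU] at hlU
      have h1 := (hlong l).resolve_left hlU
      have h2 := h1.trans (k2b_slice_le D hD E l (h01 l))
      rw [ENNReal.ofReal_le_ofReal_iff (div_nonneg (Nat.cast_nonneg _) hD0.le), le_div_iff₀ hD0] at h2
      have e2 : (D : ℝ) ^ (1 - η) = (D : ℝ) ^ (-η) * D := by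
        rw [sub_eq_add_neg, add_comm, Real.rpow_add hD0, Real.rpow_one]
      rw [e2]
      exact h2
  have main := HH D ↥Kf (fun i => k2bRd D i.1.1) (fun i => k2bRd D i.1.2.1) (fun i => ω i.1) (4 * A) (fun i => i.1.2.2) hD a_bd
    (fun i => hω0 i.1) a_cap a_mk
  -- the visited cells
  have hcells : (Finset.univ.biUnion fun i : ↥Kf => (i.1.2.2).image (k2bCell D (k2bRd D i.1.1) (k2bRd D i.1.2.1)))
      ⊆ k2bNb ((⌈R⌉₊ + 2 : ℕ) : ℤ) Vis := by
    intro c hc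
    rw [Finset.mem_biUnion] at hc
    obtain ⟨i, -, hc⟩ := hc
    rw [Finset.mem_image] at hc
    obtain ⟨j, hj, rfl⟩ := hc
    obtain ⟨l, hlU, hlk⟩ := hwit i.1 i.2
    have e : i.1.2.2 = k2bMk D E l := by rw [← hlk, hkey]; rfl
    rw [e, k2b_mem_mk] at hj
    obtain ⟨t, htE, ht1, ht2⟩ := nonempty_of_measure_ne_zero hj.2
    obtain ⟨n1, n2⟩ := k2b_cell_near D hD R (b l) (u l) (fun a => (hbd l a).2) j hj.1 t ht1 ht2
    have hV := (hEv (l, t) htE).2.2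
    unfold k2bNb
    rw [Finset.mem_biUnion]
    refine ⟨_, hV, ?_⟩
    rw [Finset.mem_image]
    refine ⟨fun a => (k2bCell D (k2bRd D i.1.1) (k2bRd D i.1.2.1) j).2 a - (k2bCellAt D t (fun a => b l a + t * u l a)).2 a, ?_, ?_⟩
    · rw [Fintype.mem_piFinset]
      intro a
      have := n2 a
      rw [← hlk, hkey]
      push_cast
      exact this
    · refine Prod.ext ?_ ?_
      · exact n1
      · funext a
        show (k2bCellAt D t (fun a => b l a + t * u l a)).2 a + ((k2bCell D (k2bRd D i.1.1) (k2bRd D i.1.2.1) j).2 a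
          - (k2bCellAt D t (fun a => b l a + t * u l a)).2 a) = _
        ring
  have hcard : ((Finset.univ.biUnion fun i : ↥Kf => (i.1.2.2).image (k2bCell D (k2bRd D i.1.1) (k2bRd D i.1.2.1))).card : ℝ)
      ≤ (2 * ((⌈R⌉₊ + 2 : ℕ) : ℝ) + 1) ^ 2 * Vis.card := by
    refine le_trans ?_ (k2b_nb_card (⌈R⌉₊ + 2) Vis)
    exact_mod_cast Finset.card_le_card hcells
  -- the mass
  have hint : (lam.prod volume) E ≤ ∑ k ∈ Kf, ENNReal.ofReal ((k.2.2.card : ℝ) / D) * lam (key ⁻¹' {k} ∩ U) := by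
    rw [Measure.prod_apply hE]
    refine k2b_grp_lintegral lam key Kf U hCm hK (fun l => volume (Prod.mk l ⁻¹' E)) (fun k => ENNReal.ofReal ((k.2.2.card : ℝ) / D)) ?_ ?_
    · intro l hl
      rw [hU] at hl
      exact not_not.1 hl
    · intro l _
      rw [hkey]
      exact k2b_slice_le D hD E l (h01 l)
  have hsum : ∑ i : ↥Kf, ω i.1 * (i.1.2.2.card : ℝ) = ∑ k ∈ Kf, ω k * (k.2.2.card : ℝ) :=
    Finset.sum_coe_sort Kf (fun k => ω k * (k.2.2.card : ℝ))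
  calc (lam.prod volume) E * D ≤ (∑ k ∈ Kf, ENNReal.ofReal ((k.2.2.card : ℝ) / D) * lam (key ⁻¹' {k} ∩ U)) * D := by gcongr
    _ = ∑ k ∈ Kf, ENNReal.ofReal (ω k * (k.2.2.card : ℝ)) := by
        rw [Finset.sum_mul]
        refine Finset.sum_congr rfl fun k _ => ?_
        have hc0 : (0 : ℝ) ≤ (k.2.2.card : ℝ) / D := div_nonneg (Nat.cast_nonneg _) hD0.le
        rw [hωl, ← ENNReal.ofReal_natCast D, ← ENNReal.ofReal_mul hc0, ← ENNReal.ofReal_mul (mul_nonneg hc0 (hω0 k))]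
        congr 1
        rw [mul_right_comm, div_mul_cancel₀ _ hD0.ne', mul_comm]
    _ = ENNReal.ofReal (∑ k ∈ Kf, ω k * (k.2.2.card : ℝ)) :=
        (ENNReal.ofReal_sum_of_nonneg fun k _ => mul_nonneg (hω0 k) (Nat.cast_nonneg _)).symm
    _ ≤ ENNReal.ofReal (4 * C₀ * (2 * ((⌈R⌉₊ + 2 : ℕ) : ℝ) + 1) ^ 2 * A * (D : ℝ) ^ ε * Vis.card) := by
        refine ENNReal.ofReal_le_ofReal ?_
        rw [← hsum]
        refine main.trans ?_
        have hpos : 0 ≤ C₀ * (4 * A) * (D : ℝ) ^ ε := by positivity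
        calc C₀ * (4 * A) * (D : ℝ) ^ ε * _ ≤ C₀ * (4 * A) * (D : ℝ) ^ ε * ((2 * ((⌈R⌉₊ + 2 : ℕ) : ℝ) + 1) ^ 2 * Vis.card) :=
              mul_le_mul_of_nonneg_left hcard hpos
          _ = _ := by ring

end Claimed.Agent.R252
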