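import Claimed.Agent.R252.S2b.Defs
import Claimed.Agent.R252.S2b.PlankCont

/-!
# Row 252, unit S2b, file 4 (CONTRACT): the cores of Proposition 2.16 (`H(E) ≤ L`)      (architect helper264)

02-framework.tex l.937-950 (continuous laws in Lemma 2.15) and l.968-1156 at ONE scale, for ONE group `G` (world, block, midpoint label) in normalised coordinates:
`Ω` = the trajectories of the group, `lam` = the old trajectory measure on the group (NOT normalised), `b, u` = the normalised base trace, `E ⊆ Ω × [0,1)` = the (residual) incidences in normalised block time, mesh `1 / D`.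
The paper argues by contradiction ("suppose the algorithm covers less than half"); here the residual mass is bounded DIRECTLY:
  residual = (incidences in bad cells) + (short durations `≤ κ lam Ω`) + (`k2b_group2` / `k2b_group1`: `≤ C (θ/κ) D^{ε-3} #Vis`),   `#Vis ≤ m_G D³ / φ` (`k2b_cell_count`),
so the third term is `≤ C (θ / (κ φ)) D^ε m_G`;  `θ` = greedy threshold density `N^{-ξ} n(L) J₀`, `φ` = cell floor `N^{-ξ/4} n(L) J₀`.
-/

set_option autoImplicit false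

namespace Claimed.Agent.R252

open MeasureTheory
open scoped ENNReal

/-- greedy exhaustion, started from the removed set `U` -/
theorem k2b_greedy_aux {Ω P : Type} [MeasurableSpace Ω] (m : Measure Ω) [IsFiniteMeasure m] (S : P → Set Ω) (hS : ∀ p, MeasurableSet (S p))
    (τ : P → ℝ≥0∞) (τ0 : ℝ≥0∞) (hτ : ∀ p, τ0 ≤ τ p) (N : ℕ) :
    ∀ U : Set Ω, MeasurableSet U → m Uᶜ < N * τ0 →
    ∃ (n : ℕ) (p : Fin n → P) (A : Fin n → Set Ω), (∀ i, MeasurableSet (A i)) ∧ (∀ i, A i ⊆ S (p i)) ∧ (∀ i, Disjoint (A i) U) ∧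
      (∀ i i', i ≠ i' → Disjoint (A i) (A i')) ∧ (∀ i, τ (p i) ≤ m (A i)) ∧ U ∪ (⋃ i, A i) = U ∪ (⋃ i, S (p i)) ∧
      (∀ q, m (S q \ (U ∪ ⋃ i, A i)) < τ q) := by
  induction N with
  | zero =>
    intro U _ h
    simp at h
  | succ N ih =>
    intro U hU hm
    by_cases hstop : ∀ q, m (S q \ U) < τ q
    · refine ⟨0, Fin.elim0, Fin.elim0, fun i => i.elim0, fun i => i.elim0, fun i => i.elim0, fun i => i.elim0, fun i => i.elim0, ?_, ?_⟩
      · simp
      · intro q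
        simpa using hstop q
    · push Not at hstop
      obtain ⟨q, hq⟩ := hstop
      have hA0 : MeasurableSet (S q \ U) := (hS q).diff hU
      have hU' : MeasurableSet (U ∪ S q) := hU.union (hS q)
      have hsplit : m (U ∪ S q)ᶜ + m (S q \ U) = m Uᶜ := by
        rw [← measure_union _ hA0]
        · congr 1
          ext x
          simp only [Set.mem_union, Set.mem_compl_iff, Set.mem_sdiff]
          tauto
        · rw [Set.disjoint_left]
          intro x hx hx'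
          exact hx (Or.inr hx'.1)
      have hm' : m (U ∪ S q)ᶜ < N * τ0 := by
        have h1 : m (U ∪ S q)ᶜ + m (S q \ U) < N * τ0 + m (S q \ U) := by
          rw [hsplit]
          refine lt_of_lt_of_le hm ?_
          push_cast
          rw [add_mul, one_mul]
          gcongr
          exact (hτ q).trans hq
        exact (ENNReal.add_lt_add_iff_right (measure_ne_top m _)).1 h1
      obtain ⟨n, p, A, a1, a2, a3, a4, a5, a6, a7⟩ := ih (U ∪ S q) hU' hm'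
      have eA : U ∪ (⋃ i, (Fin.cons (S q \ U) A : Fin (n + 1) → Set Ω) i) = (U ∪ S q) ∪ ⋃ i, A i := by
        ext x
        simp only [Set.mem_union, Set.mem_iUnion, Fin.exists_fin_succ, Fin.cons_zero, Fin.cons_succ, Set.mem_sdiff]
        tauto
      have eS : U ∪ (⋃ i, S ((Fin.cons q p : Fin (n + 1) → P) i)) = (U ∪ S q) ∪ ⋃ i, S (p i) := by
        ext x
        simp only [Set.mem_union, Set.mem_iUnion, Fin.exists_fin_succ, Fin.cons_zero, Fin.cons_succ]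
        tauto
      refine ⟨n + 1, Fin.cons q p, Fin.cons (S q \ U) A, ?_, ?_, ?_, ?_, ?_, ?_, ?_⟩
      · intro i
        refine Fin.cases ?_ (fun i => ?_) i
        · simpa using hA0
        · simpa using a1 i
      · intro i
        refine Fin.cases ?_ (fun i => ?_) i
        · simp
        · simpa using a2 i
      · intro i
        refine Fin.cases ?_ (fun i => ?_) i
        · simpa using Set.disjoint_sdiff_left
        · simpa using (a3 i).mono_right Set.subset_union_left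
      · intro i i'
        refine Fin.cases ?_ (fun i => ?_) i <;> refine Fin.cases ?_ (fun i' => ?_) i'
        · intro h
          exact absurd rfl h
        · intro _
          simp only [Fin.cons_zero, Fin.cons_succ]
          exact ((a3 i').mono_right (Set.sdiff_subset.trans Set.subset_union_right)).symm
        · intro _
          simp only [Fin.cons_zero, Fin.cons_succ]
          exact (a3 i).mono_right (Set.sdiff_subset.trans Set.subset_union_right)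
        · intro h
          simp only [Fin.cons_succ]
          exact a4 i i' (fun h' => h (by rw [h']))
      · intro i
        refine Fin.cases ?_ (fun i => ?_) i
        · simpa using hq
        · simpa using a5 i
      · rw [eA, eS, a6]
      · intro q'
        rw [eA]
        exact a7 q'

/-- **LEAF L-252-S2b-P1: greedy exhaustion** (02 l.1020-1050).   `m` = incidence mass as a measure on trajectories, `S p` = the trajectories wholly contained in the plank `p`, `τ p` = its threshold, `τ0` = the least threshold.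
Induction on `n` for the statement: for all measurable `U` with `m Uᶜ < n τ0` there is a list … starting from the removed set `U`:  if no `q` has `τ q ≤ m (S q \ U)` stop;  otherwise `U' = U ∪ S q`, `m U'ᶜ ≤ m Uᶜ - τ0`. -/
theorem k2b_greedy {Ω P : Type} [MeasurableSpace Ω] (m : Measure Ω) [IsFiniteMeasure m] (S : P → Set Ω) (hS : ∀ p, MeasurableSet (S p))
    (τ : P → ℝ≥0∞) (τ0 : ℝ≥0∞) (h0 : 0 < τ0) (hτ : ∀ p, τ0 ≤ τ p) :
    ∃ (n : ℕ) (p : Fin n → P) (A : Fin n → Set Ω), (∀ i, MeasurableSet (A i)) ∧ (∀ i, A i ⊆ S (p i)) ∧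
      (∀ i i', i ≠ i' → Disjoint (A i) (A i')) ∧ (∀ i, τ (p i) ≤ m (A i)) ∧ (⋃ i, A i) = (⋃ i, S (p i)) ∧
      (∀ q, m (S q \ ⋃ i, A i) < τ q) ∧ (n : ℝ≥0∞) * τ0 ≤ m Set.univ := by
  obtain ⟨N, hN⟩ := ENNReal.exists_nat_mul_gt h0.ne' (measure_ne_top m Set.univ)
  obtain ⟨n, p, A, a1, a2, -, a4, a5, a6, a7⟩ := k2b_greedy_aux m S hS τ τ0 hτ N ∅ MeasurableSet.empty (by simpa using hN)
  simp only [Set.empty_union] at a6 a7
  refine ⟨n, p, A, a1, a2, a4, a5, a6, a7, ?_⟩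
  calc (n : ℝ≥0∞) * τ0 = ∑ _i : Fin n, τ0 := by simp
    _ ≤ ∑ i : Fin n, m (A i) := Finset.sum_le_sum fun i _ => (hτ (p i)).trans (a5 i)
    _ = m (⋃ i, A i) := by
      rw [measure_iUnion (fun i i' h => a4 i i' h) a1, tsum_fintype]
    _ ≤ m Set.univ := measure_mono (Set.subset_univ _)

/-- **LEAF L-252-S2b-P2: Lemma 2.15 for a continuous law** (02 l.937-950).   `η, C₀` from `H (R + 1) ε`.   Round `(b l, u l)` to the grid of mesh `1 / (8 D)` (finitely many values because of `R`), `J l = {j < D | volume {t ∈ bin j | (l, t) ∈ E} ≠ 0}` (measurable in `l`: `measurable_measure_prodMk_left`).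
Index set = the pairs (rounded coefficients, mark set) whose class contains a USED `l` (a subtype of a `Fintype`; empty classes must be left out, they would add visited cells), `ω` = `(lam (class ∩ used)).toReal`, trace = the rounded coefficients.
* marks: `volume (E_l) ≤ #J l / D`, so `#J l ≥ D^{1-η}` on the used `l`;     `(lam.prod volume) E = ∫⁻ volume (E_l) ≤ ∑ ω #J / D`.
* cap: rounded trace in the plank `(α/D, β/D)` ⟹ true trace in the plank `((α + 1/2)/D, (β + 1/2)/D) ⊆ (2α/D, 2β/D)`:  cap `4 A α β`.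
* cells: for `j ∈ J l` there is `t` in the bin with `(l, t) ∈ E`; the cell of the rounded trace at `j / D` differs from `k2bCellAt D t (y_l(t)) ∈ Vis` by at most `R + 2` in each coordinate:  `#E_vis ≤ (2 R + 5)^2 #Vis` (use `⌈R⌉`). -/
theorem k2b_plank_cont (H : K2bPlankFin) (R ε : ℝ) (hR : 0 ≤ R) (hε : 0 < ε) : ∃ η C : ℝ, 0 < η ∧ 0 < C ∧
    ∀ (D : ℕ) (Ω : Type) [MeasurableSpace Ω] (lam : Measure Ω) [IsFiniteMeasure lam] (b u : Ω → Fin 2 → ℝ) (E : Set (Ω × ℝ))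
      (A : ℝ) (Vis : Finset (ℕ × (Fin 2 → ℤ))),
      1 ≤ D → Measurable b → Measurable u → MeasurableSet E → 0 ≤ A → (∀ l a, |b l a| ≤ R ∧ |u l a| ≤ R) →
      (∀ x ∈ E, 0 ≤ x.2 ∧ x.2 < 1 ∧ k2bCellAt D x.2 (fun a => b x.1 a + x.2 * u x.1 a) ∈ Vis) →
      (∀ l, volume {t | (l, t) ∈ E} = 0 ∨ ENNReal.ofReal ((D : ℝ) ^ (-η)) ≤ volume {t | (l, t) ∈ E}) →
      (∀ (c v e : Fin 2 → ℝ) (α β : ℝ), e 0 ^ 2 + e 1 ^ 2 = 1 → 1 ≤ α → α ≤ β → β ≤ 2 * D →
        lam {l | volume {t | (l, t) ∈ E} ≠ 0 ∧ K2bIn (b l) (u l) c v e (α / D) (β / D)} ≤ ENNReal.ofReal (A * α * β)) →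
      (lam.prod volume) E * D ≤ ENNReal.ofReal (C * A * (D : ℝ) ^ ε * Vis.card) := by
  exact k2b_plank_cont_aux H R ε hR hε

theorem k2b_cellAt_meas {Ω : Type} [MeasurableSpace Ω] (D : ℕ) (b u : Ω → Fin 2 → ℝ) (hb : Measurable b) (hu : Measurable u) :
    Measurable fun x : Ω × ℝ => k2bCellAt D x.2 (fun a => b x.1 a + x.2 * u x.1 a) := by
  unfold k2bCellAt
  refine Measurable.prodMk ?_ ?_
  · exact (measurable_snd.mul_const _).nat_floor
  · refine measurable_pi_lambda _ fun a => ?_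
    refine Measurable.floor ?_
    refine Measurable.mul_const ?_ _
    exact ((measurable_pi_apply a).comp (hb.comp measurable_fst)).add
      (measurable_snd.mul ((measurable_pi_apply a).comp (hu.comp measurable_fst)))

/-- **LEAF L-252-S2b-P3: the residual of one group, version 2** (`j = 2`; 02 l.1052-1110, 1132-1143).   `stop` = the stopping rule of the greedy algorithm with threshold density `θ` (physical half widths `α ≤ β` in `[1/D, 2]`).
`E' = {(l, t) ∈ E | cell ∈ Vis, l long}` where `l` is long if `κ ≤ volume (good l)`.   Apply `k2b_plank_cont` to `E'` with `A = θ / (κ D²)`: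
`lam {l long, in the plank (α/D, β/D)} ≤ κ⁻¹ ∫⁻_{plank} volume (E_l) ≤ θ α β / (κ D²)` (Markov: `mul_meas_ge_le_lintegral`-type).   The set `{l | K2bIn …}` is measurable (closed conditions at rational `t`, or: equivalent to the conditions at `t = 0, 1` by convexity). -/
theorem k2b_group2 (H : K2bPlankFin) (R ε : ℝ) (hR : 0 ≤ R) (hε : 0 < ε) : ∃ η C : ℝ, 0 < η ∧ 0 < C ∧
    ∀ (D : ℕ) (Ω : Type) [MeasurableSpace Ω] (lam : Measure Ω) [IsFiniteMeasure lam] (b u : Ω → Fin 2 → ℝ) (E : Set (Ω × ℝ))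
      (θ κ : ℝ) (Vis : Finset (ℕ × (Fin 2 → ℤ))),
      1 ≤ D → Measurable b → Measurable u → MeasurableSet E → 0 ≤ θ → (D : ℝ) ^ (-η) ≤ κ → (∀ l a, |b l a| ≤ R ∧ |u l a| ≤ R) →
      (∀ x ∈ E, 0 ≤ x.2 ∧ x.2 < 1) →
      (∀ (c v e : Fin 2 → ℝ) (α β : ℝ), e 0 ^ 2 + e 1 ^ 2 = 1 → 1 / (D : ℝ) ≤ α → α ≤ β → β ≤ 2 →
        ∫⁻ l in {l | K2bIn (b l) (u l) c v e α β}, volume {t | (l, t) ∈ E} ∂lam ≤ ENNReal.ofReal (θ * α * β)) →
      ∫⁻ l in {l | ENNReal.ofReal κ ≤ volume {t | (l, t) ∈ E ∧ k2bCellAt D t (fun a => b l a + t * u l a) ∈ Vis}},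
          volume {t | (l, t) ∈ E ∧ k2bCellAt D t (fun a => b l a + t * u l a) ∈ Vis} ∂lam
        ≤ ENNReal.ofReal (C * θ / κ * (D : ℝ) ^ (ε - 3) * Vis.card) := by
  obtain ⟨η, C, hη, hC, hP⟩ := k2b_plank_cont H R ε hR hε
  refine ⟨η, C, hη, hC, ?_⟩
  intro D Ω _ lam _ b u E θ κ Vis hD hb hu hE hθ hκ hbd hE01 hstop
  have hD0 : (0 : ℝ) < D := by exact_mod_cast hD
  have hκ0 : 0 < κ := lt_of_lt_of_le (Real.rpow_pos_of_pos hD0 _) hκ
  obtain ⟨good, hgood⟩ : ∃ good : Set (Ω × ℝ), good = {x | x ∈ E ∧ k2bCellAt D x.2 (fun a => b x.1 a + x.2 * u x.1 a) ∈ Vis} := ⟨_, rfl⟩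
  have hgm : MeasurableSet good := by
    rw [hgood]
    exact hE.inter ((k2b_cellAt_meas D b u hb hu) (Finset.measurableSet Vis))
  obtain ⟨g, hg⟩ : ∃ g : Ω → ℝ≥0∞, g = fun l => volume {t | (l, t) ∈ good} := ⟨_, rfl⟩
  have hgmeas : Measurable g := by
    rw [hg]
    exact measurable_measure_prodMk_left hgm
  obtain ⟨Long, hLong⟩ : ∃ Long : Set Ω, Long = {l | ENNReal.ofReal κ ≤ g l} := ⟨_, rfl⟩
  have hLm : MeasurableSet Long := by
    rw [hLong]
    exact measurableSet_le measurable_const hgmeas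
  have hgoal : ∫⁻ l in {l | ENNReal.ofReal κ ≤ volume {t | (l, t) ∈ E ∧ k2bCellAt D t (fun a => b l a + t * u l a) ∈ Vis}},
      volume {t | (l, t) ∈ E ∧ k2bCellAt D t (fun a => b l a + t * u l a) ∈ Vis} ∂lam = ∫⁻ l in Long, g l ∂lam := by
    rw [hLong, hg, hgood]
    rfl
  rw [hgoal]
  obtain ⟨E', hE'⟩ : ∃ E' : Set (Ω × ℝ), E' = good ∩ (Long ×ˢ Set.univ) := ⟨_, rfl⟩
  have hE'm : MeasurableSet E' := by
    rw [hE']
    exact hgm.inter (hLm.prod MeasurableSet.univ)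
  have hsec : ∀ l, volume {t | (l, t) ∈ E'} = Long.indicator g l := by
    intro l
    by_cases hl : l ∈ Long
    · rw [Set.indicator_of_mem hl, hg]
      congr 1
      ext t
      simp [hE', hl]
    · rw [Set.indicator_of_notMem hl]
      have : {t | (l, t) ∈ E'} = ∅ := by
        ext t
        simp [hE', hl]
      rw [this, measure_empty]
  have hprod : (lam.prod volume) E' = ∫⁻ l in Long, g l ∂lam := by
    rw [Measure.prod_apply hE'm, ← lintegral_indicator hLm]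
    exact lintegral_congr fun l => hsec l
  have hgE : ∀ l, g l ≤ volume {t | (l, t) ∈ E} := by
    intro l
    rw [hg]
    refine measure_mono fun t ht => ?_
    rw [hgood] at ht
    exact ht.1
  have key := hP D Ω lam b u E' (θ / (κ * (D : ℝ) ^ 2)) Vis hD hb hu hE'm (by positivity) hbd ?_ ?_ ?_
  · rw [hprod] at key
    have e : C * (θ / (κ * (D : ℝ) ^ 2)) * (D : ℝ) ^ ε * Vis.card = C * θ / κ * (D : ℝ) ^ (ε - 3) * Vis.card * D := by
      rw [Real.rpow_sub hD0]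
      have : (D : ℝ) ^ (3 : ℝ) = (D : ℝ) ^ 3 := by
        rw [← Real.rpow_natCast]
        norm_num
      rw [this]
      field_simp
    rw [e, ENNReal.ofReal_mul (by positivity), ENNReal.ofReal_natCast] at key
    exact (ENNReal.mul_le_mul_iff_left (by exact_mod_cast (Nat.pos_iff_ne_zero.1 hD)) (ENNReal.natCast_ne_top D)).1 key
  · intro x hx
    rw [hE', hgood] at hx
    exact ⟨(hE01 x hx.1.1).1, (hE01 x hx.1.1).2, hx.1.2⟩
  · intro l
    rw [hsec l]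
    by_cases hl : l ∈ Long
    · right
      rw [Set.indicator_of_mem hl]
      rw [hLong] at hl
      exact (ENNReal.ofReal_le_ofReal hκ).trans hl
    · left
      exact Set.indicator_of_notMem hl _
  · intro c v e α β he h1 hαβ hβ
    have hs := hstop c v e (α / D) (β / D) he (div_le_div_of_nonneg_right h1 hD0.le) (div_le_div_of_nonneg_right hαβ hD0.le)
      (by rw [div_le_iff₀ hD0]; exact hβ)
    obtain ⟨Pl, hPl⟩ : ∃ Pl : Set Ω, Pl = {l | K2bIn (b l) (u l) c v e (α / D) (β / D)} := ⟨_, rfl⟩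
    rw [← hPl] at hs
    have hsub : {l | volume {t | (l, t) ∈ E'} ≠ 0 ∧ K2bIn (b l) (u l) c v e (α / D) (β / D)} ⊆ Long ∩ Pl := by
      rintro l ⟨h1, h2⟩
      refine ⟨?_, by rw [hPl]; exact h2⟩
      by_contra hl
      rw [hsec l, Set.indicator_of_notMem hl] at h1
      exact h1 rfl
    refine (measure_mono hsub).trans ?_
    rw [← Measure.restrict_apply hLm]
    have hmk := mul_meas_ge_le_lintegral (μ := lam.restrict Pl) hgmeas (ENNReal.ofReal κ)
    rw [← hLong] at hmk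
    have h3 : ENNReal.ofReal κ * (lam.restrict Pl) Long ≤ ENNReal.ofReal (θ * (α / D) * (β / D)) :=
      hmk.trans ((lintegral_mono fun l => hgE l).trans hs)
    have e : θ * (α / D) * (β / D) = κ * (θ / (κ * (D : ℝ) ^ 2) * α * β) := by
      field_simp
    rw [e, ENNReal.ofReal_mul hκ0.le] at h3
    exact (ENNReal.mul_le_mul_iff_right (by rw [Ne, ENNReal.ofReal_eq_zero, not_le]; exact hκ0) ENNReal.ofReal_ne_top).1 h3

/-- **LEAF L-252-S2b-P4: chord times projection of a rectangle** (02 l.1112-1131).   `x = ξ e + ζ e^⊥`, `|ξ| ≤ α`, `|ζ| ≤ β`:  (i) `|x 0| ≤ W := α |e 0| + β |e 1|`;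
(ii) for fixed `x 0` the admissible `x 1` form a set of length `≤ 2 min (α / |e 1|) (β / |e 0|)`, and `W · 2 min(…) ≤ 4 α β`  (cases `e 0 = 0`, `e 1 = 0`). -/
theorem k2b_rect_chord (e : Fin 2 → ℝ) (α β x0 : ℝ) (he : e 0 ^ 2 + e 1 ^ 2 = 1) (hα : 0 < α) (hβ : 0 < β) :
    volume {x1 : ℝ | |x0 * e 0 + x1 * e 1| ≤ α ∧ |-x0 * e 1 + x1 * e 0| ≤ β}
      ≤ ENNReal.ofReal (4 * α * β / (α * |e 0| + β * |e 1|)) := by
  have hW : 0 < α * |e 0| + β * |e 1| := by
    by_cases h0 : e 0 = 0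
    · have h1 : e 1 ≠ 0 := by
        intro h1
        rw [h0, h1] at he
        norm_num at he
      have := mul_pos hβ (abs_pos.2 h1)
      have := mul_nonneg hα.le (abs_nonneg (e 0))
      linarith
    · have := mul_pos hα (abs_pos.2 h0)
      have := mul_nonneg hβ.le (abs_nonneg (e 1))
      linarith
  refine (Real.volume_le_diam _).trans (Metric.ediam_le fun x hx y hy => ?_)
  rw [edist_dist, Real.dist_eq]
  refine ENNReal.ofReal_le_ofReal ?_
  rw [le_div_iff₀ hW]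
  obtain ⟨hx1, hx2⟩ := hx
  obtain ⟨hy1, hy2⟩ := hy
  have d1 : |x - y| * |e 1| ≤ 2 * α := by
    rw [← abs_mul]
    have : (x - y) * e 1 = (x0 * e 0 + x * e 1) - (x0 * e 0 + y * e 1) := by ring
    rw [this]
    calc |(x0 * e 0 + x * e 1) - (x0 * e 0 + y * e 1)| ≤ |x0 * e 0 + x * e 1| + |x0 * e 0 + y * e 1| := abs_sub _ _
      _ ≤ 2 * α := by linarith
  have d2 : |x - y| * |e 0| ≤ 2 * β := by
    rw [← abs_mul]
    have : (x - y) * e 0 = (-x0 * e 1 + x * e 0) - (-x0 * e 1 + y * e 0) := by ring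
    rw [this]
    calc |(-x0 * e 1 + x * e 0) - (-x0 * e 1 + y * e 0)| ≤ |-x0 * e 1 + x * e 0| + |-x0 * e 1 + y * e 0| := abs_sub _ _
      _ ≤ 2 * β := by linarith
  have e1 := mul_le_mul_of_nonneg_left d1 hβ.le
  have e2 := mul_le_mul_of_nonneg_left d2 hα.le
  nlinarith

theorem k2b_rect_proj (e : Fin 2 → ℝ) (α β x0 x1 : ℝ) (he : e 0 ^ 2 + e 1 ^ 2 = 1)
    (h1 : |x0 * e 0 + x1 * e 1| ≤ α) (h2 : |-x0 * e 1 + x1 * e 0| ≤ β) : |x0| ≤ α * |e 0| + β * |e 1| := by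
  have hx : x0 = (x0 * e 0 + x1 * e 1) * e 0 - (-x0 * e 1 + x1 * e 0) * e 1 := by
    have : (x0 * e 0 + x1 * e 1) * e 0 - (-x0 * e 1 + x1 * e 0) * e 1 = x0 * (e 0 ^ 2 + e 1 ^ 2) := by ring
    rw [this, he, mul_one]
  calc |x0| = |(x0 * e 0 + x1 * e 1) * e 0 - (-x0 * e 1 + x1 * e 0) * e 1| := by rw [← hx]
    _ ≤ |(x0 * e 0 + x1 * e 1) * e 0| + |(-x0 * e 1 + x1 * e 0) * e 1| := abs_sub _ _
    _ = |x0 * e 0 + x1 * e 1| * |e 0| + |-x0 * e 1 + x1 * e 0| * |e 1| := by rw [abs_mul, abs_mul]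
    _ ≤ α * |e 0| + β * |e 1| :=
        add_le_add (mul_le_mul_of_nonneg_right h1 (abs_nonneg _)) (mul_le_mul_of_nonneg_right h2 (abs_nonneg _))

/-- a scalar trace stays in a strip iff it does at the two end points -/
theorem k2b_g1_in1_iff (b u c v α : ℝ) : K2bIn1 b u c v α ↔ |b - c| ≤ α ∧ |b + u - c - v| ≤ α := by
  constructor
  · intro h
    have h0 := h 0 ⟨le_rfl, zero_le_one⟩
    have h1 := h 1 ⟨zero_le_one, le_rfl⟩
    have e0 : b + 0 * u - c - 0 * v = b - c := by ring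
    have e1 : b + 1 * u - c - 1 * v = b + u - c - v := by ring
    rw [e0] at h0
    rw [e1] at h1
    exact ⟨h0, h1⟩
  · rintro ⟨h0, h1⟩ t ⟨ht0, ht1⟩
    have e : b + t * u - c - t * v = (1 - t) * (b - c) + t * (b + u - c - v) := by ring
    obtain ⟨a0, a1⟩ := abs_le.1 h0
    obtain ⟨b0, b1⟩ := abs_le.1 h1
    rw [e, abs_le]
    constructor <;> nlinarith

/-- membership in the padded set of cells -/
theorem k2b_g1_mem (D : ℕ) (Vis : Finset (ℕ × ℤ)) (t : ℝ) (y : Fin 2 → ℝ) (h1 : 0 ≤ y 1) (h2 : y 1 ≤ 1) :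
    k2bCellAt D t y ∈ (Vis ×ˢ Finset.Icc (0 : ℤ) D).image (fun q : (ℕ × ℤ) × ℤ => ((q.1.1, ![q.1.2, q.2]) : ℕ × (Fin 2 → ℤ)))
      ↔ ((⌊t * D⌋₊, ⌊y 0 * D⌋) : ℕ × ℤ) ∈ Vis := by
  unfold k2bCellAt
  rw [Finset.mem_image]
  constructor
  · rintro ⟨q, hq, he⟩
    have hq1 := (Finset.mem_product.1 hq).1
    have e1 : q.1.1 = ⌊t * D⌋₊ := congrArg Prod.fst he
    have e2 : (![q.1.2, q.2] : Fin 2 → ℤ) = fun a => ⌊y a * D⌋ := congrArg Prod.snd he
    have e3 : q.1.2 = ⌊y 0 * D⌋ := congrFun e2 0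
    rw [← e1, ← e3]
    exact hq1
  · intro h
    refine ⟨((⌊t * D⌋₊, ⌊y 0 * D⌋), ⌊y 1 * D⌋), Finset.mem_product.2 ⟨h, ?_⟩, ?_⟩
    · have hD0 : (0 : ℝ) ≤ D := Nat.cast_nonneg D
      rw [Finset.mem_Icc]
      constructor
      · exact Int.floor_nonneg.2 (mul_nonneg h1 hD0)
      · have h3 : ((⌊y 1 * D⌋ : ℤ) : ℝ) ≤ ((D : ℤ) : ℝ) := by
          push_cast
          exact (Int.floor_le _).trans (mul_le_of_le_one_left hD0 h2)
        exact_mod_cast h3
    · refine Prod.ext rfl ?_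
      funext a
      fin_cases a <;> rfl

theorem k2b_g1_card (D : ℕ) (hD : 1 ≤ D) (Vis : Finset (ℕ × ℤ)) :
    ((Vis ×ˢ Finset.Icc (0 : ℤ) D).image (fun q : (ℕ × ℤ) × ℤ => ((q.1.1, ![q.1.2, q.2]) : ℕ × (Fin 2 → ℤ)))).card ≤ 2 * D * Vis.card := by
  refine Finset.card_image_le.trans ?_
  rw [Finset.card_product, Int.card_Icc]
  have e : ((D : ℤ) + 1 - 0).toNat = D + 1 := by omega
  rw [e]
  nlinarith [Nat.zero_le Vis.card]

/-- a function of the first coordinate under a product with a probability measure -/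
theorem k2b_g1_fst {Ω : Type} [MeasurableSpace Ω] (lam : Measure Ω) [IsFiniteMeasure lam] (ν : Measure ℝ) [IsProbabilityMeasure ν]
    (h : Ω → ℝ≥0∞) (hh : Measurable h) : ∫⁻ x, h x.1 ∂(lam.prod ν) = ∫⁻ l, h l ∂lam := by
  rw [lintegral_prod (fun x : Ω × ℝ => h x.1) (hh.comp measurable_fst).aemeasurable]
  simp

/-- the stopping rule of the padded family -/
theorem k2b_g1_stop {Ω : Type} [MeasurableSpace Ω] (lam : Measure Ω) [IsFiniteMeasure lam] (D : ℕ) (hD : 1 ≤ D) (b u : Ω → ℝ)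
    (hb : Measurable b) (hu : Measurable u) (E : Set (Ω × ℝ)) (hE : MeasurableSet E) (θ : ℝ) (hθ : 0 ≤ θ)
    (hstop : ∀ (c v α : ℝ), 1 / (D : ℝ) ≤ α → α ≤ 4 →
        ∫⁻ l in {l | K2bIn1 (b l) (u l) c v α}, volume {t | (l, t) ∈ E} ∂lam ≤ ENNReal.ofReal (θ * α))
    (c v e : Fin 2 → ℝ) (α β : ℝ) (he : e 0 ^ 2 + e 1 ^ 2 = 1) (hα : 1 / (D : ℝ) ≤ α) (hαβ : α ≤ β) (hβ : β ≤ 2) :
    ∫⁻ x in {x : Ω × ℝ | K2bIn ![b x.1, max 0 (min x.2 1)] ![u x.1, 0] c v e α β}, volume {t | (x.1, t) ∈ E}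
        ∂(lam.prod (volume.restrict (Set.Ico (0 : ℝ) 1))) ≤ ENNReal.ofReal (4 * θ * α * β) := by
  have hD0 : (0 : ℝ) < D := by exact_mod_cast hD
  have hα0 : 0 < α := lt_of_lt_of_le (by positivity) hα
  have hβ0 : 0 < β := lt_of_lt_of_le hα0 hαβ
  have a0 : 0 ≤ |e 0| := abs_nonneg _
  have a1 : 0 ≤ |e 1| := abs_nonneg _
  have hsq : |e 0| ^ 2 + |e 1| ^ 2 = 1 := by rw [sq_abs, sq_abs]; exact he
  have b0 : |e 0| ≤ 1 := by nlinarith
  have b1 : |e 1| ≤ 1 := by nlinarith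
  have hs1 : 1 ≤ |e 0| + |e 1| := by nlinarith
  obtain ⟨W, hW⟩ : ∃ W : ℝ, W = α * |e 0| + β * |e 1| := ⟨_, rfl⟩
  have hWα : α ≤ W := by rw [hW]; nlinarith
  have hW1 : 1 / (D : ℝ) ≤ W := hα.trans hWα
  have hW4 : W ≤ 4 := by rw [hW]; nlinarith
  have hW0 : 0 < W := lt_of_lt_of_le hα0 hWα
  obtain ⟨FE, hFE⟩ : ∃ FE : Ω → ℝ≥0∞, FE = fun l => volume {t | (l, t) ∈ E} := ⟨_, rfl⟩
  have hFEm : Measurable FE := by
    rw [hFE]
    exact measurable_measure_prodMk_left hE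
  obtain ⟨SW, hSW⟩ : ∃ SW : Set Ω, SW = {l | K2bIn1 (b l) (u l) (c 0) (v 0) W} := ⟨_, rfl⟩
  have hSWm : MeasurableSet SW := by
    have e1 : SW = {l | |b l - c 0| ≤ W} ∩ {l | |b l + u l - c 0 - v 0| ≤ W} := by
      rw [hSW]
      ext l
      exact k2b_g1_in1_iff _ _ _ _ _
    rw [e1]
    exact (measurableSet_le (by fun_prop) measurable_const).inter (measurableSet_le (by fun_prop) measurable_const)
  obtain ⟨Ch, hCh⟩ : ∃ Ch : Set (Ω × ℝ), Ch = {x | |(b x.1 - c 0) * e 0 + (max 0 (min x.2 1) - c 1) * e 1| ≤ α ∧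
      |-(b x.1 - c 0) * e 1 + (max 0 (min x.2 1) - c 1) * e 0| ≤ β} := ⟨_, rfl⟩
  have hChm : MeasurableSet Ch := by
    have e1 : Ch = {x | |(b x.1 - c 0) * e 0 + (max 0 (min x.2 1) - c 1) * e 1| ≤ α} ∩
      {x | |-(b x.1 - c 0) * e 1 + (max 0 (min x.2 1) - c 1) * e 0| ≤ β} := by
      rw [hCh]
      rfl
    rw [e1]
    exact (measurableSet_le (by fun_prop) measurable_const).inter (measurableSet_le (by fun_prop) measurable_const)
  obtain ⟨T', hT'⟩ : ∃ T' : Set (Ω × ℝ), T' = (Prod.fst ⁻¹' SW) ∩ Ch := ⟨_, rfl⟩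
  have hT'm : MeasurableSet T' := by
    rw [hT']
    exact (measurable_fst hSWm).inter hChm
  have hsub : {x : Ω × ℝ | K2bIn ![b x.1, max 0 (min x.2 1)] ![u x.1, 0] c v e α β} ⊆ T' := by
    intro x hx
    rw [hT']
    constructor
    · show x.1 ∈ SW
      rw [hSW]
      intro t ht
      obtain ⟨h1, h2⟩ := hx t ht
      rw [hW]
      exact k2b_rect_proj e α β _ _ he h1 h2
    · rw [hCh]
      obtain ⟨h1, h2⟩ := hx 0 ⟨le_rfl, zero_le_one⟩
      have e1 : (![b x.1, max 0 (min x.2 1)] : Fin 2 → ℝ) 0 + 0 * (![u x.1, 0] : Fin 2 → ℝ) 0 - c 0 - 0 * v 0 = b x.1 - c 0 := by simp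
      have e2 : (![b x.1, max 0 (min x.2 1)] : Fin 2 → ℝ) 1 + 0 * (![u x.1, 0] : Fin 2 → ℝ) 1 - c 1 - 0 * v 1 = max 0 (min x.2 1) - c 1 := by simp
      rw [e1, e2] at h1 h2
      exact ⟨h1, h2⟩
  have hsec : ∀ l, (volume.restrict (Set.Ico (0 : ℝ) 1)) {z | (l, z) ∈ Ch} ≤ ENNReal.ofReal (4 * α * β / W) := by
    intro l
    rw [Measure.restrict_apply' measurableSet_Ico]
    have h1 : {z | (l, z) ∈ Ch} ∩ Set.Ico (0 : ℝ) 1 ⊆ (fun z => z + (-c 1)) ⁻¹'
        {x1 : ℝ | |(b l - c 0) * e 0 + x1 * e 1| ≤ α ∧ |-(b l - c 0) * e 1 + x1 * e 0| ≤ β} := by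
      rintro z ⟨hz, hz0, hz1⟩
      rw [hCh] at hz
      have e3 : max 0 (min z 1) = z := by
        rw [min_eq_left hz1.le, max_eq_right hz0]
      have hz' : |(b l - c 0) * e 0 + (max 0 (min z 1) - c 1) * e 1| ≤ α ∧
        |-(b l - c 0) * e 1 + (max 0 (min z 1) - c 1) * e 0| ≤ β := hz
      rw [e3] at hz'
      show |(b l - c 0) * e 0 + (z + -c 1) * e 1| ≤ α ∧ |-(b l - c 0) * e 1 + (z + -c 1) * e 0| ≤ β
      rw [← sub_eq_add_neg]
      exact hz'
    refine (measure_mono h1).trans ?_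
    rw [measure_preimage_add_right, hW]
    exact k2b_rect_chord e α β (b l - c 0) he hα0 hβ0
  have hinner : ∀ l, ∫⁻ z, T'.indicator (fun x => FE x.1) (l, z) ∂(volume.restrict (Set.Ico (0 : ℝ) 1))
      ≤ SW.indicator (fun l => FE l * ENNReal.ofReal (4 * α * β / W)) l := by
    intro l
    by_cases hl : l ∈ SW
    · rw [Set.indicator_of_mem hl]
      have e1 : ∀ z, T'.indicator (fun x => FE x.1) (l, z) = {z | (l, z) ∈ Ch}.indicator (fun _ => FE l) z := by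
        intro z
        by_cases hz : (l, z) ∈ Ch
        · rw [Set.indicator_of_mem (show (l, z) ∈ T' by rw [hT']; exact ⟨hl, hz⟩), Set.indicator_of_mem (show z ∈ {z | (l, z) ∈ Ch} from hz)]
        · rw [Set.indicator_of_notMem (show (l, z) ∉ T' by rw [hT']; exact fun h => hz h.2),
            Set.indicator_of_notMem (show z ∉ {z | (l, z) ∈ Ch} from hz)]
      simp only [e1]
      exact (lintegral_indicator_const_le _ _).trans (mul_le_mul' le_rfl (hsec l))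
    · rw [Set.indicator_of_notMem hl]
      have e1 : ∀ z, T'.indicator (fun x => FE x.1) (l, z) = 0 := by
        intro z
        exact Set.indicator_of_notMem (show (l, z) ∉ T' by rw [hT']; exact fun h => hl h.1) _
      simp only [e1, lintegral_zero, le_refl]
  have hgoal : ∀ x : Ω × ℝ, volume {t | (x.1, t) ∈ E} = FE x.1 := by
    intro x
    rw [hFE]
  simp only [hgoal]
  calc ∫⁻ x in {x : Ω × ℝ | K2bIn ![b x.1, max 0 (min x.2 1)] ![u x.1, 0] c v e α β}, FE x.1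
        ∂(lam.prod (volume.restrict (Set.Ico (0 : ℝ) 1)))
      ≤ ∫⁻ x in T', FE x.1 ∂(lam.prod (volume.restrict (Set.Ico (0 : ℝ) 1))) := lintegral_mono_set hsub
    _ = ∫⁻ x, T'.indicator (fun x => FE x.1) x ∂(lam.prod (volume.restrict (Set.Ico (0 : ℝ) 1))) :=
        (lintegral_indicator hT'm _).symm
    _ = ∫⁻ l, ∫⁻ z, T'.indicator (fun x => FE x.1) (l, z) ∂(volume.restrict (Set.Ico (0 : ℝ) 1)) ∂lam :=
        lintegral_prod _ (((hFEm.comp measurable_fst).indicator hT'm).aemeasurable)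
    _ ≤ ∫⁻ l, SW.indicator (fun l => FE l * ENNReal.ofReal (4 * α * β / W)) l ∂lam := lintegral_mono hinner
    _ = ∫⁻ l in SW, FE l * ENNReal.ofReal (4 * α * β / W) ∂lam := lintegral_indicator hSWm _
    _ = (∫⁻ l in SW, FE l ∂lam) * ENNReal.ofReal (4 * α * β / W) := lintegral_mul_const _ hFEm
    _ ≤ ENNReal.ofReal (θ * W) * ENNReal.ofReal (4 * α * β / W) := by
        refine mul_le_mul' ?_ le_rfl
        have h5 := hstop (c 0) (v 0) W hW1 hW4
        rw [hSW, hFE]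
        exact h5
    _ = ENNReal.ofReal (4 * θ * α * β) := by
        rw [← ENNReal.ofReal_mul (by positivity)]
        congr 1
        field_simp

/-- **LEAF L-252-S2b-P5: the residual of one group, version 1** (`j = 1`, padding by a static coordinate; 02 l.1092-1131).   Apply `k2b_group2` to `Ω × ℝ`, `lam.prod (volume.restrict (Ico 0 1))`, traces `((b l, z), (u l, 0))`, `E~ = {((l, z), t) | (l, t) ∈ E}`,
`Vis~ = Vis × {0, …, D-1}` (`#Vis~ = D #Vis`).   Stopping rule for the padded family: if `((b l, z), (u l, 0))` is in the plank `(c, v, e, α, β)` then by `k2b_rect_proj` (at every `t`) `K2bIn1 (b l) (u l) (c 0) (v 0) W`, `W = α |e 0| + β |e 1| ∈ [α, 2β] ⊆ [1/D, 4]`,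
and by `k2b_rect_chord` (at `t = 0`) `z` lies in a set of length `≤ 4 α β / W`;  Tonelli: `≤ (4 α β / W) θ W`.   So `θ~ = 4 θ`, `R~ = max R 1`.
(`k2b_group2` wants the bound `R~` at EVERY point of `Ω × ℝ`: use the trace `(b l, max 0 (min z 1))`; then allow `{0, …, D}` in `Vis~`, `#Vis~ ≤ 2 D #Vis`.) -/
theorem k2b_group1 (H : K2bPlankFin) (R ε : ℝ) (hR : 0 ≤ R) (hε : 0 < ε) : ∃ η C : ℝ, 0 < η ∧ 0 < C ∧
    ∀ (D : ℕ) (Ω : Type) [MeasurableSpace Ω] (lam : Measure Ω) [IsFiniteMeasure lam] (b u : Ω → ℝ) (E : Set (Ω × ℝ))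
      (θ κ : ℝ) (Vis : Finset (ℕ × ℤ)),
      1 ≤ D → Measurable b → Measurable u → MeasurableSet E → 0 ≤ θ → (D : ℝ) ^ (-η) ≤ κ → (∀ l, |b l| ≤ R ∧ |u l| ≤ R) →
      (∀ x ∈ E, 0 ≤ x.2 ∧ x.2 < 1) →
      (∀ (c v α : ℝ), 1 / (D : ℝ) ≤ α → α ≤ 4 →
        ∫⁻ l in {l | K2bIn1 (b l) (u l) c v α}, volume {t | (l, t) ∈ E} ∂lam ≤ ENNReal.ofReal (θ * α)) →
      ∫⁻ l in {l | ENNReal.ofReal κ ≤ volume {t | (l, t) ∈ E ∧ ((⌊t * D⌋₊, ⌊(b l + t * u l) * D⌋) : ℕ × ℤ) ∈ Vis}},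
          volume {t | (l, t) ∈ E ∧ ((⌊t * D⌋₊, ⌊(b l + t * u l) * D⌋) : ℕ × ℤ) ∈ Vis} ∂lam
        ≤ ENNReal.ofReal (C * θ / κ * (D : ℝ) ^ (ε - 2) * Vis.card) := by
  obtain ⟨η, C₂, hη, hC₂, key⟩ := k2b_group2 H (max R 1) ε (le_max_of_le_left hR) hε
  refine ⟨η, 8 * C₂, hη, by positivity, ?_⟩
  intro D Ω _ lam _ b u E θ κ Vis hD hb hu hE hθ hκ hbd hE01 hstop
  have hD0 : (0 : ℝ) < D := by exact_mod_cast hD
  have hκ0 : 0 < κ := lt_of_lt_of_le (Real.rpow_pos_of_pos hD0 _) hκ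
  have : IsProbabilityMeasure (volume.restrict (Set.Ico (0 : ℝ) 1)) := ⟨by simp⟩
  obtain ⟨Vt, hVt⟩ : ∃ Vt : Finset (ℕ × (Fin 2 → ℤ)),
      Vt = (Vis ×ˢ Finset.Icc (0 : ℤ) D).image (fun q : (ℕ × ℤ) × ℤ => ((q.1.1, ![q.1.2, q.2]) : ℕ × (Fin 2 → ℤ))) := ⟨_, rfl⟩
  have hcl0 : ∀ z : ℝ, 0 ≤ max 0 (min z 1) := fun z => le_max_left _ _
  have hcl1 : ∀ z : ℝ, max 0 (min z 1) ≤ 1 := fun z => max_le zero_le_one (min_le_right _ _)
  have hbt : Measurable fun x : Ω × ℝ => (![b x.1, max 0 (min x.2 1)] : Fin 2 → ℝ) := by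
    rw [measurable_pi_iff]
    intro a
    fin_cases a
    · exact hb.comp measurable_fst
    · show Measurable fun x : Ω × ℝ => max 0 (min x.2 1)
      fun_prop
  have hut : Measurable fun x : Ω × ℝ => (![u x.1, 0] : Fin 2 → ℝ) := by
    rw [measurable_pi_iff]
    intro a
    fin_cases a
    · exact hu.comp measurable_fst
    · exact measurable_const
  have hEt : MeasurableSet {y : (Ω × ℝ) × ℝ | (y.1.1, y.2) ∈ E} := by
    have hm : Measurable fun y : (Ω × ℝ) × ℝ => (y.1.1, y.2) := by fun_prop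
    exact hm hE
  have hbdt : ∀ (x : Ω × ℝ) (a : Fin 2), |(![b x.1, max 0 (min x.2 1)] : Fin 2 → ℝ) a| ≤ max R 1 ∧ |(![u x.1, 0] : Fin 2 → ℝ) a| ≤ max R 1 := by
    intro x a
    fin_cases a
    · exact ⟨(hbd x.1).1.trans (le_max_left _ _), (hbd x.1).2.trans (le_max_left _ _)⟩
    · constructor
      · show |max 0 (min x.2 1)| ≤ max R 1
        rw [abs_of_nonneg (hcl0 _)]
        exact (hcl1 _).trans (le_max_right _ _)
      · show |(0 : ℝ)| ≤ max R 1
        rw [abs_zero]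
        exact le_max_of_le_left hR
  have h := key D (Ω × ℝ) (lam.prod (volume.restrict (Set.Ico (0 : ℝ) 1))) (fun x => ![b x.1, max 0 (min x.2 1)]) (fun x => ![u x.1, 0])
    {y : (Ω × ℝ) × ℝ | (y.1.1, y.2) ∈ E} (4 * θ) κ Vt hD hbt hut hEt (by positivity) hκ hbdt
    (fun y hy => hE01 (y.1.1, y.2) hy)
    (fun c v e α β he hα hαβ hβ => k2b_g1_stop lam D hD b u hb hu E hE θ hθ hstop c v e α β he hα hαβ hβ)
  -- the good set does not depend on the padding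
  obtain ⟨Fg, hFg⟩ : ∃ Fg : Ω → ℝ≥0∞,
      Fg = fun l => volume {t | (l, t) ∈ E ∧ ((⌊t * D⌋₊, ⌊(b l + t * u l) * D⌋) : ℕ × ℤ) ∈ Vis} := ⟨_, rfl⟩
  have hFgm : Measurable Fg := by
    have hm : Measurable fun x : Ω × ℝ => ((⌊x.2 * D⌋₊, ⌊(b x.1 + x.2 * u x.1) * D⌋) : ℕ × ℤ) := by
      refine Measurable.prodMk (Nat.measurable_floor.comp (by fun_prop)) (Int.measurable_floor.comp (by fun_prop))
    have hG : MeasurableSet (E ∩ (fun x : Ω × ℝ => ((⌊x.2 * D⌋₊, ⌊(b x.1 + x.2 * u x.1) * D⌋) : ℕ × ℤ)) ⁻¹' (↑Vis : Set (ℕ × ℤ))) :=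
      hE.inter (hm Vis.measurableSet)
    rw [hFg]
    exact measurable_measure_prodMk_left hG
  have hset : ∀ x : Ω × ℝ, volume {t | ((x, t) : (Ω × ℝ) × ℝ) ∈ {y : (Ω × ℝ) × ℝ | (y.1.1, y.2) ∈ E} ∧
      k2bCellAt D t (fun a => (![b x.1, max 0 (min x.2 1)] : Fin 2 → ℝ) a + t * (![u x.1, 0] : Fin 2 → ℝ) a) ∈ Vt} = Fg x.1 := by
    intro x
    rw [hFg]
    congr 1
    ext t
    have e1 := k2b_g1_mem D Vis t (fun a => (![b x.1, max 0 (min x.2 1)] : Fin 2 → ℝ) a + t * (![u x.1, 0] : Fin 2 → ℝ) a)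
      (by
        show 0 ≤ max 0 (min x.2 1) + t * 0
        rw [mul_zero, add_zero]
        exact hcl0 _)
      (by
        show max 0 (min x.2 1) + t * 0 ≤ 1
        rw [mul_zero, add_zero]
        exact hcl1 _)
    rw [← hVt] at e1
    constructor
    · rintro ⟨h1, h2⟩
      exact ⟨h1, e1.1 h2⟩
    · rintro ⟨h1, h2⟩
      exact ⟨h1, e1.2 h2⟩
  simp only [hset] at h
  obtain ⟨Sg, hSg⟩ : ∃ Sg : Set Ω, Sg = {l | ENNReal.ofReal κ ≤ Fg l} := ⟨_, rfl⟩
  have hSgm : MeasurableSet Sg := by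
    rw [hSg]
    exact measurableSet_le measurable_const hFgm
  have e2 : ∫⁻ x in {x : Ω × ℝ | ENNReal.ofReal κ ≤ Fg x.1}, Fg x.1 ∂(lam.prod (volume.restrict (Set.Ico (0 : ℝ) 1)))
      = ∫⁻ l in Sg, Fg l ∂lam := by
    have e3 : {x : Ω × ℝ | ENNReal.ofReal κ ≤ Fg x.1} = Prod.fst ⁻¹' Sg := by
      rw [hSg]
      rfl
    rw [e3, ← lintegral_indicator (measurable_fst hSgm), ← lintegral_indicator hSgm,
      ← k2b_g1_fst lam (volume.restrict (Set.Ico (0 : ℝ) 1)) (Sg.indicator Fg) (hFgm.indicator hSgm)]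
    rfl
  rw [e2] at h
  have hgoal : ∫⁻ l in {l | ENNReal.ofReal κ ≤ volume {t | (l, t) ∈ E ∧ ((⌊t * D⌋₊, ⌊(b l + t * u l) * D⌋) : ℕ × ℤ) ∈ Vis}},
          volume {t | (l, t) ∈ E ∧ ((⌊t * D⌋₊, ⌊(b l + t * u l) * D⌋) : ℕ × ℤ) ∈ Vis} ∂lam = ∫⁻ l in Sg, Fg l ∂lam := by
    rw [hSg, hFg]
  rw [hgoal]
  refine h.trans (ENNReal.ofReal_le_ofReal ?_)
  have hc : (Vt.card : ℝ) ≤ 2 * D * Vis.card := by
    rw [hVt]
    exact_mod_cast k2b_g1_card D hD Vis
  have hp : (D : ℝ) ^ (ε - 2) = (D : ℝ) ^ (ε - 3) * D := by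
    have : ε - 2 = (ε - 3) + 1 := by ring
    rw [this, Real.rpow_add hD0, Real.rpow_one]
  have hpos : 0 ≤ C₂ * (4 * θ) / κ * (D : ℝ) ^ (ε - 3) := by positivity
  calc C₂ * (4 * θ) / κ * (D : ℝ) ^ (ε - 3) * Vt.card
      ≤ C₂ * (4 * θ) / κ * (D : ℝ) ^ (ε - 3) * (2 * D * Vis.card) := mul_le_mul_of_nonneg_left hc hpos
    _ = 8 * C₂ * θ / κ * (D : ℝ) ^ (ε - 2) * Vis.card := by
        rw [hp]
        ring

/-- **LEAF L-252-S2b-P6: splitting the residual** (02 l.1052-1066).   `good ⊆ E`.   `volume E_l = volume (E \ good)_l + volume good_l` and `volume good_l ≤ κ + 1[κ ≤ volume good_l] volume good_l`. -/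
theorem k2b_res_split {Ω : Type} [MeasurableSpace Ω] (lam : Measure Ω) [IsFiniteMeasure lam] (E good : Set (Ω × ℝ))
    (hE : MeasurableSet E) (hg : MeasurableSet good) (hsub : good ⊆ E) (κ : ℝ≥0∞) :
    (lam.prod volume) E ≤ (lam.prod volume) (E \ good) + κ * lam Set.univ
      + ∫⁻ l in {l | κ ≤ volume {t | (l, t) ∈ good}}, volume {t | (l, t) ∈ good} ∂lam := by
  have hf : Measurable fun l => volume {t | (l, t) ∈ good} := measurable_measure_prodMk_left hg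
  have hS : MeasurableSet {l | κ ≤ volume {t | (l, t) ∈ good}} := measurableSet_le measurable_const hf
  have h1 : (lam.prod volume) E ≤ (lam.prod volume) (E \ good) + (lam.prod volume) good := by
    refine le_trans (measure_mono ?_) (measure_union_le _ _)
    intro x hx
    by_cases h : x ∈ good
    · exact Or.inr h
    · exact Or.inl ⟨hx, h⟩
  have h2 : (lam.prod volume) good = ∫⁻ l, volume {t | (l, t) ∈ good} ∂lam := Measure.prod_apply hg
  have h3 : ∫⁻ l in {l | κ ≤ volume {t | (l, t) ∈ good}}ᶜ, volume {t | (l, t) ∈ good} ∂lam ≤ κ * lam Set.univ := by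
    calc ∫⁻ l in {l | κ ≤ volume {t | (l, t) ∈ good}}ᶜ, volume {t | (l, t) ∈ good} ∂lam
        ≤ ∫⁻ _l in {l | κ ≤ volume {t | (l, t) ∈ good}}ᶜ, κ ∂lam :=
          setLIntegral_mono' hS.compl fun l hl => (not_le.1 (show ¬ κ ≤ volume {t | (l, t) ∈ good} from hl)).le
      _ = κ * lam {l | κ ≤ volume {t | (l, t) ∈ good}}ᶜ := setLIntegral_const _ _
      _ ≤ κ * lam Set.univ := mul_le_mul_right (measure_mono (Set.subset_univ _)) _
  have h4 := lintegral_add_compl (μ := lam) (fun l => volume {t | (l, t) ∈ good}) hS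
  calc (lam.prod volume) E ≤ (lam.prod volume) (E \ good) + (lam.prod volume) good := h1
    _ = (lam.prod volume) (E \ good) + (∫⁻ l in {l | κ ≤ volume {t | (l, t) ∈ good}}, volume {t | (l, t) ∈ good} ∂lam
          + ∫⁻ l in {l | κ ≤ volume {t | (l, t) ∈ good}}ᶜ, volume {t | (l, t) ∈ good} ∂lam) := by rw [h2, h4]
    _ ≤ (lam.prod volume) (E \ good) + (∫⁻ l in {l | κ ≤ volume {t | (l, t) ∈ good}}, volume {t | (l, t) ∈ good} ∂lam
          + κ * lam Set.univ) := by gcongr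
    _ = _ := by rw [add_assoc, add_comm (κ * lam Set.univ)]

/-- **LEAF L-252-S2b-P6: counting cells by their original mass** (02 (2.28), l.1068-1083). -/
theorem k2b_cell_count {X κ : Type} [MeasurableSpace X] (μ : Measure X) (cell : X → κ) (Vis : Finset κ)
    (hc : ∀ c ∈ Vis, MeasurableSet (cell ⁻¹' {c})) (φ : ℝ≥0∞) (h : ∀ c ∈ Vis, φ ≤ μ (cell ⁻¹' {c})) :
    (Vis.card : ℝ≥0∞) * φ ≤ μ Set.univ := by
  have hU : μ (⋃ c ∈ Vis, cell ⁻¹' {c}) = ∑ c ∈ Vis, μ (cell ⁻¹' {c}) := by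
    refine measure_biUnion_finset (fun c _ c' _ hne => ?_) hc
    show Disjoint (cell ⁻¹' {c}) (cell ⁻¹' {c'})
    rw [Set.disjoint_left]
    intro x h1 h2
    exact hne ((Set.mem_singleton_iff.1 h1).symm.trans (Set.mem_singleton_iff.1 h2))
  calc (Vis.card : ℝ≥0∞) * φ = ∑ _c ∈ Vis, φ := by rw [Finset.sum_const, nsmul_eq_mul]
    _ ≤ ∑ c ∈ Vis, μ (cell ⁻¹' {c}) := Finset.sum_le_sum h
    _ = μ (⋃ c ∈ Vis, cell ⁻¹' {c}) := hU.symm
    _ ≤ μ Set.univ := measure_mono (Set.subset_univ _)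

/-- **LEAF L-252-S2b-P7: the motion of a bounded quadratic** (02 l.55, 978-981).   `c₂ = 2 X(0) - 4 X(1/2) + 2 X(1)`, `c₁ = -3 X(0) + 4 X(1/2) - X(1)`. -/
theorem k2b_quad_move (c0 c1 c2 K : ℝ) (h : ∀ t ∈ Set.Icc (0 : ℝ) 1, |c0 + c1 * t + c2 * t ^ 2| ≤ K) :
    |c1| ≤ 8 * K ∧ |c2| ≤ 8 * K ∧
      ∀ t ∈ Set.Icc (0 : ℝ) 1, ∀ t' ∈ Set.Icc (0 : ℝ) 1, |(c0 + c1 * t + c2 * t ^ 2) - (c0 + c1 * t' + c2 * t' ^ 2)| ≤ 24 * K * |t - t'| := by
  have a0 := h 0 ⟨le_rfl, zero_le_one⟩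
  have a1 := h 1 ⟨zero_le_one, le_rfl⟩
  have ah := h (1 / 2) ⟨by norm_num, by norm_num⟩
  rw [abs_le] at a0 a1 ah
  have b1 : |c1| ≤ 8 * K := by
    rw [abs_le]
    constructor <;> nlinarith [a0.1, a0.2, a1.1, a1.2, ah.1, ah.2]
  have b2 : |c2| ≤ 8 * K := by
    rw [abs_le]
    constructor <;> nlinarith [a0.1, a0.2, a1.1, a1.2, ah.1, ah.2]
  refine ⟨b1, b2, fun t ht t' ht' => ?_⟩
  have e : (c0 + c1 * t + c2 * t ^ 2) - (c0 + c1 * t' + c2 * t' ^ 2) = (c1 + c2 * (t + t')) * (t - t') := by ring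
  rw [e, abs_mul]
  refine mul_le_mul_of_nonneg_right ?_ (abs_nonneg _)
  have h2 : |c2 * (t + t')| ≤ 8 * K * 2 := by
    rw [abs_mul]
    have h3 : |t + t'| ≤ 2 := by
      rw [abs_le]
      constructor <;> linarith [ht.1, ht.2, ht'.1, ht'.2]
    exact mul_le_mul b2 h3 (abs_nonneg _) ((abs_nonneg _).trans b2)
  calc |c1 + c2 * (t + t')| ≤ |c1| + |c2 * (t + t')| := abs_add_le _ _
    _ ≤ 8 * K + 8 * K * 2 := add_le_add b1 h2
    _ = 24 * K := by ring

/-- **LEAF L-252-S2b-P7: the hidden bin determines `X`** (02 l.981-986).   `Q(w) = q₀ + q₁ w + q₂ w²` = the native test at fixed `(t, y)`;  `Q(w') - Q(w) = Q'(w)(w' - w) + q₂ (w' - w)²`. -/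
theorem k2b_bin_value (q0 q1 q2 w w' K B a : ℝ) (hB : 0 < B) (hK : 0 ≤ K) (ha : 0 ≤ a) (h1 : |q1 + 2 * q2 * w| ≤ K * B) (h2 : |2 * q2| ≤ K * B ^ 2)
    (hw : |w' - w| ≤ a / B) : |(q0 + q1 * w' + q2 * w' ^ 2) - (q0 + q1 * w + q2 * w ^ 2)| ≤ K * a + K * a ^ 2 := by
  have e : (q0 + q1 * w' + q2 * w' ^ 2) - (q0 + q1 * w + q2 * w ^ 2) = (q1 + 2 * q2 * w) * (w' - w) + (2 * q2) * (w' - w) ^ 2 / 2 := by ring
  have haB : 0 ≤ a / B := div_nonneg ha hB.le
  have t1 : |(q1 + 2 * q2 * w) * (w' - w)| ≤ K * a := by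
    rw [abs_mul]
    calc |q1 + 2 * q2 * w| * |w' - w| ≤ (K * B) * (a / B) := mul_le_mul h1 hw (abs_nonneg _) (by positivity)
      _ = K * a := by field_simp
  have t2 : |(2 * q2) * (w' - w) ^ 2 / 2| ≤ K * a ^ 2 := by
    rw [abs_div, abs_mul, abs_pow, abs_of_pos (by norm_num : (0 : ℝ) < 2)]
    have h3 : |w' - w| ^ 2 ≤ (a / B) ^ 2 := pow_le_pow_left₀ (abs_nonneg _) hw 2
    calc |2 * q2| * |w' - w| ^ 2 / 2 ≤ (K * B ^ 2) * (a / B) ^ 2 / 2 := by
          refine div_le_div_of_nonneg_right (mul_le_mul h2 h3 (by positivity) (by positivity)) (by norm_num)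
      _ = K * a ^ 2 / 2 := by field_simp
      _ ≤ K * a ^ 2 := by
          have : 0 ≤ K * a ^ 2 := by positivity
          linarith
  rw [e]
  exact (abs_add_le _ _).trans (add_le_add t1 t2)

/-- **LEAF L-252-S2b-P7: lists of bins.**   The bins `⌊x / a⌋` of the points `x` of an interval of length `ℓ` are at most `ℓ / a + 2` (`F = Finset.Icc ⌊x0 / a⌋ ⌊(x0 + ℓ) / a⌋`, `Int.card_Icc`). -/
theorem k2b_bin_list (x0 ℓ a : ℝ) (ha : 0 < a) (hℓ : 0 ≤ ℓ) :
    ∃ F : Finset ℤ, (F.card : ℝ) ≤ ℓ / a + 2 ∧ ∀ x, x0 ≤ x → x ≤ x0 + ℓ → ⌊x / a⌋ ∈ F := by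
  refine ⟨Finset.Icc ⌊x0 / a⌋ ⌊(x0 + ℓ) / a⌋, ?_, fun x h1 h2 => ?_⟩
  · rw [Int.card_Icc]
    have hle : ⌊x0 / a⌋ ≤ ⌊(x0 + ℓ) / a⌋ := Int.floor_le_floor (div_le_div_of_nonneg_right (by linarith) ha.le)
    have hnn : 0 ≤ ⌊(x0 + ℓ) / a⌋ + 1 - ⌊x0 / a⌋ := by omega
    have e : (((⌊(x0 + ℓ) / a⌋ + 1 - ⌊x0 / a⌋).toNat : ℕ) : ℝ) = ((⌊(x0 + ℓ) / a⌋ + 1 - ⌊x0 / a⌋ : ℤ) : ℝ) := by
      exact_mod_cast congrArg (fun z : ℤ => (z : ℝ)) (Int.toNat_of_nonneg hnn)
    rw [e]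
    push_cast
    have f1 := Int.floor_le ((x0 + ℓ) / a)
    have f2 := Int.lt_floor_add_one (x0 / a)
    have f3 : (x0 + ℓ) / a = x0 / a + ℓ / a := add_div _ _ _
    linarith
  · rw [Finset.mem_Icc]
    exact ⟨Int.floor_le_floor (div_le_div_of_nonneg_right h1 ha.le), Int.floor_le_floor (div_le_div_of_nonneg_right h2 ha.le)⟩

end Claimed.Agent.R252
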