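import Claimed.Agent.R252.S2b.Init
import Claimed.Agent.R252.S2a.PbContract
import Claimed.Agent.R252.S2b.G00Contract

/-!
# Row 252 (S0492), unit S2b-INIT, file 3: transport of the raw ceilings to the densities `P.dn` at ONE scale      (helper171, prefix `k2i_`)

`P' = (D.pb k).sel S` is ANY well-formed further selection of the initial problem.
* `k2i_joint_dn`   (02 l.1308-1318)  a.s.  `dn (p_r, [V]_b) ≤ 32 (C k²) 2^{2k} (kbDy b)²`.
* `k2i_foot_mass`  (02 l.1297-1306)  `mu {dn p_1 ≤ hi} ≤ hi · 125 #Vis / 2^{3k}`   (hidden bins of width `2^{-k}`).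
* `k2i_g00_mass`   (02 l.1320-1365)  from `k2b_g00`: the incidences with `dn p_0 ≥ lo` have base in a set of volume `≤ 1 / lo`.
-/

set_option autoImplicit false

namespace Claimed.Agent.R252

open MeasureTheory
open scoped ENNReal BigOperators

noncomputable section

/-! ## 0. Abstract layer -/

theorem k2i_den_le_of_part_le {Ω O L : Type} [MeasurableSpace Ω] [MeasurableSpace O] {vol : Measure O} {μ : Measure Ω} {b : Ω → O}
    (h : K2aFr vol μ b) {c : ℝ≥0∞} (ℓ : Ω → L) (d : L) (hc : ∀ s, MeasurableSet s → k2aPart μ b ℓ d s ≤ c * vol s) :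
    ∀ᵐ o ∂vol, k2aDen vol μ b ℓ d o ≤ c := by
  have := h.sf
  refine ae_le_of_forall_setLIntegral_le_of_sigmaFinite (g := fun _ => c) (k2a_den_meas _ _ _ _ _) fun s hs _ => ?_
  rw [← withDensity_apply _ hs, k2a_part_withDensity h, setLIntegral_const]
  exact hc s hs

/-! ## 1. The joint ceiling -/

/-- the box of the velocities with given bins of width `w` -/
def k2iBin (w : ℝ) (e : Fin 2 → ℤ) : Set (Fin 2 → ℝ) := {V | ∀ i, ⌊V i / w⌋ = e i}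

theorem k2i_bin_eq (w : ℝ) (hw : 0 < w) (e : Fin 2 → ℤ) :
    k2iBin w e = Set.pi Set.univ fun i => Set.Ico ((e i : ℝ) * w) (((e i : ℝ) + 1) * w) := by
  ext V
  simp only [k2iBin, Set.mem_ofPred_eq, Set.mem_pi, Set.mem_univ, true_implies, Set.mem_Ico]
  refine forall_congr' fun i => ?_
  rw [Int.floor_eq_iff, le_div_iff₀ hw, div_lt_iff₀ hw]

theorem k2i_bin_meas (w : ℝ) (hw : 0 < w) (e : Fin 2 → ℤ) : MeasurableSet (k2iBin w e) := by
  rw [k2i_bin_eq w hw]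
  exact MeasurableSet.univ_pi fun _ => measurableSet_Ico

theorem k2i_bin_vol (w : ℝ) (hw : 0 < w) (e : Fin 2 → ℤ) : volume (k2iBin w e) = ENNReal.ofReal (w ^ 2) := by
  rw [k2i_bin_eq w hw, Real.volume_pi_Ico, Fin.prod_univ_two, ← ENNReal.ofReal_mul (by nlinarith)]
  congr 1
  ring

variable {D : K2iDat} {σ C : ℝ} {k : ℕ}

theorem k2i_prior_prob (h : D.Bad σ C k) : IsProbabilityMeasure (k2bPrior D.b D.s (1 / 2 ^ (k + 2))) := (k2i_wf h).prob ()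

/-- the constant of `k2b_joint_ceiling` -/
theorem k2i_joint_const (h : D.Bad σ C k) :
    (1 / (1 / (2 : ℝ) ^ k) + 1) / ((Fintype.card D.ι : ℝ) * (2 * (1 / 2 ^ (k + 2))) ^ 4) ≤ 32 * (C * (k : ℝ) ^ 2) * 2 ^ (2 * k) := by
  obtain ⟨hA, hc⟩ := k2i_A_pos h
  have hN : (1 : ℝ) ≤ 2 ^ k := one_le_pow₀ (by norm_num)
  have hcard := h.card
  obtain ⟨N, hNdef⟩ : ∃ N : ℝ, N = 2 ^ k := ⟨_, rfl⟩
  have e1 : (2 : ℝ) ^ (3 * k) = N ^ 3 := by rw [hNdef, ← pow_mul, mul_comm]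
  have e2 : (2 : ℝ) ^ (2 * k) = N ^ 2 := by rw [hNdef, ← pow_mul, mul_comm]
  have e3 : (2 : ℝ) * (1 / 2 ^ (k + 2)) = 1 / (2 * N) := by rw [k2i_rad_two, pow_succ, hNdef, mul_comm]
  rw [e1] at hcard
  rw [e2, e3, one_div_one_div, ← hNdef]
  rw [← hNdef] at hN
  have hN0 : 0 < N := by linarith
  rw [div_le_iff₀ (by positivity)]
  have e4 : 32 * (C * (k : ℝ) ^ 2) * N ^ 2 * ((Fintype.card D.ι : ℝ) * (1 / (2 * N)) ^ 4)
      = 2 * (C * (k : ℝ) ^ 2 * (Fintype.card D.ι : ℝ)) / N ^ 2 := by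
    field_simp
    ring
  rw [e4, le_div_iff₀ (by positivity)]
  nlinarith [pow_pos hN0 2, pow_pos hN0 3]

theorem k2i_joint_raw (h : D.Bad σ C k) (w : ℝ) (hw : 0 < w) (e : Fin 2 → ℤ) (Z : Set (ℝ × (Fin 2 → ℝ))) (hZ : MeasurableSet Z) :
    ((k2bPrior D.b D.s (1 / 2 ^ (k + 2))).prod KbPb.tm) {x | (x.2, k2bY (k2bPos x.1 x.2)) ∈ Z ∧ k2bY x.1.2 ∈ k2iBin w e}
      ≤ ENNReal.ofReal (32 * (C * (k : ℝ) ^ 2) * 2 ^ (2 * k) * w ^ 2) * volume Z := by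
  have := k2i_prior_prob h
  obtain ⟨hA, hc⟩ := k2i_A_pos h
  have hm1 : Measurable fun x : K2iLn × ℝ => (x.2, k2bY (k2bPos x.1 x.2)) := by
    unfold k2bY k2bPos
    fun_prop
  have hm2 : Measurable fun x : K2iLn × ℝ => k2bY x.1.2 := by
    unfold k2bY
    fun_prop
  have hAm : MeasurableSet {x : K2iLn × ℝ | (x.2, k2bY (k2bPos x.1 x.2)) ∈ Z ∧ k2bY x.1.2 ∈ k2iBin w e} :=
    (hm1 hZ).inter (hm2 (k2i_bin_meas w hw e))
  rw [Measure.prod_apply_symm hAm]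
  have hpt : ∀ t : ℝ, k2bPrior D.b D.s (1 / 2 ^ (k + 2))
      ((fun p => (p, t)) ⁻¹' {x : K2iLn × ℝ | (x.2, k2bY (k2bPos x.1 x.2)) ∈ Z ∧ k2bY x.1.2 ∈ k2iBin w e})
      ≤ ENNReal.ofReal (32 * (C * (k : ℝ) ^ 2) * 2 ^ (2 * k) * w ^ 2) * volume (Prod.mk t ⁻¹' Z) := by
    intro t
    have h1 := k2b_joint_ceiling D.b D.s (1 / 2 ^ k) (1 / 2 ^ (k + 2)) t (k2i_rad_pos k)
      (by rw [k2i_rad_two, pow_succ]; apply div_le_div_of_nonneg_left <;> first | positivity | nlinarith [pow_pos (two_pos : (0:ℝ) < 2) k])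
      (k2i_sep h) (fun i => h.hs i 2) ((Prod.mk t ⁻¹' Z) ×ˢ k2iBin w e) ((measurable_prodMk_left hZ).prod (k2i_bin_meas w hw e))
    refine le_trans (le_of_eq ?_) (h1.trans ?_)
    · rfl
    · rw [Measure.volume_eq_prod, Measure.prod_prod, k2i_bin_vol w hw, mul_comm (volume _), ← mul_assoc,
        ← ENNReal.ofReal_mul (by positivity)]
      gcongr
      exact k2i_joint_const h
  calc ∫⁻ t, k2bPrior D.b D.s (1 / 2 ^ (k + 2))
        ((fun p => (p, t)) ⁻¹' {x : K2iLn × ℝ | (x.2, k2bY (k2bPos x.1 x.2)) ∈ Z ∧ k2bY x.1.2 ∈ k2iBin w e}) ∂KbPb.tm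
      ≤ ∫⁻ t, ENNReal.ofReal (32 * (C * (k : ℝ) ^ 2) * 2 ^ (2 * k) * w ^ 2) * volume (Prod.mk t ⁻¹' Z) ∂KbPb.tm := lintegral_mono hpt
    _ ≤ ∫⁻ t, ENNReal.ofReal (32 * (C * (k : ℝ) ^ 2) * 2 ^ (2 * k) * w ^ 2) * volume (Prod.mk t ⁻¹' Z) ∂volume :=
        lintegral_mono' Measure.restrict_le_self le_rfl
    _ = ENNReal.ofReal (32 * (C * (k : ℝ) ^ 2) * 2 ^ (2 * k) * w ^ 2) * volume Z := by
        rw [lintegral_const_mul _ (measurable_measure_prodMk_left hZ), Measure.volume_eq_prod, Measure.prod_apply hZ]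

theorem k2i_sel_bs (D : K2iDat) (k : ℕ) (S : (D.pb k).W → Set ((D.pb k).Lam × ℝ)) (γ : ((D.pb k).sel S).W) (x : K2iLn × ℝ) :
    ((D.pb k).sel S).bs γ x = (x.2, k2bY (k2bPos x.1 x.2)) := Prod.ext rfl (k2i_co_Y x.1 x.2)

theorem k2i_sel_hw (D : K2iDat) (k : ℕ) (S : (D.pb k).W → Set ((D.pb k).Lam × ℝ)) (γ : ((D.pb k).sel S).W) (x : K2iLn × ℝ) :
    ((D.pb k).sel S).hw γ x = k2bPos x.1 x.2 2 := k2i_co_W x.1 x.2

theorem k2i_sel_mu_le (D : K2iDat) (k : ℕ) (S : (D.pb k).W → Set ((D.pb k).Lam × ℝ)) (γ : ((D.pb k).sel S).W) (A : Set (K2iLn × ℝ)) :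
    ((D.pb k).sel S).mu γ A ≤ ((k2bPrior D.b D.s (1 / 2 ^ (k + 2))).prod KbPb.tm) A :=
  Measure.restrict_le_self A

/-- **the joint ceiling for the density of `(p_r, [V]_b)`**, for every well-formed selection -/
theorem k2i_joint_dn (h : D.Bad σ C k) (S : (D.pb k).W → Set ((D.pb k).Lam × ℝ)) (hW : ((D.pb k).sel S).WF) (a b : ℝ)
    (γ : ((D.pb k).sel S).W) :
    ∀ᵐ x ∂((D.pb k).sel S).mu γ, ((D.pb k).sel S).dn (((D.pb k).sel S).hv a b) γ x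
      ≤ ENNReal.ofReal (32 * (C * (k : ℝ) ^ 2) * 2 ^ (2 * k) * kbDy b ^ 2) := by
  have hfr := k2a_fr hW γ
  refine k2a_ae_of_ae (ℓ := ((D.pb k).sel S).hv a b γ)
    (p := fun d o => k2aDen volume (((D.pb k).sel S).mu γ) (((D.pb k).sel S).bs γ) (((D.pb k).sel S).hv a b γ) d o
      ≤ ENNReal.ofReal (32 * (C * (k : ℝ) ^ 2) * 2 ^ (2 * k) * kbDy b ^ 2)) hfr fun d => ?_
  refine k2i_den_le_of_part_le hfr _ d fun Z hZ => ?_
  unfold k2aPart
  rw [Measure.map_apply hfr.bm hZ, Measure.restrict_apply (hfr.bm hZ)]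
  refine le_trans (le_trans (k2i_sel_mu_le D k S γ _) (measure_mono ?_)) (k2i_joint_raw h (kbDy b) (k2a_dy_pos b) d.2 Z hZ)
  rintro x ⟨hx1, hx2⟩
  refine ⟨?_, fun i => ?_⟩
  · have e := k2i_sel_bs D k S γ x
    have hx1' : ((D.pb k).sel S).bs γ x ∈ Z := hx1
    rw [e] at hx1'
    exact hx1'
  · have hx2' : ((D.pb k).sel S).hv a b γ x = d := hx2
    exact congrFun (congrArg Prod.snd hx2') i

/-! ## 2. The footprint at depth `1` -/

/-- the base footprint of one cell -/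
def k2iFootA (k : ℕ) (c : ℕ × (Fin 3 → ℤ)) : Set (ℝ × (Fin 2 → ℝ)) :=
  Set.Ico ((c.1 : ℝ) / 2 ^ k) (((c.1 : ℝ) + 1) / 2 ^ k) ×ˢ
    (Set.pi Set.univ fun a : Fin 2 => Set.Ico (((c.2 (Fin.castSucc a) : ℝ) - 2) / 2 ^ k) (((c.2 (Fin.castSucc a) : ℝ) + 3) / 2 ^ k))

theorem k2i_footA_meas (k : ℕ) (c : ℕ × (Fin 3 → ℤ)) : MeasurableSet (k2iFootA k c) :=
  measurableSet_Ico.prod (MeasurableSet.univ_pi fun _ => measurableSet_Ico)

theorem k2i_footA_vol (k : ℕ) (c : ℕ × (Fin 3 → ℤ)) : volume (k2iFootA k c) = ENNReal.ofReal (25 / 2 ^ (3 * k)) := by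
  unfold k2iFootA
  have h2 : (0 : ℝ) < 2 ^ k := by positivity
  rw [Measure.volume_eq_prod, Measure.prod_prod, Real.volume_Ico, Real.volume_pi_Ico, Fin.prod_univ_two,
    ← ENNReal.ofReal_mul (by rw [← sub_div]; apply div_nonneg _ h2.le; linarith),
    ← ENNReal.ofReal_mul (by rw [← sub_div]; apply div_nonneg _ h2.le; linarith)]
  congr 1
  rw [mul_comm 3 k, pow_mul]
  field_simp
  ring

theorem k2i_foot_card (z : ℤ) : (Finset.Icc (z - 2) (z + 2)).card = 5 := by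
  rw [Int.card_Icc]
  have : z + 2 + 1 - (z - 2) = 5 := by ring
  rw [this]
  rfl

/-- **the footprint bound**: incidences with small density at depth `1` carry small mass -/
theorem k2i_foot_mass (D : K2iDat) (k : ℕ) (S : (D.pb k).W → Set ((D.pb k).Lam × ℝ)) (hW : ((D.pb k).sel S).WF) (a : ℝ)
    (ha : kbDy (a / 1) = 1 / 2 ^ k) (γ : ((D.pb k).sel S).W) (hi : ℝ≥0∞) :
    ((D.pb k).sel S).mu γ {x | ((D.pb k).sel S).dn (((D.pb k).sel S).hid a) γ x ≤ hi}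
      ≤ hi * ENNReal.ofReal (125 * ((D.Vis k).card : ℝ) / 2 ^ (3 * k)) := by
  have h2 : (0 : ℝ) < 2 ^ k := by positivity
  have hℓ := k2a_hid_meas hW a
  have hae : ∀ᵐ x ∂((D.pb k).sel S).mu γ, x ∈ {x | ((D.pb k).sel S).dn (((D.pb k).sel S).hid a) γ x ≤ hi} →
      x ∈ ⋃ c ∈ D.Vis k, {x | ((D.pb k).sel S).hid a γ x ∈ Finset.Icc (c.2 2 - 2) (c.2 2 + 2) ∧ ((D.pb k).sel S).bs γ x ∈ k2iFootA k c ∧
        ((D.pb k).sel S).dn (((D.pb k).sel S).hid a) γ x ≤ hi} := by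
    refine ae_restrict_of_forall_mem (hW.Ev_meas γ) fun (x : K2iLn × ℝ) hx hx' => ?_
    obtain ⟨c, hc, h1, h2', h3⟩ : x ∈ k2bEv k (D.Vis k) := hx.1.1
    refine Set.mem_biUnion hc ⟨?_, ?_, hx'⟩
    · have e0 : ((D.pb k).sel S).hid a γ x = ⌊((D.pb k).sel S).hw γ x / kbDy (a / 1)⌋ := rfl
      have e1 : ((D.pb k).sel S).hw γ x = k2bPos x.1 x.2 2 := k2i_sel_hw D k S γ x
      rw [e0, e1, ha, div_div_eq_mul_div, div_one]
      have h4 := h3 2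
      rw [div_le_iff₀ h2, lt_div_iff₀ h2] at h4
      rw [Finset.mem_Icc]
      constructor
      · rw [Int.le_floor]
        push_cast
        exact h4.1
      · rw [← Int.lt_add_one_iff, Int.floor_lt]
        push_cast
        linarith [h4.2]
    · exact Set.mem_of_eq_of_mem (k2i_sel_bs D k S γ x) ⟨⟨h1, h2'⟩, fun a _ => h3 (Fin.castSucc a)⟩
  calc ((D.pb k).sel S).mu γ {x | ((D.pb k).sel S).dn (((D.pb k).sel S).hid a) γ x ≤ hi}
      ≤ ((D.pb k).sel S).mu γ (⋃ c ∈ D.Vis k, {x | ((D.pb k).sel S).hid a γ x ∈ Finset.Icc (c.2 2 - 2) (c.2 2 + 2) ∧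
          ((D.pb k).sel S).bs γ x ∈ k2iFootA k c ∧ ((D.pb k).sel S).dn (((D.pb k).sel S).hid a) γ x ≤ hi}) := measure_mono_ae hae
    _ ≤ ∑ c ∈ D.Vis k, ((D.pb k).sel S).mu γ {x | ((D.pb k).sel S).hid a γ x ∈ Finset.Icc (c.2 2 - 2) (c.2 2 + 2) ∧
          ((D.pb k).sel S).bs γ x ∈ k2iFootA k c ∧ ((D.pb k).sel S).dn (((D.pb k).sel S).hid a) γ x ≤ hi} :=
        measure_biUnion_finset_le _ _
    _ ≤ ∑ _c ∈ D.Vis k, hi * ENNReal.ofReal (125 / 2 ^ (3 * k)) := by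
        refine Finset.sum_le_sum fun c _ => ?_
        refine (k2a_ceiling_pb hW hℓ γ (Finset.Icc (c.2 2 - 2) (c.2 2 + 2)) (k2i_footA_meas k c) hi).trans (le_of_eq ?_)
        have e5 : ((5 : ℕ) : ℝ≥0∞) = ENNReal.ofReal 5 := by
          rw [← ENNReal.ofReal_natCast]
          norm_num
        have ev : volume (k2iFootA k c) = ENNReal.ofReal (25 / 2 ^ (3 * k)) := k2i_footA_vol k c
        rw [k2i_foot_card, mul_assoc, e5]
        refine congrArg (hi * ·) ?_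
        refine Eq.trans (congrArg (ENNReal.ofReal 5 * ·) ev) ?_
        rw [← ENNReal.ofReal_mul (by norm_num)]
        congr 1
        ring
    _ = hi * ENNReal.ofReal (125 * ((D.Vis k).card : ℝ) / 2 ^ (3 * k)) := by
        rw [Finset.sum_const, nsmul_eq_mul, ← ENNReal.ofReal_natCast, mul_left_comm, ← ENNReal.ofReal_mul (Nat.cast_nonneg _)]
        congr 2
        ring

/-! ## 3. No concentration of the base: `g(0,0) ≤ 0` -/

/-- abstract Markov bound: the base points where some density is `≥ lo` have volume `≤ μ univ / lo` -/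
theorem k2i_markov {Ω O L : Type} [MeasurableSpace Ω] [MeasurableSpace O] [Countable L] {vol : Measure O} {μ : Measure Ω} {b : Ω → O}
    (h : K2aFr vol μ b) {ℓ : Ω → L} (hℓ : K2aLab ℓ) (lo : ℝ≥0∞) :
    MeasurableSet (⋃ d, {o | lo ≤ k2aDen vol μ b ℓ d o}) ∧ lo * vol (⋃ d, {o | lo ≤ k2aDen vol μ b ℓ d o}) ≤ μ Set.univ := by
  refine ⟨MeasurableSet.iUnion fun d => measurableSet_le measurable_const (k2a_den_meas _ _ _ _ _), ?_⟩
  calc lo * vol (⋃ d, {o | lo ≤ k2aDen vol μ b ℓ d o}) ≤ lo * ∑' d, vol {o | lo ≤ k2aDen vol μ b ℓ d o} := by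
        gcongr
        exact measure_iUnion_le _
    _ = ∑' d, lo * vol {o | lo ≤ k2aDen vol μ b ℓ d o} := ENNReal.tsum_mul_left.symm
    _ ≤ ∑' d, ∫⁻ o, k2aDen vol μ b ℓ d o ∂vol :=
        ENNReal.tsum_le_tsum fun d => mul_meas_ge_le_lintegral (k2a_den_meas _ _ _ _ _) lo
    _ = μ Set.univ := k2a_total h hℓ

/-- **`g(0,0) ≤ 0` at one scale**, for every countable measurable label and every well-formed selection: if the incidences with density `≥ lo` have mass `≥ 1 / K` then `lo ≤ C' K^{C'} N^ε` -/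
theorem k2i_g00_mass (H : K2bPlankFin) (ε : ℝ) (hε : 0 < ε) : ∃ C' : ℝ, 1 ≤ C' ∧
    ∀ (D : K2iDat) (σ C : ℝ) (k : ℕ), D.Bad σ C k → ∀ (S : (D.pb k).W → Set ((D.pb k).Lam × ℝ)), ((D.pb k).sel S).WF →
      ∀ (L : Type) [Countable L] (ℓ : ((D.pb k).sel S).Lab L), ((D.pb k).sel S).LabMeas ℓ → ∀ (γ : ((D.pb k).sel S).W) (K lo : ℝ),
        1 ≤ K → C * (k : ℝ) ^ 2 ≤ K → 0 < lo →
        ENNReal.ofReal (1 / K) ≤ ((D.pb k).sel S).mu γ {x | ENNReal.ofReal lo ≤ ((D.pb k).sel S).dn ℓ γ x} →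
        lo ≤ C' * K ^ C' * (2 : ℝ) ^ (ε * k) := by
  obtain ⟨C', hC1, hg⟩ := k2b_g00 H ε hε
  refine ⟨C', hC1, ?_⟩
  intro D σ C k h S hW L _ ℓ hℓ γ K lo hK hCK hlo hmass
  have hfr := k2a_fr hW γ
  obtain ⟨hGm, hGv⟩ := k2i_markov hfr (hℓ γ) (ENNReal.ofReal lo)
  obtain ⟨G, hGdef⟩ : ∃ G : Set (ℝ × (Fin 2 → ℝ)),
      G = ⋃ d, {o | ENNReal.ofReal lo ≤ k2aDen volume (((D.pb k).sel S).mu γ) (((D.pb k).sel S).bs γ) (ℓ γ) d o} := ⟨_, rfl⟩
  have hGm' : MeasurableSet G := by rw [hGdef]; exact hGm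
  have hGv' : ENNReal.ofReal lo * volume G ≤ 1 := by
    rw [hGdef]
    exact hGv.trans (k2a_mu_univ_le hW γ)
  have hcard : (2 : ℝ) ^ (3 * k) ≤ K * Fintype.card D.ι :=
    h.card.trans (mul_le_mul_of_nonneg_right hCK (Nat.cast_nonneg _))
  have hsub : ENNReal.ofReal (1 / K) ≤ ((k2bPrior D.b D.s (1 / 2 ^ (k + 2))).prod (volume.restrict (Set.Icc (0 : ℝ) 1)))
      {x | (x.2, k2bY (k2bPos x.1 x.2)) ∈ G} := by
    refine hmass.trans ((k2i_sel_mu_le D k S γ _).trans (measure_mono ?_))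
    intro x hx
    have e := k2i_sel_bs D k S γ x
    show (x.2, k2bY (k2bPos x.1 x.2)) ∈ G
    rw [← e, hGdef]
    exact Set.mem_iUnion.2 ⟨ℓ γ x, hx⟩
  have h1 := hg K k D.ι D.b D.s G hK h.hb h.hs (k2i_sep h) hcard hGm' hsub
  have hpos : 0 < C' * K ^ C' * (2 : ℝ) ^ (ε * k) := by positivity
  have h2 : ENNReal.ofReal (lo * (1 / (C' * K ^ C' * (2 : ℝ) ^ (ε * k)))) ≤ ENNReal.ofReal 1 := by
    rw [ENNReal.ofReal_mul hlo.le, ENNReal.ofReal_one]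
    exact le_trans (by gcongr) hGv'
  rw [ENNReal.ofReal_le_ofReal_iff zero_le_one, mul_one_div, div_le_one hpos] at h2
  exact h2

end

end Claimed.Agent.R252
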