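import Claimed.Agent.R252.S2b.InitSeq
import Claimed.Agent.R252.S2b.InitDen
import Claimed.Agent.R252.S2a.SeqContract

/-!
# Row 252 (S0492), unit S2b-INIT, file 4: the three initial density inequalities (2.36)      (helper171, prefix `k2i_`)

02-framework.tex l.1286-1365.   `F = Q.ex.sel S` is ANY further selection of the initial exact problem which is `Ok`.   With `g(r,u) = r - f(r,u)`:
* `k2i_I1`  `g(1,0) ≥ σ`          :  `F.TypUp (F.hid 1) f → f ≤ 1 - σ`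
* `k2i_I2`  `g(0,0) ≤ 0`          :  `K2bPlankFin → F.TypLo ℓ f → 0 ≤ f`   (every countable measurable label, in particular `F.hid 0`)
* `k2i_I3`  `g(r,u) ≤ r + 2 - 2u` :  `F.TypLo (F.hv r u) f → 2 u - 2 ≤ f`
* `k2i_profile` : the three together for a homogeneous `F`.
-/

set_option autoImplicit false

namespace Claimed.Agent.R252

open MeasureTheory Filter Topology
open Claimed.Agent.R255 (uf)
open scoped ENNReal BigOperators

noncomputable section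

variable {σ C : ℝ} (Q : K2iSeq σ C)

theorem k2i_N_rpow (n : ℕ) (x : ℝ) : Q.ex.R.N n ^ x = (2 : ℝ) ^ (x * (Q.k n : ℝ)) := by
  rw [Q.N_eq, ← Real.rpow_natCast 2 (Q.k n), ← Real.rpow_mul (by norm_num), mul_comm]

theorem k2i_N_pow (n m : ℕ) : (2 : ℝ) ^ (m * Q.k n) = Q.ex.R.N n ^ (m : ℝ) := by
  rw [Q.N_eq, Real.rpow_natCast, ← pow_mul, mul_comm]

theorem k2i_one_lt_N (n : ℕ) : 1 < Q.ex.R.N n := lt_of_lt_of_le (by norm_num) (Q.ex.R.two_le n)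

theorem k2i_dy_one (n : ℕ) : kbDy (Q.ex.R.N n ^ (-(1 : ℝ)) / 1) = 1 / 2 ^ Q.k n := by
  have e : -(1 : ℝ) * (Q.k n : ℝ) = ((-(Q.k n : ℤ) : ℤ) : ℝ) := by
    push_cast
    ring
  unfold kbDy
  rw [div_one, k2i_N_rpow, Real.logb_rpow (by norm_num) (by norm_num), e, Int.ceil_intCast, zpow_neg, zpow_natCast, one_div]

/-- a constant multiple of the slack is below every power -/
theorem k2i_slack_le (A τ : ℝ) (hA : 1 ≤ A) (hτ : 0 < τ) : ∀ᶠ n in uf, A * (C * (Q.k n : ℝ) ^ 2) ≤ Q.ex.R.N n ^ τ := by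
  filter_upwards [kb_subp_mul _ (kb_subp_const Q.ex.R hA) (k2i_slack_subp Q) τ hτ] with n hn
  refine le_trans ?_ hn.2
  exact mul_le_mul_of_nonneg_left (le_max_right _ _) (by linarith)

variable {Q}

/-- no incidence is outside a family which covers everything -/
theorem k2i_absurd {F : KbEx KbVer.two} (hF : F.Ok) {A : F.Sel} (hA : K2aPow F.R (k2aM F A)) (hall : ∀ᶠ n in uf, ∀ γ x, x ∈ A n γ) : False := by
  have h1 := k2a_point hF hA (p := fun _ _ _ => True) (Eventually.of_forall fun _ _ => Eventually.of_forall fun _ => trivial)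
  have := Claimed.Agent.R255.uf_neBot
  obtain ⟨n, ⟨γ, x, hx, -⟩, h2⟩ := (h1.and hall).exists
  exact hx (h2 γ x)

/-- **`g(r,u) ≤ r + 2 - 2u`** -/
theorem k2i_I3 (S : Q.ex.Sel) (hF : (Q.ex.sel S).Ok) (r u f : ℝ) (h : (Q.ex.sel S).TypLo ((Q.ex.sel S).hv r u) f) : 2 * u - 2 ≤ f := by
  have key : ∀ τ : ℝ, 0 < τ → 2 * u - 2 ≤ f + 2 * τ := by
    intro τ hτ
    have h1 := (k2a_lo_iff hF _ f).1 h τ hτ
    have h2 : ∀ᶠ n in uf, ∀ γ, ∀ᵐ x ∂((Q.ex.sel S).P n).mu γ, ((Q.ex.sel S).P n).dn ((Q.ex.sel S).hv r u n) γ x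
        ≤ ENNReal.ofReal (32 * (C * (Q.k n : ℝ) ^ 2) * 2 ^ (2 * Q.k n) * kbDy ((Q.ex.sel S).a u n) ^ 2) := by
      filter_upwards [k2a_ok_wf hF] with n hn γ
      exact k2i_joint_dn (Q.bad n) (S n) hn _ _ γ
    have h3 := k2a_point hF h1 h2
    have := Claimed.Agent.R255.uf_neBot
    obtain ⟨n, ⟨γ, x, hx1, hx2⟩, hs⟩ := (h3.and (k2i_slack_le Q 128 τ (by norm_num) hτ)).exists
    have hx1' : ENNReal.ofReal (Q.ex.R.N n ^ (-f - τ)) ≤ ((Q.ex.sel S).P n).dn ((Q.ex.sel S).hv r u n) γ x := not_lt.1 hx1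
    have hN0 : 0 < Q.ex.R.N n := kb_res_pos _ n
    have hA := (k2i_A_pos (Q.bad n)).1
    have h4 := hx1'.trans hx2
    have hdy := (k2a_dy_bounds (k2a_a_pos (Q.ex.sel S) u n)).2
    have hdy0 := k2a_dy_pos ((Q.ex.sel S).a u n)
    have ha : (Q.ex.sel S).a u n = Q.ex.R.N n ^ (-u) := rfl
    rw [ENNReal.ofReal_le_ofReal_iff (by positivity)] at h4
    have h5 : kbDy ((Q.ex.sel S).a u n) ^ 2 ≤ 4 * Q.ex.R.N n ^ (-(2 * u)) := by
      have e : Q.ex.R.N n ^ (-(2 * u)) = (Q.ex.R.N n ^ (-u)) ^ 2 := by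
        rw [← Real.rpow_natCast, ← Real.rpow_mul hN0.le]
        congr 1
        push_cast
        ring
      rw [e, ← ha]
      nlinarith [k2a_a_pos (Q.ex.sel S) u n]
    have h6 : Q.ex.R.N n ^ (-f - τ) ≤ Q.ex.R.N n ^ (τ + 2 - 2 * u) := by
      calc Q.ex.R.N n ^ (-f - τ) ≤ 32 * (C * (Q.k n : ℝ) ^ 2) * 2 ^ (2 * Q.k n) * kbDy ((Q.ex.sel S).a u n) ^ 2 := h4
        _ ≤ 32 * (C * (Q.k n : ℝ) ^ 2) * 2 ^ (2 * Q.k n) * (4 * Q.ex.R.N n ^ (-(2 * u))) := by gcongr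
        _ = (128 * (C * (Q.k n : ℝ) ^ 2)) * (Q.ex.R.N n ^ ((2 : ℕ) : ℝ) * Q.ex.R.N n ^ (-(2 * u))) := by
            rw [k2i_N_pow]
            ring
        _ ≤ Q.ex.R.N n ^ τ * (Q.ex.R.N n ^ ((2 : ℕ) : ℝ) * Q.ex.R.N n ^ (-(2 * u))) := by gcongr
        _ = Q.ex.R.N n ^ (τ + 2 - 2 * u) := by
            rw [← Real.rpow_add hN0, ← Real.rpow_add hN0]
            congr 1
            push_cast
            ring
    have h7 := (Real.rpow_le_rpow_left_iff (k2i_one_lt_N Q n)).1 h6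
    linarith
  by_contra hcon
  push Not at hcon
  have := key ((2 * u - 2 - f) / 4) (by linarith)
  linarith

/-- **`g(1,0) ≥ σ`** -/
theorem k2i_I1 (S : Q.ex.Sel) (hF : (Q.ex.sel S).Ok) (f : ℝ) (h : (Q.ex.sel S).TypUp ((Q.ex.sel S).hid 1) f) : f ≤ 1 - σ := by
  by_contra hcon
  push Not at hcon
  obtain ⟨τ, hτdef⟩ : ∃ τ : ℝ, τ = (f - (1 - σ)) / 2 := ⟨_, rfl⟩
  have hτ : 0 < τ := by rw [hτdef]; linarith
  have h1 := (k2a_up_iff hF _ f).1 h τ hτ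
  have h2 : K2aPow (Q.ex.sel S).R fun n => ((Q.ex.sel S).P n).mass fun γ =>
      {x | ((Q.ex.sel S).P n).dn ((Q.ex.sel S).hid 1 n) γ x ≤ ENNReal.ofReal (Q.ex.R.N n ^ (-f + τ))} := by
    refine k2a_pow_rpow (125 * C) hτ ?_
    filter_upwards [k2a_ok_wf hF] with n hn
    refine k2a_mass_le_of_forall hn fun γ => ?_
    refine (k2i_foot_mass (Q.D n) (Q.k n) (S n) hn _ (k2i_dy_one Q n) γ _).trans ?_
    have hN0 : 0 < Q.ex.R.N n := kb_res_pos _ n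
    rw [← ENNReal.ofReal_mul (by positivity)]
    refine ENNReal.ofReal_le_ofReal ?_
    have hv := (Q.bad n).vis
    rw [← k2i_N_rpow] at hv
    rw [k2i_N_pow]
    calc Q.ex.R.N n ^ (-f + τ) * (125 * (((Q.D n).Vis (Q.k n)).card : ℝ) / Q.ex.R.N n ^ ((3 : ℕ) : ℝ))
        ≤ Q.ex.R.N n ^ (-f + τ) * (125 * (C * Q.ex.R.N n ^ (4 - σ)) / Q.ex.R.N n ^ ((3 : ℕ) : ℝ)) := by gcongr
      _ = 125 * C * (Q.ex.R.N n ^ (-f + τ) * Q.ex.R.N n ^ (4 - σ) / Q.ex.R.N n ^ ((3 : ℕ) : ℝ)) := by ring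
      _ = 125 * C * Q.ex.R.N n ^ (-τ) := by
          rw [← Real.rpow_add hN0, ← Real.rpow_sub hN0]
          congr 2
          rw [hτdef]
          push_cast
          ring
  refine k2i_absurd hF (A := fun _ _ => Set.univ) (k2a_sq_pow_cover h1 h2 fun n γ x _ => ?_)
    (Eventually.of_forall fun _ _ _ => Set.mem_univ _)
  rcases lt_or_ge (ENNReal.ofReal (Q.ex.R.N n ^ (-f + τ))) (((Q.ex.sel S).P n).dn ((Q.ex.sel S).hid 1 n) γ x) with hx | hx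
  · exact Or.inl hx
  · exact Or.inr hx

/-- **`g(0,0) ≤ 0`**, for every countable measurable label -/
theorem k2i_I2 (H : K2bPlankFin) (S : Q.ex.Sel) (hF : (Q.ex.sel S).Ok) {L : Type} [Countable L] (ℓ : (Q.ex.sel S).Lab L)
    (hℓ : ∀ᶠ n in uf, ((Q.ex.sel S).P n).LabMeas (ℓ n)) (f : ℝ) (h : (Q.ex.sel S).TypLo ℓ f) : 0 ≤ f := by
  by_contra hcon
  push Not at hcon
  obtain ⟨θ, hθdef⟩ : ∃ θ : ℝ, θ = -f / 2 := ⟨_, rfl⟩
  have hθ : 0 < θ := by rw [hθdef]; linarith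
  have hfθ : -f - θ = θ := by rw [hθdef]; ring
  have h1 := (k2a_lo_iff hF _ f).1 h θ hθ
  obtain ⟨C', hC1, hg⟩ := k2i_g00_mass H (θ / 4) (by positivity)
  have hC0 : 0 < C' := by linarith
  obtain ⟨κ, hκdef⟩ : ∃ κ : ℝ, κ = θ / (4 * C') := ⟨_, rfl⟩
  have hκ : 0 < κ := by rw [hκdef]; positivity
  have h2 : K2aPow (Q.ex.sel S).R fun n => ((Q.ex.sel S).P n).mass fun γ =>
      {x | ENNReal.ofReal (Q.ex.R.N n ^ (-f - θ)) ≤ ((Q.ex.sel S).P n).dn (ℓ n) γ x} := by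
    refine ⟨κ, hκ, ?_⟩
    filter_upwards [k2a_ok_wf hF, hℓ, k2i_slack_le Q 1 κ le_rfl hκ,
      (kb_rpow_tendsto Q.ex.R (half_pos hθ)).eventually_gt_atTop C'] with n hn hl hs hc
    refine k2a_mass_le_of_forall hn fun γ => ?_
    by_contra hlt
    push Not at hlt
    have hN0 : 0 < Q.ex.R.N n := kb_res_pos _ n
    have hN1 : 1 ≤ Q.ex.R.N n := kb_res_one_le _ n
    have h3 := hg (Q.D n) σ C (Q.k n) (Q.bad n) (S n) hn L (ℓ n) hl γ (Q.ex.R.N n ^ κ) (Q.ex.R.N n ^ (-f - θ))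
      (Real.one_le_rpow hN1 hκ.le) (by rw [one_mul] at hs; exact hs) (Real.rpow_pos_of_pos hN0 _)
      (by rw [one_div, ← Real.rpow_neg hN0.le]; exact hlt.le)
    rw [← k2i_N_rpow, ← Real.rpow_mul hN0.le, hfθ] at h3
    have e1 : κ * C' = θ / 4 := by
      rw [hκdef]
      field_simp
    rw [e1, mul_assoc, ← Real.rpow_add hN0] at h3
    have e2 : θ / 4 + θ / 4 = θ / 2 := by ring
    rw [e2] at h3
    have e3 : Q.ex.R.N n ^ θ = Q.ex.R.N n ^ (θ / 2) * Q.ex.R.N n ^ (θ / 2) := (kb_rpow_half _ θ n).symm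
    rw [e3] at h3
    have h4 : 0 < Q.ex.R.N n ^ (θ / 2) := Real.rpow_pos_of_pos hN0 _
    have h5 := le_of_mul_le_mul_right h3 h4
    exact absurd hc (not_lt.2 h5)
  refine k2i_absurd hF (A := fun _ _ => Set.univ) (k2a_sq_pow_cover h1 h2 fun n γ x _ => ?_)
    (Eventually.of_forall fun _ _ _ => Set.mem_univ _)
  rcases lt_or_ge (((Q.ex.sel S).P n).dn (ℓ n) γ x) (ENNReal.ofReal (Q.ex.R.N n ^ (-f - θ))) with hx | hx
  · exact Or.inl hx
  · exact Or.inr hx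

/-- **the three initial density inequalities (2.36)** for a homogeneous selection of the initial problem -/
theorem k2i_profile (H : K2bPlankFin) (S : Q.ex.Sel) (hF : (Q.ex.sel S).Ok) (f : ℝ → ℝ → ℝ) (hf : (Q.ex.sel S).Hom f) :
    f 1 0 ≤ 1 - σ ∧ 0 ≤ f 0 0 ∧ ∀ r ∈ Set.Icc (0 : ℝ) 1, ∀ u : ℝ, 0 ≤ u → 2 * u - 2 ≤ f r u := by
  refine ⟨k2i_I1 S hF _ (hf.pure 1 ⟨zero_le_one, le_rfl⟩).1, ?_, fun r hr u hu => k2i_I3 S hF r u _ (hf.joint r hr u hu).2⟩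
  refine k2i_I2 H S hF _ ?_ _ (hf.pure 0 ⟨le_rfl, zero_le_one⟩).2
  filter_upwards [k2a_ok_wf hF] with n hn
  exact k2a_hid_meas hn _

end

end Claimed.Agent.R252
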