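import Claimed.Agent.R252.S2a.PbContract
import Claimed.Agent.R252.S2s.Api
import Claimed.Agent.R252.S2b.CoverContract

/-!
# Row 252, unit S2b, file 9 (CONTRACT): PROPOSITION 2.16 AT ONE SCALE, over `Base/Pb`, `Base/Sys`      (architect helper264)

02-framework.tex l.968-1156.   `P : KbPb v`, terminal thickness `a = a_L`, typical terminal density `n = n(L)`, time level `nt` with `q = kbQ nt ∈ (a/2, a]`.
GROUPS (l.972-990).  `g = (i, zy, zx)`: block `i` (`t_i = i q`), bin `zy` of `y(t_i)` at width `q`, bin `zx` of `X(t_i)` at width `a`.   `k2bGs P nt a γ g` = its trajectories, `k2bGl P nt a` = the group label of an incidence.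
Test of all charts of the group: `P_* - a zx`.   Box of the group: corner `z0 = q zy`, scale `s = K q`.
THE BOUND (direct, no contradiction; constants as in the header of `GroupContract.lean`).   For every group
  residual ≤ [group density `< n'`] + [irregular points of the PRIOR density: X-ray smoothing] + `(2 φ / n') q ν(G)` + `κ q ν(G)` + `C θ / (κ φ) D^ε m_G`,
summed with `∑_G q ν(G) ≤ 1`.   Choice: `n' = n / (K K₁)`, `K₁ = 32 K₂ n_list`, `φ = n' / (32 K₂)`, `κ = 1 / (16 K₂)`, `θ = κ φ / (16 K₂ C D^ε)`:  five terms `≤ 1 / (16 K₂)`, total mass `≥ 1 / K₂`.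
-/

set_option autoImplicit false

namespace Claimed.Agent.R252

open MeasureTheory
open scoped ENNReal BigOperators

noncomputable section

variable {v : KbVer}

/-- left end point of the block `i` of level `nt` -/
def k2bTi (nt i : ℕ) : ℝ := (i : ℝ) * kbQ nt

/-- group indices `(block, bin of y(t_i), bin of X(t_i))` -/
abbrev K2bG (v : KbVer) := ℕ × (Fin v.j → ℤ) × ℤ

/-- the trajectories of a group -/
def k2bGs (P : KbPb v) (nt : ℕ) (a : ℝ) (γ : P.W) (g : K2bG v) : Set P.Lam :=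
  {l | l ∈ P.Sp γ ∧ (∀ i, ⌊kbY (P.co γ l) (k2bTi nt g.1) i / kbQ nt⌋ = g.2.1 i) ∧ ⌊kbX (P.Pst γ) (P.co γ l) (k2bTi nt g.1) / a⌋ = g.2.2}

/-- the group label of an incidence -/
def k2bGl (P : KbPb v) (nt : ℕ) (a : ℝ) : P.Lab (K2bG v) := fun γ x =>
  (⌊x.2 / kbQ nt⌋₊, fun i => ⌊kbY (P.co γ x.1) (k2bTi nt ⌊x.2 / kbQ nt⌋₊) i / kbQ nt⌋,
    ⌊kbX (P.Pst γ) (P.co γ x.1) (k2bTi nt ⌊x.2 / kbQ nt⌋₊) / a⌋)

/-- the rectangle of a group in incidence space -/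
def k2bGr (P : KbPb v) (nt : ℕ) (a : ℝ) (γ : P.W) (g : K2bG v) : Set (P.Lam × ℝ) := k2bGs P nt a γ g ×ˢ kbI nt g.1

/-- the cell (mesh `1/D` in the normalised coordinates of the group `g`, scale `s`) of a base point -/
def k2bGc (nt : ℕ) (s : ℝ) (D : ℕ) (g : K2bG v) (o : ℝ × KbB v) : ℕ × (Fin v.j → ℤ) :=
  k2bCellV D (k2bNrm (k2bTi nt g.1) (kbQ nt) s (fun i => kbQ nt * (g.2.1 i : ℝ)) o)

theorem k2b_p216_eqns_cite : True := by
  have := @k2bTi.eq_1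
  have := @k2bGs.eq_1
  have := @k2bGl.eq_1
  have := @k2bGr.eq_1
  have := @k2bGc.eq_1
  trivial

variable (P : KbPb v)

/-! ## 1. Groups: measurability, partition, range -/

theorem k2b_quad_cont {T : KbTest v} (hT : KbIsQuad T) : Continuous fun x : ℝ × KbB v × ℝ => T x.1 x.2.1 x.2.2 := by
  obtain ⟨Q, hQ⟩ := hT
  have e : (fun x : ℝ × KbB v × ℝ => T x.1 x.2.1 x.2.2) = fun x => Q.ev x.1 x.2.1 x.2.2 :=
    funext fun x => hQ _ _ _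
  rw [e]
  unfold KbQuad.ev
  simp only [dotProduct, Matrix.mulVec]
  fun_prop

theorem k2b_tj_cont (t : ℝ) : Continuous fun l : KbTj v => ((t, kbY l t, kbW l t) : ℝ × KbB v × ℝ) := by
  unfold kbY kbW
  fun_prop

theorem k2b_Y_meas (hP : P.WF) (γ : P.W) (t : ℝ) (i : Fin v.j) : Measurable fun l : P.Lam => kbY (P.co γ l) t i := by
  have h1 : Continuous fun l : KbTj v => kbY l t i := by
    unfold kbY
    fun_prop
  exact h1.measurable.comp (hP.co_meas γ)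

theorem k2b_X_meas (hP : P.WF) (γ : P.W) (t : ℝ) : Measurable fun l : P.Lam => kbX (P.Pst γ) (P.co γ l) t :=
  (((k2b_quad_cont (hP.Pst_adm γ).1).comp (k2b_tj_cont t)).measurable).comp (hP.co_meas γ)

theorem k2b_binY_meas (hP : P.WF) (γ : P.W) (t q : ℝ) (z : Fin v.j → ℤ) : MeasurableSet {l : P.Lam | ∀ i, ⌊kbY (P.co γ l) t i / q⌋ = z i} := by
  have : {l : P.Lam | ∀ i, ⌊kbY (P.co γ l) t i / q⌋ = z i} = ⋂ i, {l : P.Lam | ⌊kbY (P.co γ l) t i / q⌋ = z i} := by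
    ext l
    simp
  rw [this]
  refine MeasurableSet.iInter fun i => ?_
  exact (Int.measurable_floor.comp ((k2b_Y_meas P hP γ _ i).div_const _)) (measurableSet_singleton _)

theorem k2b_binX_meas (hP : P.WF) (γ : P.W) (t a : ℝ) (z : ℤ) : MeasurableSet {l : P.Lam | ⌊kbX (P.Pst γ) (P.co γ l) t / a⌋ = z} :=
  (Int.measurable_floor.comp ((k2b_X_meas P hP γ _).div_const _)) (measurableSet_singleton _)

theorem k2b_floor_iff (nt : ℕ) {t : ℝ} (ht : 0 ≤ t) (i : ℕ) : ⌊t / kbQ nt⌋₊ = i ↔ t ∈ kbI nt i := by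
  have hq : 0 < kbQ nt := by unfold kbQ; positivity
  rw [Nat.floor_eq_iff (by positivity)]
  unfold kbI
  rw [Set.mem_Ico, le_div_iff₀ hq, div_lt_iff₀ hq]

theorem k2b_card_Icc {x : ℝ} (hx : 0 ≤ x) : ((Finset.Icc ⌊-x⌋ ⌊x⌋).card : ℝ) ≤ 2 * x + 2 := by
  rw [Int.card_Icc]
  have h1 : (⌊x⌋ : ℝ) ≤ x := Int.floor_le x
  have h2 : -x - 1 < (⌊-x⌋ : ℝ) := Int.sub_one_lt_floor (-x)
  have h3 : ⌊-x⌋ ≤ ⌊x⌋ := Int.floor_le_floor (by linarith)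
  have h4 : (((⌊x⌋ + 1 - ⌊-x⌋).toNat : ℤ) : ℝ) = ((⌊x⌋ + 1 - ⌊-x⌋ : ℤ) : ℝ) := by
    rw [Int.toNat_of_nonneg (by omega)]
  have h5 : (((⌊x⌋ + 1 - ⌊-x⌋).toNat : ℕ) : ℝ) = (((⌊x⌋ + 1 - ⌊-x⌋).toNat : ℤ) : ℝ) := by
    push_cast
    rfl
  rw [h5, h4]
  push_cast
  linarith

theorem k2b_ti_mem {nt i : ℕ} (hi : i < 2 ^ nt) : k2bTi nt i ∈ Set.Icc (0 : ℝ) 1 := by
  have hq : 0 < kbQ nt := by unfold kbQ; positivity
  have h1 : kbQ nt * 2 ^ nt = 1 := by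
    unfold kbQ
    rw [← mul_pow]
    norm_num
  have h2 : (i : ℝ) ≤ 2 ^ nt := by exact_mod_cast hi.le
  unfold k2bTi
  refine ⟨by positivity, ?_⟩
  calc (i : ℝ) * kbQ nt ≤ 2 ^ nt * kbQ nt := by gcongr
    _ = 1 := by rw [mul_comm]; exact h1

theorem k2b_floor_mem {x K w : ℝ} (hw : 0 < w) (hx : |x| ≤ K) : ⌊x / w⌋ ∈ Finset.Icc ⌊-(K / w)⌋ ⌊K / w⌋ := by
  have h := abs_le.1 hx
  rw [Finset.mem_Icc]
  constructor
  · apply Int.floor_le_floor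
    rw [← neg_div]
    gcongr
    exact h.1
  · apply Int.floor_le_floor
    gcongr
    exact h.2

/-- **LEAF L-252-S2b-Q1.**  `l ↦ kbY (co l) t i`, `l ↦ kbX (Pst γ) (co l) t` are measurable (`hP.co_meas`; `Pst γ` is a quadratic polynomial by `hP.Pst_adm`, hence continuous in `(y, w)`: rewrite with `KbQuad.ev`);  `Int.floor` is measurable. -/
theorem k2b_gs_meas (hP : P.WF) (nt : ℕ) (a : ℝ) (γ : P.W) (g : K2bG v) : MeasurableSet (k2bGs P nt a γ g) :=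
  (hP.Sp_meas γ).inter ((k2b_binY_meas P hP γ _ _ _).inter (k2b_binX_meas P hP γ _ _ _))

/-- **LEAF L-252-S2b-Q1.**  `⌊t / q⌋₊ = i ↔ t ∈ kbI nt i` for `t ≥ 0`. -/
theorem k2b_gl_iff (hP : P.WF) (nt : ℕ) (a : ℝ) (γ : P.W) (g : K2bG v) (x : P.Lam × ℝ) (hx : x ∈ P.Ev γ) :
    k2bGl P nt a γ x = g ↔ x ∈ k2bGr P nt a γ g := by
  have hx1 := (hP.Ev_sub γ hx).1
  have hx2 := (hP.Ev_sub γ hx).2
  obtain ⟨g1, g2, g3⟩ := g
  unfold k2bGl k2bGr k2bGs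
  simp only [Prod.mk.injEq, Set.mem_prod, Set.mem_ofPred_eq]
  constructor
  · rintro ⟨h1, h2, h3⟩
    subst h1
    refine ⟨⟨hx1, fun i => ?_, h3⟩, (k2b_floor_iff nt hx2.1 _).1 rfl⟩
    rw [← h2]
  · rintro ⟨⟨-, h2, h3⟩, h4⟩
    have h1 := (k2b_floor_iff nt hx2.1 g1).2 h4
    rw [h1]
    exact ⟨rfl, funext h2, h3⟩

/-- **LEAF L-252-S2b-Q1.**  The event `{k2bGl = g}` is `{(l,t) | conditions on l} ∩ {t | ⌊t/q⌋₊ = g.1}`. -/
theorem k2b_gl_meas (hP : P.WF) (nt : ℕ) (a : ℝ) : P.LabMeas (k2bGl P nt a) := by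
  intro γ g
  obtain ⟨g1, g2, g3⟩ := g
  have e : k2bGl P nt a γ ⁻¹' {(g1, g2, g3)} =
      ({l : P.Lam | (∀ i, ⌊kbY (P.co γ l) (k2bTi nt g1) i / kbQ nt⌋ = g2 i) ∧ ⌊kbX (P.Pst γ) (P.co γ l) (k2bTi nt g1) / a⌋ = g3}
        ×ˢ {t : ℝ | ⌊t / kbQ nt⌋₊ = g1}) := by
    ext x
    unfold k2bGl
    simp only [Set.mem_preimage, Set.mem_singleton_iff, Prod.mk.injEq, Set.mem_prod, Set.mem_ofPred_eq]
    constructor
    · rintro ⟨h1, h2, h3⟩
      subst h1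
      exact ⟨⟨fun i => by rw [← h2], h3⟩, rfl⟩
    · rintro ⟨⟨h2, h3⟩, h1⟩
      rw [h1]
      exact ⟨rfl, funext h2, h3⟩
  rw [e]
  exact MeasurableSet.prod ((k2b_binY_meas P hP γ _ _ _).inter (k2b_binX_meas P hP γ _ _ _))
    ((Nat.measurable_floor.comp (measurable_id.div_const _)) (measurableSet_singleton _))

/-- **LEAF L-252-S2b-Q1.** -/
theorem k2b_gs_disj (nt : ℕ) (a : ℝ) (γ : P.W) (g g' : K2bG v) (h1 : g.1 = g'.1) (hne : g ≠ g') :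
    Disjoint (k2bGs P nt a γ g) (k2bGs P nt a γ g') := by
  rw [Set.disjoint_left]
  rintro l ⟨-, h2, h3⟩ ⟨-, h2', h3'⟩
  apply hne
  rw [← h1] at h2' h3'
  refine Prod.ext h1 (Prod.ext (funext fun i => ?_) ?_)
  · rw [← h2 i, ← h2' i]
  · rw [← h3, ← h3']

/-- **LEAF L-252-S2b-Q1: finitely many groups.**   `|y(t_i) i| ≤ K`, `|X(t_i)| ≤ K` on `Sp` (`hK.base`, `hK.sig`; `t_i ∈ [0,1]`):  `Gf = range (2^nt) ×ˢ piFinset (Icc ⌊-K/q⌋ ⌊K/q⌋) ×ˢ Icc ⌊-K/a⌋ ⌊K/a⌋`. -/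
theorem k2b_gs_range (hP : P.WF) {K : ℝ} (hK : P.Ntv K) (nt : ℕ) {a : ℝ} (ha : 0 < a) :
    ∃ Gf : Finset (K2bG v), (∀ g ∈ Gf, g.1 < 2 ^ nt) ∧ ((Gf.card : ℝ) ≤ 2 ^ nt * (2 * K / kbQ nt + 2) ^ v.j * (2 * K / a + 2)) ∧
      ∀ γ g, g.1 < 2 ^ nt → (k2bGs P nt a γ g).Nonempty → g ∈ Gf := by
  have hq : 0 < kbQ nt := by unfold kbQ; positivity
  have hK0 : 0 < K := k2a_ntv_pos hK
  refine ⟨Finset.range (2 ^ nt) ×ˢ ((Fintype.piFinset fun _ : Fin v.j => Finset.Icc ⌊-(K / kbQ nt)⌋ ⌊K / kbQ nt⌋) ×ˢ Finset.Icc ⌊-(K / a)⌋ ⌊K / a⌋), ?_, ?_, ?_⟩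
  · intro g hg
    exact Finset.mem_range.1 (Finset.mem_product.1 hg).1
  · rw [Finset.card_product, Finset.card_product, Finset.card_range, Fintype.card_piFinset, Finset.prod_const, Finset.card_univ, Fintype.card_fin]
    push_cast
    rw [mul_assoc]
    have h1 := k2b_card_Icc (x := K / kbQ nt) (by positivity)
    have h2 := k2b_card_Icc (x := K / a) (by positivity)
    have e1 : 2 * K / kbQ nt = 2 * (K / kbQ nt) := by ring
    have e2 : 2 * K / a = 2 * (K / a) := by ring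
    rw [e1, e2]
    gcongr
  · rintro γ g hg ⟨l, hl, h2, h3⟩
    have ht := k2b_ti_mem hg
    refine Finset.mem_product.2 ⟨Finset.mem_range.2 hg, Finset.mem_product.2 ⟨Fintype.mem_piFinset.2 fun i => ?_, ?_⟩⟩
    · rw [← h2 i]
      refine k2b_floor_mem hq ?_
      have h4 := hK.base γ l hl _ ht
      have h5 : |kbY (P.co γ l) (k2bTi nt g.1) i| ≤ ‖kbY (P.co γ l) (k2bTi nt g.1)‖ := norm_le_pi_norm (kbY (P.co γ l) (k2bTi nt g.1)) i
      have h6 := norm_nonneg (kbV (P.co γ l))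
      linarith
    · rw [← h3]
      exact k2b_floor_mem ha (hK.sig γ l hl _ ht)

/-- **LEAF L-252-S2b-Q1: the budget of the groups.**   For fixed `i` the sets `k2bGs γ (i, ·, ·)` are disjoint (`k2b_gs_disj`): their `nu γ`-masses sum to `≤ 1`;  `2^nt` blocks, `q = 2^{-nt}`. -/
theorem k2b_gs_budget (hP : P.WF) (nt : ℕ) (a : ℝ) (γ : P.W) (Gf : Finset (K2bG v)) (hG : ∀ g ∈ Gf, g.1 < 2 ^ nt) :
    ∑ g ∈ Gf, ENNReal.ofReal (kbQ nt) * P.nu γ (k2bGs P nt a γ g) ≤ 1 := by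
  classical
  have hq : 0 < kbQ nt := by unfold kbQ; positivity
  have := hP.prob γ
  rw [← Finset.sum_fiberwise_of_maps_to (s := Gf) (t := Finset.range (2 ^ nt)) (g := fun g => g.1) (fun g hg => Finset.mem_range.2 (hG g hg))]
  have h1 : ∀ i ∈ Finset.range (2 ^ nt), ∑ g ∈ Gf with g.1 = i, ENNReal.ofReal (kbQ nt) * P.nu γ (k2bGs P nt a γ g) ≤ ENNReal.ofReal (kbQ nt) := by
    intro i _
    rw [← Finset.mul_sum, ← measure_biUnion_finset]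
    · calc _ ≤ ENNReal.ofReal (kbQ nt) * 1 := by
            gcongr
            exact prob_le_one
        _ = _ := mul_one _
    · intro g hg g' hg' hne
      have e1 := (Finset.mem_filter.1 hg).2
      have e2 := (Finset.mem_filter.1 hg').2
      exact k2b_gs_disj P nt a γ g g' (e1.trans e2.symm) hne
    · intro g _
      exact k2b_gs_meas P hP nt a γ g
  refine (Finset.sum_le_sum h1).trans ?_
  rw [Finset.sum_const, Finset.card_range, nsmul_eq_mul]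
  have e : ((2 ^ nt : ℕ) : ℝ≥0∞) = ENNReal.ofReal (2 ^ nt) := by
    rw [← ENNReal.ofReal_natCast]
    push_cast
    rfl
  rw [e, ← ENNReal.ofReal_mul (by positivity)]
  have h2 : (2 : ℝ) ^ nt * kbQ nt = 1 := by
    unfold kbQ
    rw [← mul_pow]
    norm_num
  rw [h2, ENNReal.ofReal_one]

/-! ## 2. The group label is known by `p_L`; the typical floor of the group density -/

theorem k2b_sig_quad_two (Q : KbQuad KbVer.two) (l : KbTj KbVer.two) : ∃ c0 c1 c2 : ℝ, ∀ t, kbX Q.ev l t = c0 + c1 * t + c2 * t ^ 2 := by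
  have hs : ∀ f : Fin (KbVer.j KbVer.two) → ℝ, ∑ i, f i = f (0 : Fin 2) + f (1 : Fin 2) := fun f => Fin.sum_univ_two f
  have he : ∀ f : Fin (KbVer.e KbVer.two) → ℝ, ∑ i, f i = f (0 : Fin 2) + f (1 : Fin 2) := fun f => Fin.sum_univ_two f
  refine ⟨kbX Q.ev l 0, (kbX Q.ev l 1 - kbX Q.ev l (-1)) / 2, (kbX Q.ev l 1 - 2 * kbX Q.ev l 0 + kbX Q.ev l (-1)) / 2, fun t => ?_⟩
  simp only [kbX, kbY, kbW, KbQuad.ev, dotProduct, Matrix.mulVec, hs, he, Pi.add_apply, Pi.smul_apply, smul_eq_mul, Fin.val_zero, Fin.val_one, pow_zero, pow_one]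
  ring

theorem k2b_sig_quad_one (l : KbTj KbVer.one) : ∃ c0 c1 c2 : ℝ, ∀ t, kbW l t = c0 + c1 * t + c2 * t ^ 2 := by
  have he : ∀ f : Fin (KbVer.e KbVer.one) → ℝ, ∑ i, f i = f (0 : Fin 3) + f (1 : Fin 3) + f (2 : Fin 3) := fun f => Fin.sum_univ_three f
  refine ⟨l.2.2 (0 : Fin 3), l.2.2 (1 : Fin 3), l.2.2 (2 : Fin 3), fun t => ?_⟩
  simp only [kbW, he, Fin.val_zero, Fin.val_one, Fin.val_two, pow_zero, pow_one]
  ring

/-- **LEAF L-252-S2b-Q2: the signal along a trajectory is a quadratic polynomial in `t`.**   Version 2: `y, w` affine, `Pst` quadratic (`hP.Pst_adm`).  Version 1: `Pst = w` (`hP.v1`), `w` quadratic.  (`cases v`; `Fin.sum_univ_two/three`; `KbQuad.ev`, `ring`.) -/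
theorem k2b_sig_quad (hP : P.WF) (γ : P.W) (l : P.Lam) : ∃ c0 c1 c2 : ℝ, ∀ t, kbX (P.Pst γ) (P.co γ l) t = c0 + c1 * t + c2 * t ^ 2 := by
  cases v with
  | one =>
    obtain ⟨c0, c1, c2, h⟩ := k2b_sig_quad_one (P.co γ l)
    refine ⟨c0, c1, c2, fun t => ?_⟩
    rw [← h t]
    exact (hP.v1 rfl γ).2 _ _ _
  | two =>
    obtain ⟨Q, hQ⟩ := (hP.Pst_adm γ).1
    obtain ⟨c0, c1, c2, h⟩ := k2b_sig_quad_two Q (P.co γ l)
    refine ⟨c0, c1, c2, fun t => ?_⟩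
    rw [← h t]
    exact hQ _ _ _

/-- **LEAF L-252-S2b-Q2.**  `k2b_sig_quad`, `hK.sig`, `k2b_quad_move`. -/
theorem k2b_sig_move (hP : P.WF) {K : ℝ} (hK : P.Ntv K) (γ : P.W) (l : P.Lam) (hl : l ∈ P.Sp γ) (t t' : ℝ) (ht : t ∈ Set.Icc (0 : ℝ) 1)
    (ht' : t' ∈ Set.Icc (0 : ℝ) 1) : |kbX (P.Pst γ) (P.co γ l) t - kbX (P.Pst γ) (P.co γ l) t'| ≤ 24 * K * |t - t'| := by
  obtain ⟨c0, c1, c2, h⟩ := k2b_sig_quad P hP γ l
  have h1 := (k2b_quad_move c0 c1 c2 K (fun s hs => by rw [← h s]; exact hK.sig γ l hl s hs)).2.2 t ht t' ht'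
  rw [h t, h t']
  exact h1

theorem k2b_q3_icc_card (x0 ℓ a : ℝ) (ha : 0 < a) (hℓ : 0 ≤ ℓ) :
    (Finset.Icc ⌊x0 / a⌋ ⌊(x0 + ℓ) / a⌋).card ≤ ⌊ℓ / a + 2⌋₊ := by
  refine Nat.le_floor ?_
  rw [Int.card_Icc]
  have hle : ⌊x0 / a⌋ ≤ ⌊(x0 + ℓ) / a⌋ := Int.floor_le_floor (div_le_div_of_nonneg_right (by linarith) ha.le)
  have hnn : 0 ≤ ⌊(x0 + ℓ) / a⌋ + 1 - ⌊x0 / a⌋ := by omega
  have e : (((⌊(x0 + ℓ) / a⌋ + 1 - ⌊x0 / a⌋).toNat : ℕ) : ℝ) = ((⌊(x0 + ℓ) / a⌋ + 1 - ⌊x0 / a⌋ : ℤ) : ℝ) := by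
    exact_mod_cast congrArg (fun z : ℤ => (z : ℝ)) (Int.toNat_of_nonneg hnn)
  rw [e]
  push_cast
  have f1 := Int.floor_le ((x0 + ℓ) / a)
  have f2 := Int.lt_floor_add_one (x0 / a)
  have f3 : (x0 + ℓ) / a = x0 / a + ℓ / a := add_div _ _ _
  linarith

theorem k2b_q3_icc_mem (c r a x : ℝ) (ha : 0 < a) (h : |x - c| ≤ r) :
    ⌊(c - r) / a⌋ ≤ ⌊x / a⌋ ∧ ⌊x / a⌋ ≤ ⌊(c - r + 2 * r) / a⌋ := by
  rw [abs_le] at h
  exact ⟨Int.floor_le_floor (div_le_div_of_nonneg_right (by linarith [h.1]) ha.le),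
    Int.floor_le_floor (div_le_div_of_nonneg_right (by linarith [h.2]) ha.le)⟩

theorem k2b_q3_pst_meas (hP : P.WF) (γ : P.W) (w : ℝ) : Measurable fun o : ℝ × KbB v => P.Pst γ o.1 o.2 w := by
  obtain ⟨⟨Q, hQ⟩, -⟩ := hP.Pst_adm γ
  have e : (fun o : ℝ × KbB v => P.Pst γ o.1 o.2 w) = fun o => Q.ev o.1 o.2 w := funext fun o => hQ _ _ _
  rw [e]
  unfold KbQuad.ev Matrix.mulVec dotProduct
  fun_prop

theorem k2b_q3_ti (nt : ℕ) (t : ℝ) (ht : t ∈ Set.Icc (0 : ℝ) 1) :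
    k2bTi nt ⌊t / kbQ nt⌋₊ ∈ Set.Icc (0 : ℝ) 1 ∧ |t - k2bTi nt ⌊t / kbQ nt⌋₊| ≤ kbQ nt := by
  have hq0 : 0 < kbQ nt := by
    unfold kbQ
    positivity
  have f1 := Nat.floor_le (div_nonneg ht.1 hq0.le)
  have f2 := Nat.lt_floor_add_one (t / kbQ nt)
  rw [le_div_iff₀ hq0] at f1
  rw [div_lt_iff₀ hq0] at f2
  unfold k2bTi
  refine ⟨⟨by positivity, f1.trans ht.2⟩, ?_⟩
  rw [abs_le]
  constructor <;> nlinarith

theorem k2b_q3_y {K : ℝ} (hK : P.Ntv K) (γ : P.W) (l : P.Lam) (hl : l ∈ P.Sp γ) (t t' : ℝ) (ht : t ∈ Set.Icc (0 : ℝ) 1) (k : Fin v.j) :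
    |kbY (P.co γ l) t' k - kbY (P.co γ l) t k| ≤ K * |t - t'| := by
  have h1 := hK.base γ l hl t ht
  have h2 : |kbV (P.co γ l) k| ≤ K := by
    have h3 := norm_le_pi_norm (kbV (P.co γ l)) k
    rw [Real.norm_eq_abs] at h3
    linarith [norm_nonneg (kbY (P.co γ l) t)]
  have e : kbY (P.co γ l) t' k - kbY (P.co γ l) t k = kbV (P.co γ l) k * (t' - t) := by
    unfold kbY kbV
    simp only [Pi.add_apply, Pi.smul_apply, smul_eq_mul]
    ring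
  rw [e, abs_mul, abs_sub_comm t' t]
  exact mul_le_mul_of_nonneg_right h2 (abs_nonneg _)

theorem k2b_q3_value (hP : P.WF) {K : ℝ} (hK : P.Ntv K) (hK1 : 1 ≤ K) {a : ℝ} (ha : 0 < a) (ha1 : a ≤ 1) (γ : P.W) (l : P.Lam)
    (hl : l ∈ P.Sp γ) (t : ℝ) (ht : t ∈ Set.Icc (0 : ℝ) 1) :
    |P.Pst γ t (kbY (P.co γ l) t) ((kbBin (a / P.B γ) (kbW (P.co γ l) t) : ℝ) * kbDy (a / P.B γ)) - kbX (P.Pst γ) (P.co γ l) t|
      ≤ 6 * K * a := by
  obtain ⟨⟨Q, hQ⟩, -⟩ := hP.Pst_adm γ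
  have hB := hP.B_pos γ
  obtain ⟨y, hy⟩ : ∃ y, y = kbY (P.co γ l) t := ⟨_, rfl⟩
  obtain ⟨w, hw⟩ : ∃ w, w = kbW (P.co γ l) t := ⟨_, rfl⟩
  obtain ⟨B, hBe⟩ : ∃ B, B = P.B γ := ⟨_, rfl⟩
  have hd := hK.dw γ l hl t ht
  have hdd := hK.dww γ t y w
  unfold kbX at hd ⊢
  rw [← hy, ← hw, ← hBe] at hd ⊢
  rw [← hBe] at hB hdd
  obtain ⟨q0, hq0⟩ : ∃ q0, q0 = Q.c0 + Q.ct * t + Q.cy ⬝ᵥ y + Q.ctt * t ^ 2 + t * (Q.cty ⬝ᵥ y) + y ⬝ᵥ Q.cyy.mulVec y := ⟨_, rfl⟩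
  obtain ⟨q1, hq1⟩ : ∃ q1, q1 = Q.cw + Q.ctw * t + Q.cyw ⬝ᵥ y := ⟨_, rfl⟩
  have hT : ∀ w', P.Pst γ t y w' = q0 + q1 * w' + Q.cww * w' ^ 2 := by
    intro w'
    rw [hQ, hq0, hq1]
    unfold KbQuad.ev
    ring
  have h1 : |q1 + 2 * Q.cww * w| ≤ K * B := by
    unfold kbDw at hd
    rw [hT, hT] at hd
    have e : q1 + 2 * Q.cww * w = (q0 + q1 * (w + 1) + Q.cww * (w + 1) ^ 2 - (q0 + q1 * (w - 1) + Q.cww * (w - 1) ^ 2)) / 2 := by ring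
    rw [e]
    exact hd
  have h2 : |2 * Q.cww| ≤ K * B ^ 2 := by
    unfold kbDww at hdd
    rw [hT, hT, hT] at hdd
    have e : 2 * Q.cww = q0 + q1 * (w + 1) + Q.cww * (w + 1) ^ 2 - 2 * (q0 + q1 * w + Q.cww * w ^ 2) + (q0 + q1 * (w - 1) + Q.cww * (w - 1) ^ 2) := by ring
    rw [e]
    exact hdd
  have hb := k2a_dy_bounds (div_pos ha hB)
  have hδ := k2a_dy_pos (a / B)
  have hw' : |(kbBin (a / B) w : ℝ) * kbDy (a / B) - w| ≤ 2 * a / B := by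
    unfold kbBin
    have f1 := Int.floor_le (w / kbDy (a / B))
    have f2 := Int.lt_floor_add_one (w / kbDy (a / B))
    rw [le_div_iff₀ hδ] at f1
    rw [div_lt_iff₀ hδ] at f2
    have e : 2 * a / B = 2 * (a / B) := by ring
    rw [e, abs_le]
    constructor <;> nlinarith [hb.2]
  have h3 := k2b_bin_value q0 q1 Q.cww w ((kbBin (a / B) w : ℝ) * kbDy (a / B)) K B (2 * a) hB (by linarith) (by linarith) h1 h2 hw'
  rw [hT, hT]
  refine h3.trans ?_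
  have h4 : K * a ^ 2 ≤ K * a := by
    have : a ^ 2 ≤ a := by nlinarith
    exact mul_le_mul_of_nonneg_left this (by linarith)
  nlinarith

/-- **LEAF L-252-S2b-Q3: list knowledge of the group label** (02 l.978-990) and the refinement estimate.   `Lst γ d o` for `o = (t, y)`, hidden bin `d`:  block `i = ⌊t/q⌋₊`;
`zy`: `y(t_i) = y - (t - t_i) V`, `‖V‖ ≤ K`: each coordinate in an interval of length `2 K q` (`k2b_bin_list`: `≤ 2K + 2` bins);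
`zx`: with `wd = kbDy (a / B)`, `w_d = d wd`, `|w(t) - w_d| < wd < 2a/B`: `|X(t) - Pst t y w_d| ≤ 2Ka + 4Ka² ≤ 6Ka` (`k2b_bin_value` with `2a`; `w ↦ Pst t y w = q₀ + q₁ w + q₂ w²`, `kbDw`, `kbDww` are its exact derivatives; `hK.dw`, `hK.dww`), `|X(t) - X(t_i)| ≤ 24 K q ≤ 24 K a`:
an interval of length `60 K a` about `Pst t y w_d` (`≤ 60K + 2` bins).   Measurability of `{o | g ∈ Lst γ d o}`: floors of continuous functions of `o`.
Then `k2a_list_small` for `lpair (hid a) (k2bGl)` and `dn (lpair ℓ ℓ') ≤ dn ℓ'` a.e. (`k2a_dn_comp_le` with `Prod.snd`). -/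
theorem k2b_gl_small (hP : P.WF) {K : ℝ} (hK : P.Ntv K) (hK1 : 1 ≤ K) (nt : ℕ) {a : ℝ} (ha : 0 < a) (ha1 : a ≤ 1) (hq : kbQ nt ≤ a) :
    ∃ n : ℕ, (n : ℝ) ≤ (2 * K + 3) ^ v.j * (60 * K + 3) ∧
      ∀ ε : ℝ≥0∞, P.mass (fun γ => {x | P.dn (k2bGl P nt a) γ x < ε * P.dn (P.hid a) γ x}) ≤ ε * n * P.tot := by
  have hq0 : 0 < kbQ nt := by
    unfold kbQ
    positivity
  have hK0 : 0 ≤ K := by linarith
  refine ⟨⌊2 * (K * kbQ nt) / kbQ nt + 2⌋₊ ^ v.j * ⌊2 * (30 * K * a) / a + 2⌋₊, ?_, ?_⟩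
  · push_cast
    have e1 : 2 * (K * kbQ nt) / kbQ nt = 2 * K := by field_simp
    have e2 : 2 * (30 * K * a) / a = 60 * K := by
      field_simp
      ring
    rw [e1, e2]
    have f1 : (⌊2 * K + 2⌋₊ : ℝ) ≤ 2 * K + 3 := (Nat.floor_le (by positivity)).trans (by linarith)
    have f2 : (⌊60 * K + 2⌋₊ : ℝ) ≤ 60 * K + 3 := (Nat.floor_le (by positivity)).trans (by linarith)
    exact mul_le_mul (pow_le_pow_left₀ (by positivity) f1 _) f2 (by positivity) (by positivity)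
  · intro ε
    have h := k2a_list_small hP (k2a_hid_meas hP a) (k2b_gl_meas P hP nt a)
      (fun γ d o => ({⌊o.1 / kbQ nt⌋₊} : Finset ℕ) ×ˢ ((Fintype.piFinset fun k : Fin v.j =>
          Finset.Icc ⌊(o.2 k - K * kbQ nt) / kbQ nt⌋ ⌊(o.2 k - K * kbQ nt + 2 * (K * kbQ nt)) / kbQ nt⌋) ×ˢ
        Finset.Icc ⌊(P.Pst γ o.1 o.2 ((d : ℝ) * kbDy (a / P.B γ)) - 30 * K * a) / a⌋
          ⌊(P.Pst γ o.1 o.2 ((d : ℝ) * kbDy (a / P.B γ)) - 30 * K * a + 2 * (30 * K * a)) / a⌋))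
      (⌊2 * (K * kbQ nt) / kbQ nt + 2⌋₊ ^ v.j * ⌊2 * (30 * K * a) / a + 2⌋₊) ?_ ?_ ?_ ε
    · refine le_trans ?_ h
      refine Finset.sum_le_sum fun γ _ => mul_le_mul_right (measure_mono_ae ?_) _
      have h2 : ∀ᵐ x ∂P.mu γ, P.dn (P.lpair (P.hid a) (k2bGl P nt a)) γ x ≤ P.dn (k2bGl P nt a) γ x := by
        simp only [k2a_dn_eq]
        exact k2a_dn_comp_le (k2a_fr hP γ) (P.lpair (P.hid a) (k2bGl P nt a) γ) Prod.snd
      filter_upwards [h2] with x hx hx'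
      exact lt_of_le_of_lt hx hx'
    · intro γ d o
      rw [Finset.card_product, Finset.card_product, Finset.card_singleton, one_mul, Fintype.card_piFinset]
      refine Nat.mul_le_mul ?_ (k2b_q3_icc_card _ _ a ha (by positivity))
      calc ∏ k : Fin v.j, (Finset.Icc ⌊(o.2 k - K * kbQ nt) / kbQ nt⌋ ⌊(o.2 k - K * kbQ nt + 2 * (K * kbQ nt)) / kbQ nt⌋).card
          ≤ ∏ _k : Fin v.j, ⌊2 * (K * kbQ nt) / kbQ nt + 2⌋₊ :=
            Finset.prod_le_prod (fun _ _ => Nat.zero_le _) (fun k _ => k2b_q3_icc_card _ _ _ hq0 (by positivity))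
        _ = ⌊2 * (K * kbQ nt) / kbQ nt + 2⌋₊ ^ v.j := by
            rw [Finset.prod_const, Finset.card_univ, Fintype.card_fin]
    · intro γ d g
      have hm := k2b_q3_pst_meas P hP γ ((d : ℝ) * kbDy (a / P.B γ))
      simp only [Finset.mem_product, Finset.mem_singleton, Fintype.mem_piFinset, Finset.mem_Icc]
      have m1 : MeasurableSet {o : ℝ × KbB v | g.1 = ⌊o.1 / kbQ nt⌋₊} :=
        measurableSet_eq_fun measurable_const (measurable_fst.div_const _).nat_floor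
      have m2 : MeasurableSet {o : ℝ × KbB v | ∀ k : Fin v.j, ⌊(o.2 k - K * kbQ nt) / kbQ nt⌋ ≤ g.2.1 k ∧
          g.2.1 k ≤ ⌊(o.2 k - K * kbQ nt + 2 * (K * kbQ nt)) / kbQ nt⌋} := by
        rw [Set.setOf_forall]
        refine MeasurableSet.iInter fun k => ?_
        have hk : Measurable fun o : ℝ × KbB v => o.2 k := (measurable_pi_apply k).comp measurable_snd
        exact (measurableSet_le ((hk.sub_const _).div_const _).floor measurable_const).inter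
          (measurableSet_le measurable_const (((hk.sub_const _).add_const _).div_const _).floor)
      have m3 : MeasurableSet {o : ℝ × KbB v | ⌊(P.Pst γ o.1 o.2 ((d : ℝ) * kbDy (a / P.B γ)) - 30 * K * a) / a⌋ ≤ g.2.2 ∧
          g.2.2 ≤ ⌊(P.Pst γ o.1 o.2 ((d : ℝ) * kbDy (a / P.B γ)) - 30 * K * a + 2 * (30 * K * a)) / a⌋} :=
        (measurableSet_le ((hm.sub_const _).div_const _).floor measurable_const).inter
          (measurableSet_le measurable_const (((hm.sub_const _).add_const _).div_const _).floor)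
      exact m1.inter (m2.inter m3)
    · intro γ x hx
      obtain ⟨hl, ht⟩ := hP.Ev_sub γ hx
      obtain ⟨hti, htq⟩ := k2b_q3_ti nt x.2 ht
      simp only [Finset.mem_product, Finset.mem_singleton, Fintype.mem_piFinset, Finset.mem_Icc]
      refine ⟨rfl, fun k => ?_, ?_⟩
      · refine k2b_q3_icc_mem _ _ _ _ hq0 ?_
        exact (k2b_q3_y P hK γ x.1 hl x.2 _ ht k).trans (mul_le_mul_of_nonneg_left htq hK0)
      · refine k2b_q3_icc_mem _ _ _ _ ha ?_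
        have h1 := k2b_q3_value P hP hK hK1 ha ha1 γ x.1 hl x.2 ht
        have h2 := k2b_sig_move P hP hK γ x.1 hl x.2 _ ht hti
        have h3 : 24 * K * |x.2 - k2bTi nt ⌊x.2 / kbQ nt⌋₊| ≤ 24 * K * a :=
          mul_le_mul_of_nonneg_left (htq.trans hq) (by positivity)
        have h4 : |kbX (P.Pst γ) (P.co γ x.1) (k2bTi nt ⌊x.2 / kbQ nt⌋₊)
            - P.Pst γ x.2 (kbY (P.co γ x.1) x.2) ((kbBin (a / P.B γ) (kbW (P.co γ x.1) x.2) : ℝ) * kbDy (a / P.B γ))| ≤ 30 * K * a := by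
          rw [abs_le] at h1 h2 ⊢
          constructor <;> linarith [h1.1, h1.2, h2.1, h2.2]
        exact h4

/-! ## 3. One group -/

/-- **LEAF L-252-S2b-Q4: the law of `(y₀, V)` has a polynomially bounded density.**   `hQ.dens`, `hQ.co_le` (`‖co l‖ ≤ Q` on `Sp`, `hP.Sp_full`): integrate out the hidden coefficients over `[-Q, Q]^e` (as in `k2a_map_le`, `R252/S2a/PbContract.lean`). -/
theorem k2b_marg (hP : P.WF) {Q : ℝ} (hQ : P.Tmp Q) (γ : P.W) (A : Set P.Lam) :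
    ((P.nu γ).restrict A).map (fun l => ((P.co γ l).1, (P.co γ l).2.1)) ≤ ENNReal.ofReal (Q * (2 * Q) ^ v.e) • volume := by
  have hQ0 : 0 ≤ Q := (Nat.cast_nonneg _).trans hQ.card
  set B₂ : Set (Fin v.e → ℝ) := Metric.closedBall 0 Q with hB₂
  have hB₂m : MeasurableSet B₂ := Metric.isClosed_closedBall.measurableSet
  have hvol : volume B₂ = ENNReal.ofReal ((2 * Q) ^ v.e) := by
    rw [hB₂, Real.volume_pi_closedBall _ hQ0, Fintype.card_fin]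
  set Bq : Set (KbTj v) := {c | c.2.2 ∈ B₂} with hBq
  have hBqm : MeasurableSet Bq := (measurable_snd.comp measurable_snd) hB₂m
  set ρ := (P.nu γ).map (P.co γ) with hρ
  have hρB : ρ.restrict Bq = ρ := by
    refine Measure.restrict_eq_self_of_ae_mem ?_
    rw [hρ]
    refine (ae_map_iff (hP.co_meas γ).aemeasurable hBqm).2 ?_
    have : ∀ᵐ l ∂P.nu γ, l ∈ P.Sp γ := by
      rw [ae_iff]
      exact hP.Sp_full γ
    filter_upwards [this] with l hl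
    have h1 := hQ.co_le γ l hl
    have h2 : ‖(P.co γ l).2‖ ≤ ‖P.co γ l‖ := norm_snd_le _
    have h3 : ‖(P.co γ l).2.2‖ ≤ ‖(P.co γ l).2‖ := norm_snd_le _
    simpa [hBq, hB₂] using h3.trans (h2.trans h1)
  have hρle : ρ ≤ ENNReal.ofReal Q • (volume : Measure (KbTj v)).restrict Bq := by
    rw [← hρB, ← Measure.restrict_smul]
    exact Measure.restrict_mono le_rfl (hQ.dens γ)
  have hπ : Measurable (fun c : KbTj v => (c.1, c.2.1)) := by fun_prop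
  have h1 : ((P.nu γ).restrict A).map (fun l => ((P.co γ l).1, (P.co γ l).2.1)) ≤ ρ.map (fun c : KbTj v => (c.1, c.2.1)) := by
    rw [hρ, Measure.map_map hπ (hP.co_meas γ)]
    exact Measure.map_mono Measure.restrict_le_self (hπ.comp (hP.co_meas γ))
  refine h1.trans (Measure.le_iff.2 fun S hS => ?_)
  rw [Measure.map_apply hπ hS]
  have hv : (volume : Measure (KbTj v)) ((fun c : KbTj v => (c.1, c.2.1)) ⁻¹' S ∩ Bq) = volume S * volume B₂ := by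
    have hmp := measurePreserving_prodAssoc (volume : Measure (KbB v)) (volume : Measure (KbB v)) (volume : Measure (Fin v.e → ℝ))
    have e := hmp.measure_preimage (((hπ hS).inter hBqm).nullMeasurableSet)
    have e2 : (MeasurableEquiv.prodAssoc : (KbB v × KbB v) × (Fin v.e → ℝ) ≃ᵐ KbB v × KbB v × (Fin v.e → ℝ)) ⁻¹'
        ((fun c : KbTj v => (c.1, c.2.1)) ⁻¹' S ∩ Bq) = S ×ˢ B₂ := by
      ext ⟨⟨y, V⟩, w⟩
      simp [hBq, MeasurableEquiv.prodAssoc]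
    rw [e2, Measure.prod_prod] at e
    rw [Measure.volume_eq_prod, Measure.volume_eq_prod (α := KbB v) (β := Fin v.e → ℝ), ← e, Measure.volume_eq_prod]
  calc ρ ((fun c : KbTj v => (c.1, c.2.1)) ⁻¹' S) ≤ (ENNReal.ofReal Q • (volume : Measure (KbTj v)).restrict Bq) ((fun c : KbTj v => (c.1, c.2.1)) ⁻¹' S) := hρle _
    _ = ENNReal.ofReal Q * (volume S * volume B₂) := by
        rw [Measure.smul_apply, smul_eq_mul, Measure.restrict_apply (hπ hS), hv]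
    _ = (ENNReal.ofReal (Q * (2 * Q) ^ v.e) • volume) S := by
        rw [hvol, Measure.smul_apply, smul_eq_mul, ENNReal.ofReal_mul hQ0]
        ring

/-! ### tools for Q5, Q6 (helper92) -/

theorem k2b_q5_qpos (nt : ℕ) : 0 < kbQ nt := by
  unfold kbQ
  positivity

theorem k2b_q5_qle (nt : ℕ) : kbQ nt ≤ 1 := by
  unfold kbQ
  exact pow_le_one₀ (by norm_num) (by norm_num)

theorem k2b_q5_qmul (nt : ℕ) : kbQ nt * 2 ^ nt = 1 := by
  unfold kbQ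
  rw [← mul_pow]
  norm_num

theorem k2b_q5_I (nt i : ℕ) : kbI nt i = Set.Ico (k2bTi nt i) (k2bTi nt i + kbQ nt) := by
  unfold kbI k2bTi
  congr 1
  ring

theorem k2b_q5_Ti_le (nt i : ℕ) (hi : i < 2 ^ nt) : k2bTi nt i + kbQ nt ≤ 1 := by
  have h1 : ((i : ℝ) + 1) ≤ 2 ^ nt := by exact_mod_cast hi
  have h2 := mul_le_mul_of_nonneg_left h1 (k2b_q5_qpos nt).le
  rw [k2b_q5_qmul] at h2
  unfold k2bTi
  linarith

theorem k2b_q5_Ti_nonneg (nt i : ℕ) : 0 ≤ k2bTi nt i := by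
  unfold k2bTi
  exact mul_nonneg (Nat.cast_nonneg _) (k2b_q5_qpos nt).le

theorem k2b_q5_Ti_mem (nt i : ℕ) (hi : i < 2 ^ nt) : k2bTi nt i ∈ Set.Icc (0 : ℝ) 1 :=
  ⟨k2b_q5_Ti_nonneg nt i, by linarith [k2b_q5_Ti_le nt i hi, k2b_q5_qpos nt]⟩

theorem k2b_q5_I_sub (nt i : ℕ) (hi : i < 2 ^ nt) : kbI nt i ⊆ Set.Icc (0 : ℝ) 1 := by
  rw [k2b_q5_I]
  intro t ht
  exact ⟨(k2b_q5_Ti_nonneg nt i).trans ht.1, ht.2.le.trans (k2b_q5_Ti_le nt i hi)⟩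

theorem k2b_q5_I_meas (nt i : ℕ) : MeasurableSet (kbI nt i) := by
  unfold kbI
  exact measurableSet_Ico

theorem k2b_q5_I_vol (nt i : ℕ) : volume (kbI nt i) = ENNReal.ofReal (kbQ nt) := by
  rw [k2b_q5_I, Real.volume_Ico]
  congr 1
  ring

/-- the box of a group -/
theorem k2b_q5_box {K : ℝ} (hK : P.Ntv K) (nt : ℕ) (a : ℝ) (γ : P.W) (g : K2bG v) (hg : g.1 < 2 ^ nt) :
    ∀ l ∈ k2bGs P nt a γ g, ‖(P.co γ l).1 + k2bTi nt g.1 • (P.co γ l).2.1 - (fun i => kbQ nt * (g.2.1 i : ℝ))‖ ≤ kbQ nt ∧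
      ‖(P.co γ l).2.1‖ ≤ K ∧ ‖(P.co γ l).1 + k2bTi nt g.1 • (P.co γ l).2.1‖ ≤ K := by
  intro l hl
  obtain ⟨hSp, hy, -⟩ := hl
  have hq := k2b_q5_qpos nt
  have hb := hK.base γ l hSp _ (k2b_q5_Ti_mem nt g.1 hg)
  have hn1 : 0 ≤ ‖kbY (P.co γ l) (k2bTi nt g.1)‖ := norm_nonneg _
  have hn2 : 0 ≤ ‖kbV (P.co γ l)‖ := norm_nonneg _
  refine ⟨?_, by have : ‖kbV (P.co γ l)‖ ≤ K := by linarith
                 exact this, by have : ‖kbY (P.co γ l) (k2bTi nt g.1)‖ ≤ K := by linarith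
                                exact this⟩
  rw [pi_norm_le_iff_of_nonneg hq.le]
  intro i
  have h1 := hy i
  rw [Int.floor_eq_iff, le_div_iff₀ hq, div_lt_iff₀ hq] at h1
  have e : ((P.co γ l).1 + k2bTi nt g.1 • (P.co γ l).2.1 - (fun i => kbQ nt * (g.2.1 i : ℝ))) i
      = kbY (P.co γ l) (k2bTi nt g.1) i - kbQ nt * (g.2.1 i : ℝ) := rfl
  rw [e, Real.norm_eq_abs, abs_le]
  constructor <;> nlinarith [h1.1, h1.2]

/-- the incidence measure as a product measure -/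
theorem k2b_q5_mu_apply (hP : P.WF) (γ : P.W) (S : Set (P.Lam × ℝ)) : P.mu γ S = ((P.nu γ).prod volume) (S ∩ P.Ev γ) := by
  have := hP.prob γ
  have e1 : (P.nu γ).prod (KbPb.tm : Measure ℝ) = ((P.nu γ).prod volume).restrict (Set.univ ×ˢ Set.Icc (0 : ℝ) 1) := by
    unfold KbPb.tm
    conv_lhs => rw [← Measure.restrict_univ (μ := P.nu γ)]
    exact Measure.prod_restrict _ _
  unfold KbPb.mu
  rw [Measure.restrict_apply' (hP.Ev_meas γ), e1, Measure.restrict_apply' (MeasurableSet.univ.prod measurableSet_Icc)]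
  congr 1
  ext x
  constructor
  · exact fun h => h.1
  · exact fun h => ⟨h, Set.mem_univ _, (hP.Ev_sub γ h.2).2⟩

theorem k2b_q5_gr_meas (hP : P.WF) (nt : ℕ) (a : ℝ) (γ : P.W) (g : K2bG v) : MeasurableSet (k2bGr P nt a γ g) :=
  (k2b_gs_meas P hP nt a γ g).prod (k2b_q5_I_meas nt g.1)

theorem k2b_q5_mu_restrict (hP : P.WF) (nt : ℕ) (a : ℝ) (γ : P.W) (g : K2bG v) :
    (P.mu γ).restrict (k2bGl P nt a γ ⁻¹' {g}) = (P.mu γ).restrict (k2bGr P nt a γ g) := by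
  unfold KbPb.mu
  rw [Measure.restrict_restrict (k2b_gl_meas P hP nt a γ g), Measure.restrict_restrict (k2b_q5_gr_meas P hP nt a γ g)]
  congr 1
  ext x
  constructor
  · exact fun h => ⟨(k2b_gl_iff P hP nt a γ g x h.2).1 h.1, h.2⟩
  · exact fun h => ⟨(k2b_gl_iff P hP nt a γ g x h.2).2 h.1, h.2⟩

theorem k2b_q5_mu_le (hP : P.WF) (nt : ℕ) (a : ℝ) (γ : P.W) (g : K2bG v) :
    (P.mu γ).restrict (k2bGr P nt a γ g) ≤ ((P.nu γ).restrict (k2bGs P nt a γ g)).prod (volume.restrict (kbI nt g.1)) := by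
  have := hP.prob γ
  rw [Measure.prod_restrict]
  refine Measure.le_iff.2 fun T _ => ?_
  have e : (((P.nu γ).prod volume).restrict (k2bGs P nt a γ g ×ˢ kbI nt g.1)) T = ((P.nu γ).prod volume) (T ∩ k2bGr P nt a γ g) :=
    Measure.restrict_apply' (k2b_q5_gr_meas P hP nt a γ g)
  rw [Measure.restrict_apply' (k2b_q5_gr_meas P hP nt a γ g), e, k2b_q5_mu_apply P hP]
  exact measure_mono Set.inter_subset_left

theorem k2b_q5_part_apply (hP : P.WF) (nt : ℕ) (a : ℝ) (γ : P.W) (g : K2bG v) {S : Set (ℝ × KbB v)} (hS : MeasurableSet S) :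
    P.part (k2bGl P nt a) γ g S = P.mu γ {x | x ∈ k2bGr P nt a γ g ∧ P.bs γ x ∈ S} := by
  unfold KbPb.part
  rw [k2b_q5_mu_restrict P hP, Measure.map_apply (k2a_bs_meas hP γ) hS, Measure.restrict_apply' (k2b_q5_gr_meas P hP nt a γ g)]
  congr 1
  ext x
  exact and_comm

theorem k2b_q5_part_le (hP : P.WF) (nt : ℕ) (a : ℝ) (γ : P.W) (g : K2bG v) :
    P.part (k2bGl P nt a) γ g ≤ (((P.nu γ).restrict (k2bGs P nt a γ g)).prod (volume.restrict (kbI nt g.1))).map (P.bs γ) := by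
  unfold KbPb.part
  rw [k2b_q5_mu_restrict P hP]
  exact Measure.map_mono (k2b_q5_mu_le P hP nt a γ g) (k2a_bs_meas hP γ)

/-- the prior base law of a group is absolutely continuous -/
theorem k2b_q5_ac (hP : P.WF) (nt : ℕ) (a : ℝ) (γ : P.W) (g : K2bG v) :
    (((P.nu γ).restrict (k2bGs P nt a γ g)).prod (volume.restrict (kbI nt g.1))).map (P.bs γ) ≪ volume := by
  have := hP.prob γ
  refine Measure.AbsolutelyContinuous.mk fun A hA h0 => ?_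
  have h1 : ((P.nu γ).map (P.co γ)).prod (volume : Measure ℝ) = ((P.nu γ).prod volume).map (Prod.map (P.co γ) id) := by
    conv_lhs => rw [← Measure.map_id (μ := (volume : Measure ℝ))]
    exact Measure.map_prod_map _ _ (hP.co_meas γ) measurable_id
  have h2 : (((P.nu γ).map (P.co γ)).prod (volume : Measure ℝ)) (k2aG ⁻¹' A) = 0 := by
    refine ((hP.ac γ).prod (Measure.AbsolutelyContinuous.refl _)) ?_
    have := k2a_shear hA (MeasurableSet.univ (α := KbB v × (Fin v.e → ℝ)))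
    rw [h0, mul_zero] at this
    simpa [Measure.volume_eq_prod] using this
  rw [h1, Measure.map_apply ((hP.co_meas γ).prodMap measurable_id) (k2a_G_meas hA)] at h2
  rw [Measure.map_apply (k2a_bs_meas hP γ) hA]
  refine le_antisymm (le_trans ?_ h2.le) zero_le
  exact Measure.prod_mono Measure.restrict_le_self Measure.restrict_le_self _


/-- X-ray smoothing for the prior base law of a group -/
theorem k2b_q5_xr (v : KbVer) (P : KbPb v) (nt : ℕ) (a K Q : ℝ) (D : ℕ) (γ : P.W) (g : K2bG v)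
    (hP : P.WF) (hK : P.Ntv K) (hQ : P.Tmp Q) (hK1 : 1 ≤ K) (hQ1 : 1 ≤ Q) (hD : 1 ≤ D) (hg : g.1 < 2 ^ nt)
    (β : Measure (ℝ × KbB v)) (hβ : β = (((P.nu γ).restrict (k2bGs P nt a γ g)).prod (volume.restrict (kbI nt g.1))).map (P.bs γ)) :
    β {o | 2 * β (k2bGc nt (K * kbQ nt) D g ⁻¹' {k2bGc nt (K * kbQ nt) D g o})
        < β.rnDeriv volume o * ENNReal.ofReal (kbQ nt * (K * kbQ nt) ^ v.j / (D : ℝ) ^ (v.j + 1))}
      ≤ ENNReal.ofReal (196608 * Q ^ 4 * K ^ 4 * (1 / (D : ℝ)) ^ (1 / 4 : ℝ)) := by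
  have hq := k2b_q5_qpos nt
  have hq1 := k2b_q5_qle nt
  have hs : 0 < K * kbQ nt := by positivity
  have := hP.prob γ
  have hQ0 : 0 ≤ Q * (2 * Q) ^ v.e := by positivity
  have hy0 : Measurable fun l => (P.co γ l).1 := measurable_fst.comp (hP.co_meas γ)
  have hV : Measurable fun l => (P.co γ l).2.1 := (measurable_fst.comp measurable_snd).comp (hP.co_meas γ)
  have hGm := k2b_gs_meas P hP nt a γ g
  have hlam : ((P.nu γ).restrict (k2bGs P nt a γ g)) (k2bGs P nt a γ g)ᶜ = 0 := by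
    rw [Measure.restrict_apply hGm.compl, Set.compl_inter_self, measure_empty]
  have hbox : ∀ l ∈ k2bGs P nt a γ g, ‖(P.co γ l).1 + k2bTi nt g.1 • (P.co γ l).2.1 - (fun i => kbQ nt * (g.2.1 i : ℝ))‖ ≤ K * kbQ nt ∧
      kbQ nt * ‖(P.co γ l).2.1‖ ≤ K * kbQ nt := by
    intro l hl
    obtain ⟨h1, h2, -⟩ := k2b_q5_box P hK nt a γ g hg l hl
    constructor
    · nlinarith
    · nlinarith
  have hβ' : β = (((P.nu γ).restrict (k2bGs P nt a γ g)).prod (volume.restrict (Set.Ico (k2bTi nt g.1) (k2bTi nt g.1 + kbQ nt)))).map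
      (fun x => (x.2, (P.co γ x.1).1 + x.2 • (P.co γ x.1).2.1)) := by
    rw [hβ, k2b_q5_I]
    rfl
  have hr : 0 ≤ (1 / (D : ℝ)) ^ (1 / 4 : ℝ) := by positivity
  obtain ⟨r, hrdef⟩ : ∃ r : ℝ, r = (1 / (D : ℝ)) ^ (1 / 4 : ℝ) := ⟨_, rfl⟩
  rw [← hrdef] at hr ⊢
  have hdens := k2b_marg P hP hQ γ (k2bGs P nt a γ g)
  cases v with
  | one =>
    have h := k2b_xr_sc (n := 0) D hD _ hQ0 ((P.nu γ).restrict (k2bGs P nt a γ g)) _ _ hy0 hV _ hGm hlam hdens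
      (k2bTi nt g.1) (kbQ nt) (K * kbQ nt) hq hs _ hbox β hβ'
    refine le_trans h (ENNReal.ofReal_le_ofReal ?_)
    rw [← hrdef]
    generalize kbQ nt = q at hq hq1 ⊢
    have e : q * (2 ^ (0 + 3) * (((0 : ℕ) : ℝ) + 2) * (((0 : ℕ) : ℝ) + 1) * (32 * 8 ^ 0) *
        (Q * (2 * Q) ^ KbVer.one.e * (K * q) ^ (2 * (0 + 1)) / q ^ (0 + 1)) * r) = 4096 * (Q ^ 4 * r) * (K ^ 2 * q ^ 2) := by
      have e3 : KbVer.one.e = 3 := rfl
      rw [e3]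
      field_simp
      push_cast
      ring
    rw [e]
    have h1 : K ^ 2 * q ^ 2 ≤ K ^ 4 * 1 :=
      mul_le_mul (pow_le_pow_right₀ hK1 (by norm_num)) (pow_le_one₀ hq.le hq1) (by positivity) (by positivity)
    have h2 : 0 ≤ Q ^ 4 * r := by positivity
    have h3 : 0 ≤ Q ^ 4 * r * K ^ 4 := by positivity
    nlinarith [mul_le_mul_of_nonneg_left h1 h2]
  | two =>
    have h := k2b_xr_sc (n := 1) D hD _ hQ0 ((P.nu γ).restrict (k2bGs P nt a γ g)) _ _ hy0 hV _ hGm hlam hdens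
      (k2bTi nt g.1) (kbQ nt) (K * kbQ nt) hq hs _ hbox β hβ'
    refine le_trans h (ENNReal.ofReal_le_ofReal ?_)
    rw [← hrdef]
    generalize kbQ nt = q at hq hq1 ⊢
    have e : q * (2 ^ (1 + 3) * (((1 : ℕ) : ℝ) + 2) * (((1 : ℕ) : ℝ) + 1) * (32 * 8 ^ 1) *
        (Q * (2 * Q) ^ KbVer.two.e * (K * q) ^ (2 * (1 + 1)) / q ^ (1 + 1)) * r) = 98304 * (K ^ 4 * r) * (Q ^ 3 * q ^ 3) := by
      have e3 : KbVer.two.e = 2 := rfl
      rw [e3]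
      field_simp
      push_cast
      ring
    rw [e]
    have h1 : Q ^ 3 * q ^ 3 ≤ Q ^ 4 * 1 :=
      mul_le_mul (pow_le_pow_right₀ hQ1 (by norm_num)) (pow_le_one₀ hq.le hq1) (by positivity) (by positivity)
    have h2 : 0 ≤ K ^ 4 * r := by positivity
    have h3 : 0 ≤ K ^ 4 * r * Q ^ 4 := by positivity
    nlinarith [mul_le_mul_of_nonneg_left h1 h2]


theorem k2b_q5_gc_meas (nt : ℕ) (s : ℝ) (D : ℕ) (g : K2bG v) : Measurable (k2bGc nt s D g) :=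
  (k2b_sc_cell_meas D).comp (k2b_sc_nrm_meas _ _ _ _)

/-- **LEAF L-252-S2b-Q5: heavy cells and the mass of the light cells of one group.**   `βs = P.part (k2bGl P nt a) γ g` (its `rnDeriv` is `P.den …` by definition), `β0 = (((nu γ).restrict Gs).prod (volume.restrict (kbI nt g.1))).map (bs γ)`;  `βs ≤ β0` (`k2b_gl_iff`, `mu ≤ nu × tm`);
`cell = k2bGc nt (K q) D g`, `w = q (K q)^j / D^{j+1}`.   `Vis` = the cells with `βs (cell⁻¹ c) ≥ φ w`: finite, `#Vis φ w ≤ βs univ` (`k2b_cell_count`; finiteness as in `glu_class_card`).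
`k2b_light` + `k2b_xr_sc` (`v.j = n + 1`: `cases v`; `lam = (nu γ).restrict Gs`, `Q₀ = Q (2Q)^e` from `k2b_marg`; box: `y(t_i) - q zy ∈ [0,q)^j`, `q ‖V‖ ≤ K q`).
`q (K q)^{2j} / q^j ≤ K^4` and `Q (2Q)^e ≤ 8 Q^4`;  `β0 univ = q nu(Gs)`. -/
theorem k2b_pb_light : ∃ C0 : ℝ, 1 ≤ C0 ∧ ∀ (v : KbVer) (P : KbPb v) (nt : ℕ) (a K Q : ℝ) (D : ℕ) (n' φ : ℝ) (γ : P.W) (g : K2bG v),
    P.WF → P.Ntv K → P.Tmp Q → 1 ≤ K → 1 ≤ Q → 1 ≤ D → 0 < a → g.1 < 2 ^ nt → 0 < n' → 0 < φ →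
    ∃ Vis : Finset (ℕ × (Fin v.j → ℤ)),
      (Vis.card : ℝ≥0∞) * ENNReal.ofReal (φ * (kbQ nt * (K * kbQ nt) ^ v.j / (D : ℝ) ^ (v.j + 1))) ≤ P.mu γ (k2bGr P nt a γ g) ∧
      P.mu γ {x | x ∈ k2bGr P nt a γ g ∧ k2bGc nt (K * kbQ nt) D g (P.bs γ x) ∉ Vis}
        ≤ P.mu γ {x | x ∈ k2bGr P nt a γ g ∧ P.dn (k2bGl P nt a) γ x < ENNReal.ofReal n'}
          + ENNReal.ofReal (C0 * Q ^ 4 * K ^ 4 * (1 / (D : ℝ)) ^ (1 / 4 : ℝ))
          + ENNReal.ofReal (2 * φ / n' * kbQ nt) * P.nu γ (k2bGs P nt a γ g) := by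
  refine ⟨196608, by norm_num, ?_⟩
  intro v P nt a K Q D n' φ γ g hP hK hQ hK1 hQ1 hD _ hg hn' hφ
  classical
  have hq := k2b_q5_qpos nt
  have hD0 : (0 : ℝ) < (D : ℝ) := by exact_mod_cast (lt_of_lt_of_le Nat.zero_lt_one hD)
  have := hP.prob γ
  obtain ⟨w, hw⟩ : ∃ w : ℝ, w = kbQ nt * (K * kbQ nt) ^ v.j / (D : ℝ) ^ (v.j + 1) := ⟨_, rfl⟩
  have hw0 : 0 < w := by
    rw [hw]
    positivity
  rw [← hw]
  obtain ⟨cell, hcell⟩ : ∃ cell : ℝ × KbB v → ℕ × (Fin v.j → ℤ), cell = k2bGc nt (K * kbQ nt) D g := ⟨_, rfl⟩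
  have hcm : Measurable cell := by
    rw [hcell]
    exact k2b_q5_gc_meas nt _ D g
  have hcs : ∀ c, MeasurableSet (cell ⁻¹' {c}) := fun c => hcm (measurableSet_singleton c)
  obtain ⟨βs, hβs⟩ : ∃ βs : Measure (ℝ × KbB v), βs = P.part (k2bGl P nt a) γ g := ⟨_, rfl⟩
  obtain ⟨β0, hβ0⟩ : ∃ β0 : Measure (ℝ × KbB v),
      β0 = (((P.nu γ).restrict (k2bGs P nt a γ g)).prod (volume.restrict (kbI nt g.1))).map (P.bs γ) := ⟨_, rfl⟩
  have hle : βs ≤ β0 := by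
    rw [hβs, hβ0]
    exact k2b_q5_part_le P hP nt a γ g
  have hac : β0 ≪ volume := by
    rw [hβ0]
    exact k2b_q5_ac P hP nt a γ g
  have hfinI : IsFiniteMeasure ((volume : Measure ℝ).restrict (kbI nt g.1)) :=
    ⟨by rw [Measure.restrict_apply MeasurableSet.univ, Set.univ_inter, k2b_q5_I_vol]; exact ENNReal.ofReal_lt_top⟩
  have hfin0 : IsFiniteMeasure β0 := by
    rw [hβ0]
    infer_instance
  have hfins : IsFiniteMeasure βs := isFiniteMeasure_of_le β0 hle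
  have happ : ∀ S : Set (ℝ × KbB v), MeasurableSet S → βs S = P.mu γ {x | x ∈ k2bGr P nt a γ g ∧ P.bs γ x ∈ S} := by
    intro S hS
    rw [hβs]
    exact k2b_q5_part_apply P hP nt a γ g hS
  have huniv : βs Set.univ = P.mu γ (k2bGr P nt a γ g) := by
    rw [happ _ MeasurableSet.univ]
    congr 1
    ext x
    simp
  have hφw : 0 < ENNReal.ofReal (φ * w) := ENNReal.ofReal_pos.2 (by positivity)
  have hVfin : Set.Finite {c | ENNReal.ofReal (φ * w) ≤ βs (cell ⁻¹' {c})} := by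
    refine Measure.finite_const_le_meas_of_disjoint_iUnion βs hφw hcs ?_ (measure_ne_top _ _)
    intro c c' hcc
    exact Set.disjoint_left.mpr fun o h1 h2 => hcc (by rw [← Set.mem_singleton_iff.mp h1, ← Set.mem_singleton_iff.mp h2])
  obtain ⟨Vis, hVis⟩ : ∃ Vis : Finset (ℕ × (Fin v.j → ℤ)), ∀ c, c ∈ Vis ↔ ENNReal.ofReal (φ * w) ≤ βs (cell ⁻¹' {c}) :=
    ⟨hVfin.toFinset, fun c => hVfin.mem_toFinset⟩
  refine ⟨Vis, ?_, ?_⟩
  · rw [← huniv]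
    exact k2b_cell_count βs cell _ (fun c _ => hcs c) _ fun c hc => (hVis c).1 hc
  have hL := k2b_light volume βs β0 hle hac cell hcs (ENNReal.ofReal w) (ENNReal.ofReal n') (ENNReal.ofReal φ)
    (ENNReal.ofReal_pos.2 hn').ne' ENNReal.ofReal_ne_top
  have hxr := k2b_q5_xr v P nt a K Q D γ g hP hK hQ hK1 hQ1 hD hg β0 hβ0
  rw [← hw, ← hcell] at hxr
  have e1 : P.mu γ {x | x ∈ k2bGr P nt a γ g ∧ k2bGc nt (K * kbQ nt) D g (P.bs γ x) ∉ Vis}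
      = βs {o | βs (cell ⁻¹' {cell o}) < ENNReal.ofReal φ * ENNReal.ofReal w} := by
    have hm : MeasurableSet {o | cell o ∉ Vis} := hcm (MeasurableSet.of_discrete (s := {c | c ∉ Vis}))
    have e : {o | βs (cell ⁻¹' {cell o}) < ENNReal.ofReal φ * ENNReal.ofReal w} = {o | cell o ∉ Vis} := by
      ext o
      rw [Set.mem_ofPred_eq, Set.mem_ofPred_eq, hVis, not_le, ENNReal.ofReal_mul hφ.le]
    rw [e, happ _ hm, hcell]
    rfl
  have e2 : βs {o | βs.rnDeriv volume o < ENNReal.ofReal n'} ≤ P.mu γ {x | x ∈ k2bGr P nt a γ g ∧ P.dn (k2bGl P nt a) γ x < ENNReal.ofReal n'} := by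
    rw [happ _ (measurableSet_lt (Measure.measurable_rnDeriv _ _) measurable_const)]
    refine measure_mono_ae ?_
    have hEv : ∀ᵐ x ∂P.mu γ, x ∈ P.Ev γ := ae_restrict_mem (hP.Ev_meas γ)
    filter_upwards [hEv] with x hx hmem
    refine ⟨hmem.1, ?_⟩
    have hgl : k2bGl P nt a γ x = g := (k2b_gl_iff P hP nt a γ g x hx).2 hmem.1
    have h2 : βs.rnDeriv volume (P.bs γ x) < ENNReal.ofReal n' := hmem.2
    unfold KbPb.dn KbPb.den
    rw [hgl, ← hβs]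
    exact h2
  have e3 : 2 * ENNReal.ofReal φ * β0 Set.univ / ENNReal.ofReal n' = ENNReal.ofReal (2 * φ / n' * kbQ nt) * P.nu γ (k2bGs P nt a γ g) := by
    have h0 : β0 Set.univ = P.nu γ (k2bGs P nt a γ g) * ENNReal.ofReal (kbQ nt) := by
      rw [hβ0, Measure.map_apply (k2a_bs_meas hP γ) MeasurableSet.univ, Set.preimage_univ, ← Set.univ_prod_univ, Measure.prod_prod,
        Measure.restrict_apply MeasurableSet.univ, Measure.restrict_apply MeasurableSet.univ, Set.univ_inter, Set.univ_inter, k2b_q5_I_vol]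
    rw [h0, ENNReal.ofReal_mul (by positivity), ENNReal.ofReal_div_of_pos hn', ENNReal.ofReal_mul (by norm_num)]
    simp only [div_eq_mul_inv, ENNReal.ofReal_ofNat]
    ring
  rw [e1]
  calc βs {o | βs (cell ⁻¹' {cell o}) < ENNReal.ofReal φ * ENNReal.ofReal w}
      ≤ βs {o | βs.rnDeriv volume o < ENNReal.ofReal n'} + β0 {o | 2 * β0 (cell ⁻¹' {cell o}) < β0.rnDeriv volume o * ENNReal.ofReal w}
        + 2 * ENNReal.ofReal φ * β0 Set.univ / ENNReal.ofReal n' := hL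
    _ ≤ _ := by
      rw [e3]
      gcongr

/-- `k2b_cover_sc` with constants which do not depend on the dimension -/
theorem k2b_q6_cover (H : K2bPlankFin) (ε : ℝ) (hε : 0 < ε) : ∃ η C : ℝ, 0 < η ∧ 1 ≤ C ∧ ∀ (j : ℕ), (j = 1 ∨ j = 2) →
    ∀ (D : ℕ) (Ω : Type) [MeasurableSpace Ω] (lam : Measure Ω) [IsFiniteMeasure lam] (y0 V : Ω → Fin j → ℝ) (Ωg : Set Ω) (E : Set (Ω × ℝ))
      (t0 q s : ℝ) (z0 : Fin j → ℝ) (θ κ : ℝ),
      1 ≤ D → Measurable y0 → Measurable V → MeasurableSet Ωg → MeasurableSet E → 0 < q → 0 < s → 0 < θ → (D : ℝ) ^ (-η) ≤ κ →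
      (∀ l ∈ Ωg, ‖y0 l + t0 • V l - z0‖ ≤ s ∧ q * ‖V l‖ ≤ s) → (∀ x ∈ E, x.1 ∈ Ωg ∧ t0 ≤ x.2 ∧ x.2 < t0 + q) →
      ∃ (n : ℕ) (c0 c1 : Fin n → Fin j → ℝ) (Dm Di : Fin n → Matrix (Fin j) (Fin j) ℝ) (A : Fin n → Set Ω),
        (∀ i, MeasurableSet (A i)) ∧ (∀ i, A i ⊆ Ωg) ∧ (∀ i i', i ≠ i' → Disjoint (A i) (A i')) ∧
        (∀ i, ‖c0 i + t0 • c1 i - z0‖ ≤ s ∧ q * ‖c1 i‖ ≤ s) ∧ (∀ i, Dm i * Di i = 1) ∧ (∀ i a a', |Dm i a a'| ≤ 8 * s) ∧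
        (∀ i, (s / (D : ℝ)) ^ j ≤ |(Dm i).det|) ∧
        (∀ i, ∀ l ∈ A i, ∀ t ∈ Set.Icc t0 (t0 + q), ‖(Di i).mulVec (y0 l + t • V l - (c0 i + t • c1 i))‖ ≤ 1) ∧
        (∀ i, ENNReal.ofReal (θ * |(Dm i).det| * q) ≤ (lam.prod volume) (E ∩ A i ×ˢ Set.univ)) ∧
        ((n : ℝ≥0∞) * ENNReal.ofReal (θ * (s / (D : ℝ)) ^ j * q) ≤ (lam.prod volume) E) ∧
        ∀ Vis : Finset (ℕ × (Fin j → ℤ)),
          (lam.prod volume) (E ∩ (⋃ i, A i)ᶜ ×ˢ Set.univ)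
            ≤ (lam.prod volume) {x | x ∈ E ∧ k2bCellV D (k2bNrm t0 q s z0 (x.2, y0 x.1 + x.2 • V x.1)) ∉ Vis} + ENNReal.ofReal (κ * q) * lam Ωg
              + ENNReal.ofReal (C * θ / κ * (D : ℝ) ^ ε * (q * s ^ j / (D : ℝ) ^ (j + 1)) * Vis.card) := by
  obtain ⟨η1, C1, hη1, hC1, H1⟩ := k2b_cover_sc H 1 (Or.inl rfl) ε hε
  obtain ⟨η2, C2, hη2, hC2, H2⟩ := k2b_cover_sc H 2 (Or.inr rfl) ε hε
  refine ⟨min η1 η2, max 1 (max C1 C2), lt_min hη1 hη2, le_max_left _ _, ?_⟩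
  intro j hj D Ω _ lam _ y0 V Ωg E t0 q s z0 θ κ hD hy0 hV hΩ hE hq hs hθ hκ hbox hEsub
  have hD1 : (1 : ℝ) ≤ (D : ℝ) := by exact_mod_cast hD
  have hD0 : (0 : ℝ) < (D : ℝ) := by linarith
  have hκ0 : 0 < κ := lt_of_lt_of_le (Real.rpow_pos_of_pos hD0 _) hκ
  rcases hj with rfl | rfl
  · have hκ1 : (D : ℝ) ^ (-η1) ≤ κ :=
      (Real.rpow_le_rpow_of_exponent_le hD1 (neg_le_neg (min_le_left _ _))).trans hκ
    obtain ⟨n, c0, c1, Dm, Di, A, h1, h2, h3, h4, h5, h6, h7, h8, h9, h10, h11⟩ :=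
      H1 D Ω lam y0 V Ωg E t0 q s z0 θ κ hD hy0 hV hΩ hE hq hs hθ hκ1 hbox hEsub
    refine ⟨n, c0, c1, Dm, Di, A, h1, h2, h3, h4, h5, h6, h7, h8, h9, h10, fun Vis => (h11 Vis).trans ?_⟩
    have hCC : C1 ≤ max 1 (max C1 C2) := (le_max_left _ _).trans (le_max_right _ _)
    gcongr
  · have hκ1 : (D : ℝ) ^ (-η2) ≤ κ :=
      (Real.rpow_le_rpow_of_exponent_le hD1 (neg_le_neg (min_le_right _ _))).trans hκ
    obtain ⟨n, c0, c1, Dm, Di, A, h1, h2, h3, h4, h5, h6, h7, h8, h9, h10, h11⟩ :=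
      H2 D Ω lam y0 V Ωg E t0 q s z0 θ κ hD hy0 hV hΩ hE hq hs hθ hκ1 hbox hEsub
    refine ⟨n, c0, c1, Dm, Di, A, h1, h2, h3, h4, h5, h6, h7, h8, h9, h10, fun Vis => (h11 Vis).trans ?_⟩
    have hCC : C2 ≤ max 1 (max C1 C2) := (le_max_right _ _).trans (le_max_right _ _)
    gcongr

/-- **LEAF L-252-S2b-Q6: one group: charts and residual.**   `C0` from `k2b_pb_light` (ABSOLUTE: it must not depend on `ε`);  `η, C` = the worse of the constants of `k2b_cover_sc H 1 _ ε` and `k2b_cover_sc H 2 _ ε`.   `Ω = P.Lam`, `lam = nu γ`, `y0 l = (co γ l).1`, `V l = (co γ l).2.1`, `Ωg = Gs`, `E = Ev γ ∩ Gr`, `t0 = t_i`, `q`, `s = K q`, `z0 = q zy`.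
`P.mu γ S = ((nu γ).prod volume) (Ev γ ∩ S)` for measurable `S ⊆ univ ×ˢ [0,1]`.   Charts: `y0 = c0 i`, `y1 = c1 i`, `D = Dm i`, `Di`, `T = Pst γ - a zx`.   `kbMn D ≤ j² 8 s ≤ 32 K q`.
Centre: a piece exists only if `Gs ≠ ∅`, then `‖q zy‖ ≤ K + q`;  `‖c1‖ ≤ K`, `‖c0‖ ≤ s + K + ‖z0‖`.   `Vis` from `k2b_pb_light`: the last term of `k2b_cover_sc` is `C θ/κ D^ε w #Vis ≤ C θ / (κ φ) D^ε m_G`. -/
theorem k2b_group_pb (H : K2bPlankFin) : ∃ C0 : ℝ, 1 ≤ C0 ∧ ∀ ε : ℝ, 0 < ε → ∃ η C : ℝ, 0 < η ∧ 1 ≤ C ∧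
    ∀ (v : KbVer) (P : KbPb v) (nt : ℕ) (a K Q : ℝ) (D : ℕ) (θ κ n' φ : ℝ) (γ : P.W) (g : K2bG v),
      P.WF → P.Ntv K → P.Tmp Q → 1 ≤ K → 1 ≤ Q → 1 ≤ D → 0 < a → g.1 < 2 ^ nt → 0 < θ → (D : ℝ) ^ (-η) ≤ κ → 0 < n' → 0 < φ →
      ∃ (n : ℕ) (ch : Fin n → KbChart v) (A : Fin n → Set P.Lam),
        (∀ i, MeasurableSet (A i)) ∧ (∀ i, A i ⊆ k2bGs P nt a γ g) ∧ (∀ i i', i ≠ i' → Disjoint (A i) (A i')) ∧
        (∀ i, (ch i).D * (ch i).Di = 1) ∧ (∀ i, kbMn (ch i).D ≤ 32 * K * kbQ nt) ∧ (∀ i, (K * kbQ nt / (D : ℝ)) ^ v.j ≤ (ch i).J) ∧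
        (∀ i, ‖(ch i).y0‖ + ‖(ch i).y1‖ ≤ 6 * K) ∧
        (∀ i, ∀ l ∈ A i, ∀ t ∈ kbI nt g.1, ‖(ch i).Di.mulVec (kbY (P.co γ l) t - (ch i).yc t)‖ ≤ 1) ∧
        (∀ i, (ch i).T = fun t y w => P.Pst γ t y w - a * (g.2.2 : ℝ)) ∧
        (∀ i, ENNReal.ofReal (θ * (ch i).J * kbQ nt) ≤ P.mu γ (A i ×ˢ kbI nt g.1)) ∧
        ((n : ℝ≥0∞) * ENNReal.ofReal (θ * (K * kbQ nt / (D : ℝ)) ^ v.j * kbQ nt) ≤ P.mu γ (k2bGr P nt a γ g)) ∧
        P.mu γ ((k2bGs P nt a γ g \ ⋃ i, A i) ×ˢ kbI nt g.1)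
          ≤ P.mu γ {x | x ∈ k2bGr P nt a γ g ∧ P.dn (k2bGl P nt a) γ x < ENNReal.ofReal n'}
            + ENNReal.ofReal (C0 * Q ^ 4 * K ^ 4 * (1 / (D : ℝ)) ^ (1 / 4 : ℝ))
            + ENNReal.ofReal ((2 * φ / n' + κ) * kbQ nt) * P.nu γ (k2bGs P nt a γ g)
            + ENNReal.ofReal (C * θ / (κ * φ) * (D : ℝ) ^ ε) * P.mu γ (k2bGr P nt a γ g) := by
  obtain ⟨C0, hC0, HL⟩ := k2b_pb_light
  refine ⟨C0, hC0, fun ε hε => ?_⟩
  obtain ⟨η, C, hη, hC, HC⟩ := k2b_q6_cover H ε hε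
  refine ⟨η, C, hη, hC, ?_⟩
  intro v P nt a K Q D θ κ n' φ γ g hP hK hQ hK1 hQ1 hD ha hg hθ hκ hn' hφ
  have hq := k2b_q5_qpos nt
  have hq1 := k2b_q5_qle nt
  have hs : 0 < K * kbQ nt := by positivity
  have hprob := hP.prob γ
  have hj : v.j = 1 ∨ v.j = 2 := by
    cases v
    · exact Or.inl rfl
    · exact Or.inr rfl
  have hj2 : (v.j : ℝ) ≤ 2 := by
    rcases hj with h | h <;> rw [h] <;> norm_num
  have hD1 : (1 : ℝ) ≤ (D : ℝ) := by exact_mod_cast hD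
  have hD0 : (0 : ℝ) < (D : ℝ) := by linarith
  have hκ0 : 0 < κ := lt_of_lt_of_le (Real.rpow_pos_of_pos hD0 _) hκ
  have hy0 : Measurable fun l => (P.co γ l).1 := measurable_fst.comp (hP.co_meas γ)
  have hV : Measurable fun l => (P.co γ l).2.1 := (measurable_fst.comp measurable_snd).comp (hP.co_meas γ)
  have hGm := k2b_gs_meas P hP nt a γ g
  have hGrm := k2b_q5_gr_meas P hP nt a γ g
  obtain ⟨E, hEdef⟩ : ∃ E : Set (P.Lam × ℝ), E = k2bGr P nt a γ g ∩ P.Ev γ := ⟨_, rfl⟩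
  have hEm : MeasurableSet E := by
    rw [hEdef]
    exact hGrm.inter (hP.Ev_meas γ)
  have hbox : ∀ l ∈ k2bGs P nt a γ g, ‖(P.co γ l).1 + k2bTi nt g.1 • (P.co γ l).2.1 - (fun i => kbQ nt * (g.2.1 i : ℝ))‖ ≤ K * kbQ nt ∧
      kbQ nt * ‖(P.co γ l).2.1‖ ≤ K * kbQ nt := by
    intro l hl
    obtain ⟨h1, h2, -⟩ := k2b_q5_box P hK nt a γ g hg l hl
    constructor
    · nlinarith
    · nlinarith
  have hEsub : ∀ x ∈ E, x.1 ∈ k2bGs P nt a γ g ∧ k2bTi nt g.1 ≤ x.2 ∧ x.2 < k2bTi nt g.1 + kbQ nt := by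
    intro x hx
    rw [hEdef] at hx
    have h2 : x.2 ∈ kbI nt g.1 := hx.1.2
    rw [k2b_q5_I] at h2
    exact ⟨hx.1.1, h2.1, h2.2⟩
  obtain ⟨n, c0, c1, Dm, Di, A, h1, h2, h3, h4, h5, h6, h7, h8, h9, h10, h11⟩ :=
    HC v.j hj D P.Lam (P.nu γ) _ _ (k2bGs P nt a γ g) E (k2bTi nt g.1) (kbQ nt) (K * kbQ nt) (fun i => kbQ nt * (g.2.1 i : ℝ)) θ κ
      hD hy0 hV hGm hEm hq hs hθ hκ hbox hEsub
  obtain ⟨Vis, hV1, hV2⟩ := HL v P nt a K Q D n' φ γ g hP hK hQ hK1 hQ1 hD ha hg hn' hφ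
  have hEmu : ((P.nu γ).prod volume) E = P.mu γ (k2bGr P nt a γ g) := by
    rw [k2b_q5_mu_apply P hP, hEdef]
  refine ⟨n, fun i => ⟨c0 i, c1 i, Dm i, Di i, fun t y w => P.Pst γ t y w - a * (g.2.2 : ℝ)⟩, A, h1, h2, h3, h5, ?_, h7, ?_, ?_,
    fun _ => rfl, ?_, ?_, ?_⟩
  · intro i
    show kbMn (Dm i) ≤ 32 * K * kbQ nt
    unfold kbMn
    calc ∑ b, ∑ k, |Dm i b k| ≤ ∑ _b : Fin v.j, ∑ _k : Fin v.j, 8 * (K * kbQ nt) :=
          Finset.sum_le_sum fun b _ => Finset.sum_le_sum fun k _ => h6 i b k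
      _ = (v.j : ℝ) * ((v.j : ℝ) * (8 * (K * kbQ nt))) := by
          simp only [Finset.sum_const, Finset.card_univ, Fintype.card_fin, nsmul_eq_mul]
      _ ≤ 2 * (2 * (8 * (K * kbQ nt))) := by
          have h0 : (0 : ℝ) ≤ (v.j : ℝ) := Nat.cast_nonneg _
          gcongr
      _ = 32 * K * kbQ nt := by ring
  · intro i
    show ‖c0 i‖ + ‖c1 i‖ ≤ 6 * K
    have hne : (A i).Nonempty := by
      by_contra hemp
      rw [Set.not_nonempty_iff_eq_empty] at hemp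
      have h := h9 i
      rw [hemp, Set.empty_prod, Set.inter_empty, measure_empty, nonpos_iff_eq_zero, ENNReal.ofReal_eq_zero] at h
      have hdet : 0 < |(Dm i).det| := lt_of_lt_of_le (by positivity) (h7 i)
      have : 0 < θ * |(Dm i).det| * kbQ nt := by positivity
      linarith
    obtain ⟨l, hl⟩ := hne
    obtain ⟨b1, -, b3⟩ := k2b_q5_box P hK nt a γ g hg l (h2 i hl)
    obtain ⟨a1, a2⟩ := h4 i
    have hc1 : ‖c1 i‖ ≤ K := by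
      have : kbQ nt * ‖c1 i‖ ≤ kbQ nt * K := by linarith
      exact le_of_mul_le_mul_left this hq
    obtain ⟨z0, hz0⟩ : ∃ z0 : Fin v.j → ℝ, z0 = fun i => kbQ nt * (g.2.1 i : ℝ) := ⟨_, rfl⟩
    rw [← hz0] at b1 a1
    have hz : ‖z0‖ ≤ K + kbQ nt := by
      have e : z0 = ((P.co γ l).1 + k2bTi nt g.1 • (P.co γ l).2.1) - ((P.co γ l).1 + k2bTi nt g.1 • (P.co γ l).2.1 - z0) := by abel
      rw [e]
      exact (norm_sub_le _ _).trans (add_le_add b3 b1)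
    have ht := k2b_q5_Ti_mem nt g.1 hg
    have hc0 : ‖c0 i‖ ≤ K * kbQ nt + K + (K + kbQ nt) := by
      have e : c0 i = (c0 i + k2bTi nt g.1 • c1 i - z0) - k2bTi nt g.1 • c1 i + z0 := by abel
      rw [e]
      have n1 : ‖k2bTi nt g.1 • c1 i‖ ≤ K := by
        rw [norm_smul, Real.norm_eq_abs, abs_of_nonneg ht.1]
        calc k2bTi nt g.1 * ‖c1 i‖ ≤ 1 * K := mul_le_mul ht.2 hc1 (norm_nonneg _) zero_le_one
          _ = K := one_mul K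
      exact (norm_add_le _ _).trans (add_le_add ((norm_sub_le _ _).trans (add_le_add a1 n1)) hz)
    nlinarith
  · intro i l hl t ht
    rw [k2b_q5_I] at ht
    exact h8 i l hl t ⟨ht.1, ht.2.le⟩
  · intro i
    show ENNReal.ofReal (θ * |(Dm i).det| * kbQ nt) ≤ P.mu γ (A i ×ˢ kbI nt g.1)
    refine (h9 i).trans (le_of_eq ?_)
    rw [k2b_q5_mu_apply P hP, hEdef]
    congr 1
    ext x
    constructor
    · rintro ⟨⟨hx1, hx2⟩, hx3⟩
      exact ⟨⟨hx3.1, hx1.2⟩, hx2⟩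
    · rintro ⟨hx1, hx2⟩
      exact ⟨⟨⟨h2 i hx1.1, hx1.2⟩, hx2⟩, hx1.1, Set.mem_univ _⟩
  · rw [← hEmu]
    exact h10
  · have e1 : P.mu γ ((k2bGs P nt a γ g \ ⋃ i, A i) ×ˢ kbI nt g.1) = ((P.nu γ).prod volume) (E ∩ (⋃ i, A i)ᶜ ×ˢ Set.univ) := by
      rw [k2b_q5_mu_apply P hP, hEdef]
      congr 1
      ext x
      constructor
      · rintro ⟨⟨hx1, hx2⟩, hx3⟩
        exact ⟨⟨⟨hx1.1, hx2⟩, hx3⟩, hx1.2, Set.mem_univ _⟩
      · rintro ⟨⟨hx1, hx2⟩, hx3⟩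
        exact ⟨⟨⟨hx1.1, hx3.1⟩, hx1.2⟩, hx2⟩
    have e2 : ((P.nu γ).prod volume) {x | x ∈ E ∧ k2bCellV D (k2bNrm (k2bTi nt g.1) (kbQ nt) (K * kbQ nt) (fun i => kbQ nt * (g.2.1 i : ℝ))
        (x.2, (P.co γ x.1).1 + x.2 • (P.co γ x.1).2.1)) ∉ Vis} = P.mu γ {x | x ∈ k2bGr P nt a γ g ∧ k2bGc nt (K * kbQ nt) D g (P.bs γ x) ∉ Vis} := by
      rw [k2b_q5_mu_apply P hP, hEdef]
      congr 1
      ext x
      constructor
      · rintro ⟨⟨hx1, hx2⟩, hx3⟩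
        exact ⟨⟨hx1, hx3⟩, hx2⟩
      · rintro ⟨⟨hx1, hx3⟩, hx2⟩
        exact ⟨⟨hx1, hx2⟩, hx3⟩
    obtain ⟨w, hw⟩ : ∃ w : ℝ, w = kbQ nt * (K * kbQ nt) ^ v.j / (D : ℝ) ^ (v.j + 1) := ⟨_, rfl⟩
    have hw0 : 0 < w := by
      rw [hw]
      positivity
    have h12 := h11 Vis
    rw [← hw] at h12 hV1
    have e3 : ENNReal.ofReal (C * θ / κ * (D : ℝ) ^ ε * w * (Vis.card : ℝ)) =
        ENNReal.ofReal (C * θ / (κ * φ) * (D : ℝ) ^ ε) * ((Vis.card : ℝ≥0∞) * ENNReal.ofReal (φ * w)) := by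
      have hC0' : 0 < C := by linarith
      rw [← ENNReal.ofReal_natCast, ← ENNReal.ofReal_mul (Nat.cast_nonneg _), ← ENNReal.ofReal_mul (by positivity)]
      congr 1
      field_simp
    have e4 : ENNReal.ofReal ((2 * φ / n' + κ) * kbQ nt) = ENNReal.ofReal (2 * φ / n' * kbQ nt) + ENNReal.ofReal (κ * kbQ nt) := by
      rw [add_mul, ENNReal.ofReal_add (by positivity) (by positivity)]
    rw [e1, e4, add_mul]
    rw [e2, e3] at h12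
    calc ((P.nu γ).prod volume) (E ∩ (⋃ i, A i)ᶜ ×ˢ Set.univ)
        ≤ P.mu γ {x | x ∈ k2bGr P nt a γ g ∧ k2bGc nt (K * kbQ nt) D g (P.bs γ x) ∉ Vis} + ENNReal.ofReal (κ * kbQ nt) * P.nu γ (k2bGs P nt a γ g)
          + ENNReal.ofReal (C * θ / (κ * φ) * (D : ℝ) ^ ε) * ((Vis.card : ℝ≥0∞) * ENNReal.ofReal (φ * w)) := h12
      _ ≤ (P.mu γ {x | x ∈ k2bGr P nt a γ g ∧ P.dn (k2bGl P nt a) γ x < ENNReal.ofReal n'}
            + ENNReal.ofReal (C0 * Q ^ 4 * K ^ 4 * (1 / (D : ℝ)) ^ (1 / 4 : ℝ))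
            + ENNReal.ofReal (2 * φ / n' * kbQ nt) * P.nu γ (k2bGs P nt a γ g)) + ENNReal.ofReal (κ * kbQ nt) * P.nu γ (k2bGs P nt a γ g)
          + ENNReal.ofReal (C * θ / (κ * φ) * (D : ℝ) ^ ε) * P.mu γ (k2bGr P nt a γ g) := by
          gcongr
      _ = _ := by ring

end

end Claimed.Agent.R252
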