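import Claimed.Agent.R252.Base.Seq
import Claimed.Agent.R252.S2b.P216Contract

/-!
# Row 252, unit S2b, file 10 (CONTRACT): PROPOSITION 2.16: assembly at one scale, numerics, sequence level      (architect helper264)

`k2b_build` (system from pieces) → `k2b_p216_core` (explicit slacks) → `k2b_p216` (slacks `N^τ`) → `k2b_horizon_le` (= hub `kb_horizon_le` of `Base/Hub2.lean`, with the hypothesis `H : K2bPlankFin`).
-/

set_option autoImplicit false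

namespace Claimed.Agent.R252

open MeasureTheory Filter Topology
open Claimed.Agent.R255 (uf)
open scoped ENNReal BigOperators

noncomputable section

variable {v : KbVer}

theorem k2b_kbI_sub {nt i : ℕ} (hi : i < 2 ^ nt) {t : ℝ} (ht : t ∈ kbI nt i) : t ∈ Set.Icc (0 : ℝ) 1 ∧ |t - k2bTi nt i| ≤ kbQ nt := by
  have hq : 0 < kbQ nt := by unfold kbQ; positivity
  have h1 : kbQ nt * 2 ^ nt = 1 := by
    unfold kbQ
    rw [← mul_pow]
    norm_num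
  have h2 : (i : ℝ) + 1 ≤ 2 ^ nt := by exact_mod_cast hi
  obtain ⟨h3, h4⟩ := ht
  have h5 : ((i : ℝ) + 1) * kbQ nt ≤ 1 := by
    calc ((i : ℝ) + 1) * kbQ nt ≤ 2 ^ nt * kbQ nt := by gcongr
      _ = 1 := by rw [mul_comm]; exact h1
  have h6 : (0 : ℝ) ≤ (i : ℝ) * kbQ nt := by positivity
  refine ⟨⟨by linarith, by linarith⟩, ?_⟩
  unfold k2bTi
  rw [abs_le]
  constructor <;> nlinarith

/-- **LEAF L-252-S2b-R1: the test of a group** (02 l.992-998).   `T = Pst γ - a zx`.   `kbDw T = kbDw (Pst γ)`, `kbDww T = kbDww (Pst γ)` (the constant cancels: `funext`, `unfold`, `ring`).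
`|X(t) - a zx| ≤ |X(t) - X(t_i)| + |X(t_i) - a zx| ≤ 24 K q + a ≤ 25 K a` (`k2b_sig_move`; `⌊X(t_i)/a⌋ = zx`).   `KbAdm`: shift `c0` of the `KbQuad`; version 1: `Pst = w`. -/
theorem k2b_test_geo (P : KbPb v) (hP : P.WF) {K : ℝ} (hK : P.Ntv K) (hK1 : 1 ≤ K) (nt : ℕ) {a : ℝ} (ha : 0 < a) (ha1 : a ≤ 1) (hq : kbQ nt ≤ a)
    (γ : P.W) (g : K2bG v) (hg : g.1 < 2 ^ nt) (T : KbTest v) (hT : T = fun t y w => P.Pst γ t y w - a * (g.2.2 : ℝ)) :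
    KbAdm T ∧ (∀ l ∈ k2bGs P nt a γ g, ∀ t ∈ kbI nt g.1, |kbX T (P.co γ l) t| ≤ 25 * K * a) ∧
      (∀ l ∈ k2bGs P nt a γ g, ∀ t ∈ kbI nt g.1, |kbX (kbDw T) (P.co γ l) t| ≤ K * P.B γ) ∧
      (∀ x ∈ P.Ev γ, P.B γ ≤ K * |kbX (kbDw T) (P.co γ x.1) x.2|) ∧ (∀ t y w, |kbDww T t y w| * a ≤ K * P.B γ ^ 2) := by
  have e1 : kbDw T = kbDw (P.Pst γ) := by
    funext t y w
    rw [hT]
    unfold kbDw
    ring
  have e2 : kbDww T = kbDww (P.Pst γ) := by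
    funext t y w
    rw [hT]
    unfold kbDww
    ring
  have hti : k2bTi nt g.1 ∈ Set.Icc (0 : ℝ) 1 := by
    have hq0 : 0 < kbQ nt := by unfold kbQ; positivity
    have := (k2b_kbI_sub hg (t := k2bTi nt g.1) ⟨le_rfl, by unfold k2bTi; nlinarith⟩).1
    exact this
  refine ⟨⟨?_, ?_⟩, ?_, ?_, ?_, ?_⟩
  · obtain ⟨Q, hQ⟩ := (hP.Pst_adm γ).1
    refine ⟨{ Q with c0 := Q.c0 - a * (g.2.2 : ℝ) }, fun t y w => ?_⟩
    rw [hT]
    simp only [hQ]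
    unfold KbQuad.ev
    ring
  · intro hv t y w
    have h := (hP.Pst_adm γ).2 hv t y w
    rw [hT]
    simp only
    rw [h]
    ring
  · rintro l ⟨hl, -, h3⟩ t ht
    obtain ⟨ht1, ht2⟩ := k2b_kbI_sub hg ht
    have h4 := k2b_sig_move P hP hK γ l hl t _ ht1 hti
    have h5 : kbX T (P.co γ l) t = kbX (P.Pst γ) (P.co γ l) t - a * (g.2.2 : ℝ) := by
      rw [hT]
      rfl
    rw [h5]
    have h6 := Int.floor_eq_iff.1 h3
    have h7 : (g.2.2 : ℝ) * a ≤ kbX (P.Pst γ) (P.co γ l) (k2bTi nt g.1) := (le_div_iff₀ ha).1 h6.1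
    have h8 : kbX (P.Pst γ) (P.co γ l) (k2bTi nt g.1) < ((g.2.2 : ℝ) + 1) * a := (div_lt_iff₀ ha).1 h6.2
    have h9 : 24 * K * |t - k2bTi nt g.1| ≤ 24 * K * a := by
      have := ht2.trans hq
      gcongr
    have h10 : a ≤ K * a := by nlinarith
    have h11 := abs_le.1 (h4.trans h9)
    rw [abs_le]
    constructor <;> nlinarith [h11.1, h11.2]
  · rintro l ⟨hl, -, -⟩ t ht
    rw [e1]
    exact hK.dw γ l hl t (k2b_kbI_sub hg ht).1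
  · intro x hx
    rw [e1]
    exact hK.dw_low γ x hx
  · intro t y w
    rw [e2]
    have h1 := hK.dww γ t y w
    have h2 := abs_nonneg (kbDww (P.Pst γ) t y w)
    nlinarith

/-- **LEAF L-252-S2b-R2: the chart system made of the pieces of all groups.**   `C := Σ γ : P.W, Σ g : ↥Gf, Fin (n γ g)`, `wd c = c.1`, `iv c = c.2.1.1.1`, `A c`, `S c = Ev γ ∩ A c ×ˢ kbI nt i`, `ch c`, level `nt`.
`A_disj`: same `(γ, i)`: same group: `h3`; different groups: `h2` + `k2b_gs_disj`.   `Geo`: `h5`, `h8`, `k2b_test_geo`.   `mC c = mu γ (Ev ∩ A ×ˢ I) = mu γ (A ×ˢ I)` (`k2s_mu_compl`).   Sums over the sigma type: `Fintype.sum_sigma`, `Finset.sum_coe_sort`, `Fintype.card_sigma`. -/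
theorem k2b_build (P : KbPb v) (hP : P.WF) {K : ℝ} (hK : P.Ntv K) (hK1 : 1 ≤ K) (nt : ℕ) {a : ℝ} (ha : 0 < a) (ha1 : a ≤ 1) (hq : kbQ nt ≤ a)
    (Gf : Finset (K2bG v)) (hG : ∀ g ∈ Gf, g.1 < 2 ^ nt) (n : P.W → K2bG v → ℕ) (ch : ∀ γ g, Fin (n γ g) → KbChart v) (A : ∀ γ g, Fin (n γ g) → Set P.Lam)
    (h1 : ∀ γ g i, MeasurableSet (A γ g i)) (h2 : ∀ γ g i, A γ g i ⊆ k2bGs P nt a γ g) (h3 : ∀ γ g i i', i ≠ i' → Disjoint (A γ g i) (A γ g i'))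
    (h4 : ∀ γ g i, (ch γ g i).D * (ch γ g i).Di = 1) (h5 : ∀ γ g i, kbMn (ch γ g i).D ≤ 32 * K * kbQ nt)
    (h8 : ∀ γ g i, ∀ l ∈ A γ g i, ∀ t ∈ kbI nt g.1, ‖(ch γ g i).Di.mulVec (kbY (P.co γ l) t - (ch γ g i).yc t)‖ ≤ 1)
    (h9 : ∀ γ g i, (ch γ g i).T = fun t y w => P.Pst γ t y w - a * (g.2.2 : ℝ)) :
    ∃ Y : KbSys P, Y.n = nt ∧ Y.WF ∧ Y.Geo (32 * K) a ∧
      Y.mass = ∑ γ, P.om γ * ∑ g ∈ Gf, ∑ i, P.mu γ (A γ g i ×ˢ kbI nt g.1) ∧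
      (∀ Kt nn : ℝ, (∀ γ, ∀ g ∈ Gf, ∀ i, ENNReal.ofReal (nn * (ch γ g i).J * kbQ nt) ≤ ENNReal.ofReal Kt * P.mu γ (A γ g i ×ˢ kbI nt g.1)) → Y.Tru Kt nn) ∧
      (∀ Q' : ℝ, ((∑ γ, ∑ g ∈ Gf, (n γ g : ℝ)) ≤ Q') → 1 ≤ Q' * kbQ nt → (∀ γ, ∀ g ∈ Gf, ∀ i, 1 ≤ Q' * (ch γ g i).J) →
        (∀ γ, ∀ g ∈ Gf, ∀ i, ‖(ch γ g i).y0‖ + ‖(ch γ g i).y1‖ ≤ Q') → Y.Tmp Q') := by
  classical
  have hK0 : 0 < K := by linarith
  have hmu : ∀ (γ : P.W) (S : Set (P.Lam × ℝ)), P.mu γ (P.Ev γ ∩ S) = P.mu γ S := by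
    intro γ S
    rw [Set.inter_comm]
    exact measure_inter_conull (k2s_mu_compl P hP γ)
  have hgeo : ∀ (γ : P.W) (g : K2bG v) (hg : g ∈ Gf) (i : Fin (n γ g)), _ :=
    fun γ g hg i => k2b_test_geo P hP hK hK1 nt ha ha1 hq γ g (hG g hg) (ch γ g i).T (h9 γ g i)
  refine ⟨{ n := nt
            C := Σ γ : P.W, Σ g : Gf, Fin (n γ g)
            fC := inferInstance
            wd := fun c => c.1
            iv := fun c => c.2.1.1.1
            A := fun c => A c.1 c.2.1.1 c.2.2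
            S := fun c => P.Ev c.1 ∩ A c.1 c.2.1.1 c.2.2 ×ˢ kbI nt c.2.1.1.1
            ch := fun c => ch c.1 c.2.1.1 c.2.2 }, rfl, ?_, ?_, ?_, ?_, ?_⟩
  · refine ⟨?_, ?_, ?_, ?_, ?_, ?_, ?_, ?_⟩
    · rintro ⟨γ, g, i⟩
      exact hG g.1 g.2
    · rintro ⟨γ, g, i⟩
      exact h1 γ g.1 i
    · rintro ⟨γ, g, i⟩ l hl
      exact (h2 γ g.1 i hl).1
    · rintro ⟨γ, g, i⟩ ⟨γ', g', i'⟩ hne hw hi
      have hw' : γ = γ' := hw
      subst hw'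
      by_cases hg : g = g'
      · subst hg
        refine h3 γ g.1 i i' fun hii => hne ?_
        rw [hii]
      · have hg' : g.1 ≠ g'.1 := fun h => hg (Subtype.ext h)
        exact (k2b_gs_disj P nt a γ g.1 g'.1 hi hg').mono (h2 γ g.1 i) (h2 γ g'.1 i')
    · rintro ⟨γ, g, i⟩
      exact (hP.Ev_meas γ).inter ((h1 γ g.1 i).prod measurableSet_Ico)
    · rintro ⟨γ, g, i⟩
      exact subset_rfl
    · rintro ⟨γ, g, i⟩
      exact h4 γ g.1 i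
    · rintro ⟨γ, g, i⟩
      exact (hgeo γ g.1 g.2 i).1
  · refine ⟨?_, ?_, ?_, ?_, ?_, ?_⟩
    · rintro ⟨γ, g, i⟩
      refine (h5 γ g.1 i).trans (le_of_eq ?_)
      show 32 * K * kbQ nt = kbQ nt * (32 * K)
      ring
    · rintro ⟨γ, g, i⟩ l hl t ht
      exact (h8 γ g.1 i l hl t ht).trans (by linarith)
    · rintro ⟨γ, g, i⟩ l hl t ht
      refine ((hgeo γ g.1 g.2 i).2.1 l (h2 γ g.1 i hl) t ht).trans ?_
      have : 0 ≤ K * a := by positivity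
      nlinarith
    · rintro ⟨γ, g, i⟩ l hl t ht
      refine ((hgeo γ g.1 g.2 i).2.2.1 l (h2 γ g.1 i hl) t ht).trans ?_
      have : 0 ≤ K * P.B γ := mul_nonneg hK0.le (hP.B_pos γ).le
      show K * P.B γ ≤ 32 * K * P.B γ
      nlinarith
    · rintro ⟨γ, g, i⟩ x hx
      refine ((hgeo γ g.1 g.2 i).2.2.2.1 x hx.1).trans ?_
      have : 0 ≤ K * |kbX (kbDw (ch γ g.1 i).T) (P.co γ x.1) x.2| := mul_nonneg hK0.le (abs_nonneg _)
      show K * |kbX (kbDw (ch γ g.1 i).T) (P.co γ x.1) x.2| ≤ 32 * K * |kbX (kbDw (ch γ g.1 i).T) (P.co γ x.1) x.2|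
      nlinarith
    · rintro ⟨γ, g, i⟩ t y w
      refine ((hgeo γ g.1 g.2 i).2.2.2.2 t y w).trans ?_
      have : 0 ≤ K * P.B γ ^ 2 := by positivity
      show K * P.B γ ^ 2 ≤ 32 * K * P.B γ ^ 2
      nlinarith
  · unfold KbSys.mass KbSys.mC
    rw [Fintype.sum_sigma]
    refine Finset.sum_congr rfl fun γ _ => ?_
    rw [Fintype.sum_sigma, Finset.mul_sum, ← Finset.sum_coe_sort Gf]
    refine Finset.sum_congr rfl fun g _ => ?_
    rw [Finset.mul_sum]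
    refine Finset.sum_congr rfl fun i _ => ?_
    show P.om γ * P.mu γ (P.Ev γ ∩ A γ g.1 i ×ˢ kbI nt g.1.1) = _
    rw [hmu]
  · intro Kt nn hT
    rintro ⟨γ, g, i⟩
    show ENNReal.ofReal (nn * (ch γ g.1 i).J * kbQ nt) ≤ ENNReal.ofReal Kt * P.mu γ (P.Ev γ ∩ A γ g.1 i ×ˢ kbI nt g.1.1)
    rw [hmu]
    exact hT γ g.1 g.2 i
  · intro Q' hc hq' hJ hcen
    refine ⟨?_, hq', ?_, ?_⟩
    · refine le_trans (le_of_eq ?_) hc
      show ((Fintype.card (Σ γ : P.W, Σ g : Gf, Fin (n γ g)) : ℕ) : ℝ) = _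
      rw [Fintype.card_sigma]
      push_cast
      refine Finset.sum_congr rfl fun γ _ => ?_
      rw [Fintype.card_sigma]
      push_cast
      rw [← Finset.sum_coe_sort Gf]
      refine Finset.sum_congr rfl fun g _ => ?_
      rw [Fintype.card_fin]
    · rintro ⟨γ, g, i⟩
      exact hJ γ g.1 g.2 i
    · rintro ⟨γ, g, i⟩
      exact hcen γ g.1 g.2 i

theorem k2b_kbQ_pos (nt : ℕ) : 0 < kbQ nt := by
  unfold kbQ
  positivity

theorem k2b_kbQ_mul (nt : ℕ) : kbQ nt * 2 ^ nt = 1 := by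
  unfold kbQ
  rw [← mul_pow]
  norm_num

theorem k2b_level {a : ℝ} (ha : 0 < a) (ha1 : a ≤ 1) : ∃ nt : ℕ, a / 2 < kbQ nt ∧ kbQ nt ≤ a := by
  classical
  have hex : ∃ n : ℕ, kbQ n ≤ a := by
    obtain ⟨n, hn⟩ := exists_pow_lt_of_lt_one ha (by norm_num : (1 / 2 : ℝ) < 1)
    exact ⟨n, hn.le⟩
  refine ⟨Nat.find hex, ?_, Nat.find_spec hex⟩
  rcases Nat.eq_zero_or_pos (Nat.find hex) with h0 | h0
  · rw [h0]
    unfold kbQ
    simp only [pow_zero]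
    linarith
  · have h1 : ¬ kbQ (Nat.find hex - 1) ≤ a := Nat.find_min hex (by omega)
    have h2 : kbQ (Nat.find hex) = kbQ (Nat.find hex - 1) / 2 := by
      obtain ⟨m, hm⟩ : ∃ m, Nat.find hex = m + 1 := ⟨Nat.find hex - 1, by omega⟩
      rw [hm]
      unfold kbQ
      simp only [Nat.add_sub_cancel, pow_succ]
      ring
    rw [h2]
    linarith [not_le.1 h1]

theorem k2b_gr_meas (P : KbPb v) (hP : P.WF) (nt : ℕ) (a : ℝ) (γ : P.W) (g : K2bG v) : MeasurableSet (k2bGr P nt a γ g) :=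
  (k2b_gs_meas P hP nt a γ g).prod measurableSet_Ico

theorem k2b_gr_disj (P : KbPb v) (nt : ℕ) (a : ℝ) (γ : P.W) {g g' : K2bG v} (h : g ≠ g') :
    Disjoint (k2bGr P nt a γ g) (k2bGr P nt a γ g') := by
  unfold k2bGr
  rw [Set.disjoint_prod]
  by_cases h1 : g.1 = g'.1
  · exact Or.inl (k2b_gs_disj P nt a γ g g' h1 h)
  · exact Or.inr (k2s_kbI_disj nt h1)

theorem k2b_gr_sum_le (P : KbPb v) (hP : P.WF) (nt : ℕ) (a : ℝ) (γ : P.W) (Gf : Finset (K2bG v)) (S : Set (P.Lam × ℝ)) :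
    ∑ g ∈ Gf, P.mu γ (k2bGr P nt a γ g ∩ S) ≤ P.mu γ S := by
  have h0 : ∑ g ∈ Gf, P.mu γ (k2bGr P nt a γ g ∩ S) = ∑ g ∈ Gf, ((P.mu γ).restrict S) (k2bGr P nt a γ g) := by
    refine Finset.sum_congr rfl fun g _ => ?_
    rw [Measure.restrict_apply (k2b_gr_meas P hP nt a γ g)]
  rw [h0, ← measure_biUnion_finset (fun g _ g' _ h => k2b_gr_disj P nt a γ h) (fun g _ => k2b_gr_meas P hP nt a γ g)]
  calc _ ≤ (P.mu γ).restrict S Set.univ := measure_mono (Set.subset_univ _)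
    _ = P.mu γ S := by rw [Measure.restrict_apply MeasurableSet.univ, Set.univ_inter]

theorem k2b_gr_cover (P : KbPb v) (hP : P.WF) (nt : ℕ) (a : ℝ) (γ : P.W) (Gf : Finset (K2bG v))
    (hGf : ∀ g : K2bG v, g.1 < 2 ^ nt → (k2bGs P nt a γ g).Nonempty → g ∈ Gf) :
    P.mu γ Set.univ ≤ ∑ g ∈ Gf, P.mu γ (k2bGr P nt a γ g) := by
  have h1 : (Set.univ : Set (P.Lam × ℝ)) ⊆ ((P.Ev γ)ᶜ ∪ (Set.univ ×ˢ {(1 : ℝ)})) ∪ ⋃ g ∈ Gf, k2bGr P nt a γ g := by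
    intro x _
    by_cases hx : x ∈ P.Ev γ
    · have hx2 := (hP.Ev_sub γ hx).2
      by_cases h1 : x.2 = 1
      · exact Or.inl (Or.inr ⟨trivial, h1⟩)
      · right
        have hg : x ∈ k2bGr P nt a γ (k2bGl P nt a γ x) := (k2b_gl_iff P hP nt a γ _ x hx).1 rfl
        refine Set.mem_biUnion (hGf _ ?_ ⟨x.1, hg.1⟩) hg
        have h3 : ((k2bGl P nt a γ x).1 : ℝ) * kbQ nt ≤ x.2 := hg.2.1
        have h4 : x.2 < 1 := lt_of_le_of_ne hx2.2 h1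
        have h5 : ((k2bGl P nt a γ x).1 : ℝ) < 2 ^ nt := by
          have h6 := k2b_kbQ_mul nt
          have h7 := k2b_kbQ_pos nt
          have h8 : (0 : ℝ) < 2 ^ nt := by positivity
          by_contra hcon
          have h9 : (2 : ℝ) ^ nt ≤ ((k2bGl P nt a γ x).1 : ℝ) := not_lt.1 hcon
          nlinarith
        exact_mod_cast h5
    · exact Or.inl (Or.inl hx)
  have h2 : P.mu γ (Set.univ ×ˢ {(1 : ℝ)}) = 0 := by
    refine le_antisymm ((k2s_mu_rect P hP γ _ _).trans ?_) bot_le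
    simp
  calc P.mu γ Set.univ ≤ P.mu γ (((P.Ev γ)ᶜ ∪ (Set.univ ×ˢ {(1 : ℝ)})) ∪ ⋃ g ∈ Gf, k2bGr P nt a γ g) := measure_mono h1
    _ ≤ P.mu γ ((P.Ev γ)ᶜ ∪ (Set.univ ×ˢ {(1 : ℝ)})) + P.mu γ (⋃ g ∈ Gf, k2bGr P nt a γ g) := measure_union_le _ _
    _ ≤ (P.mu γ (P.Ev γ)ᶜ + P.mu γ (Set.univ ×ˢ {(1 : ℝ)})) + ∑ g ∈ Gf, P.mu γ (k2bGr P nt a γ g) :=
        add_le_add (measure_union_le _ _) (measure_biUnion_finset_le _ _)
    _ = ∑ g ∈ Gf, P.mu γ (k2bGr P nt a γ g) := by rw [k2s_mu_compl P hP γ, h2]; simp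

theorem k2b_fin_arith {K2 : ℝ} (hK2 : 1 ≤ K2) (tot m R : ℝ≥0∞) (h1 : 1 ≤ ENNReal.ofReal K2 * tot) (h2 : tot ≤ m + R)
    (h3 : R ≤ ENNReal.ofReal (5 / (16 * K2))) : 1 ≤ ENNReal.ofReal (2 * K2) * m := by
  have hK0 : 0 < K2 := by linarith
  by_cases hm : m = ⊤
  · rw [hm, ENNReal.mul_top (by simp; linarith)]
    exact le_top
  · have e : m = ENNReal.ofReal m.toReal := (ENNReal.ofReal_toReal hm).symm
    have hm0 : 0 ≤ m.toReal := ENNReal.toReal_nonneg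
    rw [e] at h2 ⊢
    have h4 : (1 : ℝ≥0∞) ≤ ENNReal.ofReal (K2 * (m.toReal + 5 / (16 * K2))) := by
      calc (1 : ℝ≥0∞) ≤ ENNReal.ofReal K2 * tot := h1
        _ ≤ ENNReal.ofReal K2 * (ENNReal.ofReal m.toReal + ENNReal.ofReal (5 / (16 * K2))) := by gcongr; exact h2.trans (by gcongr)
        _ = _ := by rw [← ENNReal.ofReal_add hm0 (by positivity), ← ENNReal.ofReal_mul hK0.le]
    rw [← ENNReal.ofReal_mul (by positivity)]
    rw [← ENNReal.ofReal_one] at h4 ⊢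
    have h5 := (ENNReal.ofReal_le_ofReal_iff (by positivity)).1 h4
    apply ENNReal.ofReal_le_ofReal
    have h6 : K2 * (m.toReal + 5 / (16 * K2)) = K2 * m.toReal + 5 / 16 := by
      field_simp
    rw [h6] at h5
    linarith


theorem k2b_vj_le (v : KbVer) : v.j ≤ 2 := by
  cases v <;> simp [KbVer.j]

theorem k2b_num_card {K Q q a p2 : ℝ} {j : ℕ} (hj : j ≤ 2) (hK : 1 ≤ K) (hQ : 1 ≤ Q) (hq : 1 / (2 * Q) ≤ q) (ha : 1 / Q ≤ a) (hp2 : q * p2 = 1) :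
    p2 * (2 * K / q + 2) ^ j * (2 * K / a + 2) ≤ 288 * K ^ 3 * Q ^ 4 := by
  have hQ0 : 0 < Q := by linarith
  have hK0 : 0 < K := by linarith
  have hq0 : 0 < q := lt_of_lt_of_le (by positivity) hq
  have ha0 : 0 < a := lt_of_lt_of_le (by positivity) ha
  have e1 : p2 = 1 / q := by field_simp; linarith
  have hp : p2 ≤ 2 * Q := by
    rw [e1, div_le_iff₀ hq0]
    have := (div_le_iff₀ (by positivity : (0 : ℝ) < 2 * Q)).1 hq
    linarith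
  have hp0 : 0 < p2 := by rw [e1]; positivity
  have hKQ : 1 ≤ K * Q := by nlinarith
  have h1 : 2 * K / q + 2 ≤ 6 * (K * Q) := by
    have : 2 * K / q = 2 * K * p2 := by rw [e1]; ring
    rw [this]
    nlinarith
  have h10 : 0 ≤ 2 * K / q + 2 := by positivity
  have h2 : (2 * K / q + 2) ^ j ≤ (6 * (K * Q)) ^ 2 :=
    (pow_le_pow_left₀ h10 h1 j).trans (pow_le_pow_right₀ (by linarith) hj)
  have h3 : 2 * K / a + 2 ≤ 4 * (K * Q) := by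
    have h4 : 1 / a ≤ Q := by
      rw [div_le_iff₀ ha0]
      have := (div_le_iff₀ hQ0).1 ha
      linarith
    have : 2 * K / a = 2 * K * (1 / a) := by ring
    rw [this]
    nlinarith
  calc p2 * (2 * K / q + 2) ^ j * (2 * K / a + 2) ≤ (2 * Q) * (6 * (K * Q)) ^ 2 * (4 * (K * Q)) := by
        gcongr
    _ = 288 * K ^ 3 * Q ^ 4 := by ring

theorem k2b_num_list {K : ℝ} {j : ℕ} (hj : j ≤ 2) (hK : 1 ≤ K) : (2 * K + 3) ^ j * (60 * K + 3) ≤ 1575 * K ^ 3 := by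
  have h1 : (2 * K + 3) ^ j ≤ (5 * K) ^ 2 :=
    (pow_le_pow_left₀ (by linarith) (by linarith) j).trans (pow_le_pow_right₀ (by linarith) hj)
  calc (2 * K + 3) ^ j * (60 * K + 3) ≤ (5 * K) ^ 2 * (63 * K) := by
        gcongr
        linarith
    _ = 1575 * K ^ 3 := by ring

theorem k2b_num_J {K Q q Dr : ℝ} {j : ℕ} (hj : j ≤ 2) (hK : 1 ≤ K) (hQ : 1 ≤ Q) (hq : 1 / (2 * Q) ≤ q) (hD : 1 ≤ Dr) :
    1 ≤ (4 * Q ^ 2 * Dr ^ 2) * (K * q / Dr) ^ j := by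
  have hQ0 : 0 < Q := by linarith
  have hD0 : 0 < Dr := by linarith
  have hy : 1 / (2 * Q * Dr) ≤ K * q / Dr := by
    rw [div_le_div_iff₀ (by positivity) hD0]
    have h9 := (div_le_iff₀ (by positivity : (0 : ℝ) < 2 * Q)).1 hq
    have h10 : 1 ≤ K * (q * (2 * Q)) := by nlinarith
    calc 1 * Dr ≤ (K * (q * (2 * Q))) * Dr := by gcongr
      _ = K * q * (2 * Q * Dr) := by ring
  have hy1 : 1 / (2 * Q * Dr) ≤ 1 := by
    rw [div_le_one (by positivity)]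
    nlinarith
  have h5 : (1 / (2 * Q * Dr)) ^ 2 ≤ (K * q / Dr) ^ j :=
    (pow_le_pow_of_le_one (by positivity) hy1 hj).trans (pow_le_pow_left₀ (by positivity) hy j)
  calc (1 : ℝ) = (4 * Q ^ 2 * Dr ^ 2) * (1 / (2 * Q * Dr)) ^ 2 := by field_simp; ring
    _ ≤ _ := by gcongr

theorem k2b_num_S {S W0 w : ℝ} (hS : 0 ≤ S) (hW : 0 ≤ W0) (h1 : S * w ≤ 1) (h2 : 1 ≤ W0 * w) : S ≤ W0 := by
  calc S = S * 1 := (mul_one _).symm
    _ ≤ S * (W0 * w) := by gcongr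
    _ = W0 * (S * w) := by ring
    _ ≤ W0 * 1 := by gcongr
    _ = W0 := mul_one _

theorem k2b_num_a {Q Dr : ℝ} (hQ : 0 ≤ Q) (hD : 1 ≤ Dr) : 2 * Q ≤ 3303014400 * 1 * 1 * (Q * Dr) := by
  nlinarith

/-- lower bound for the weight of one piece -/
theorem k2b_num_w {K K2 Q q n C' De Dr θ : ℝ} {j : ℕ} (hj : j ≤ 2) (hK2 : 1 ≤ K2) (hK2K : K2 ≤ K) (hQ : 1 ≤ Q) (hq : 1 / (2 * Q) ≤ q) (hn : 1 / Q ≤ n)
    (hC' : 1 ≤ C') (hDe1 : 1 ≤ De) (hDeD : De ≤ Dr) (hθ : θ * (412876800 * K2 ^ 4 * K ^ 4 * C' * De) = n) :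
    1 ≤ (3303014400 * C' * K ^ 8 * Q ^ 4 * Dr ^ 3) * (θ * (K * q / Dr) ^ j * q) := by
  have hQ0 : 0 < Q := by linarith
  have hK : 1 ≤ K := hK2.trans hK2K
  have hK0 : 0 < K := by linarith
  have hD0 : 0 < Dr := by linarith
  have hq0 : 0 < q := lt_of_lt_of_le (by positivity) hq
  have hn0 : 0 < n := lt_of_lt_of_le (by positivity) hn
  have hθ0 : 0 < θ := by
    by_contra hcon
    have h1 : θ ≤ 0 := not_lt.1 hcon
    have h2 : 0 < 412876800 * K2 ^ 4 * K ^ 4 * C' * De := by positivity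
    nlinarith
  -- 1 ≤ θ * (c K^8 C' Dr Q)
  have h1 : 1 ≤ θ * (412876800 * K ^ 8 * C' * Dr * Q) := by
    have h2 : 1 ≤ n * Q := by
      have := (div_le_iff₀ hQ0).1 hn
      linarith
    have h3 : K2 ^ 4 ≤ K ^ 4 := pow_le_pow_left₀ (by linarith) hK2K 4
    have h4 : 412876800 * K2 ^ 4 * K ^ 4 * C' * De ≤ 412876800 * K ^ 8 * C' * Dr := by
      calc 412876800 * K2 ^ 4 * K ^ 4 * C' * De ≤ 412876800 * K ^ 4 * K ^ 4 * C' * Dr := by gcongr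
        _ = _ := by ring
    calc 1 ≤ n * Q := h2
      _ = θ * (412876800 * K2 ^ 4 * K ^ 4 * C' * De) * Q := by rw [hθ]
      _ ≤ θ * (412876800 * K ^ 8 * C' * Dr) * Q := by gcongr
      _ = _ := by ring
  have hy : 1 / (2 * Q * Dr) ≤ K * q / Dr := by
    rw [div_le_div_iff₀ (by positivity) hD0]
    have h9 := (div_le_iff₀ (by positivity : (0 : ℝ) < 2 * Q)).1 hq
    have h10 : 1 ≤ K * (q * (2 * Q)) := by nlinarith
    calc 1 * Dr ≤ (K * (q * (2 * Q))) * Dr := by gcongr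
      _ = K * q * (2 * Q * Dr) := by ring
  have hy1 : 1 / (2 * Q * Dr) ≤ 1 := by
    rw [div_le_one (by positivity)]
    nlinarith
  have h5 : (1 / (2 * Q * Dr)) ^ 2 ≤ (K * q / Dr) ^ j :=
    (pow_le_pow_of_le_one (by positivity) hy1 hj).trans (pow_le_pow_left₀ (by positivity) hy j)
  have h6 : 1 ≤ (4 * Q ^ 2 * Dr ^ 2) * (K * q / Dr) ^ j := by
    calc (1 : ℝ) = (4 * Q ^ 2 * Dr ^ 2) * (1 / (2 * Q * Dr)) ^ 2 := by field_simp; ring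
      _ ≤ _ := by gcongr
  have h7 : 1 ≤ (2 * Q) * q := by
    have := (div_le_iff₀ (by positivity : (0 : ℝ) < 2 * Q)).1 hq
    linarith
  have h8 : 0 < (K * q / Dr) ^ j := by positivity
  calc (1 : ℝ) = 1 * 1 * 1 := by norm_num
    _ ≤ (θ * (412876800 * K ^ 8 * C' * Dr * Q)) * ((4 * Q ^ 2 * Dr ^ 2) * (K * q / Dr) ^ j) * ((2 * Q) * q) := by
        gcongr
    _ = _ := by ring


set_option maxHeartbeats 1000000 in
/-- **LEAF L-252-S2b-R3: Proposition 2.16 at one scale, explicit slacks.**   `C0' , η, C'` from `k2b_group_pb H`.   `nt` with `a/2 < kbQ nt ≤ a`.   `Gf` from `k2b_gs_range`, `#Gf ≤ 2Q (4KQ+2)^2 (2KQ+2) ≤ 288 K^3 Q^4`.   `n_l` from `k2b_gl_small`.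
`K₁ = 32 K₂ (2K+3)^j (60K+3)`, `n' = n / (K K₁)`, `φ = n' / (32 K₂)`, `κ = 1 / (16 K₂)`, `θ = κ φ / (16 K₂ C' D^ε)`.   Choose the pieces of all `(γ, g)` (`k2b_group_pb`, `Classical.choose`), `Y` from `k2b_build`.
MASS.  `mu γ univ = ∑_{g ∈ Gf} mu γ (Gr g)` (`Ev ⊆ Sp ×ˢ [0,1]`, `{t = 1}` is null, `k2b_gl_iff`, disjoint rectangles), `mu γ (Gr g) = ∑_i mu γ (A i ×ˢ I) + mu γ ((Gs \\ ⋃ A i) ×ˢ I)`:  `tot = Y.mass + ∑ γ, om γ ∑ g, res γ g`.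
The four sums:  (1) `≤ mass {dn Gl < n'} ≤ mass (below (hid a) (n/K)) + mass {dn Gl < K₁⁻¹ dn (hid a)} ≤ 1/(32K₂) + n_l / K₁ ≤ 1/(16 K₂)`;  (2) `#Gf C0' Q^4 K^4 D^{-1/4} ≤ 1/(16 K₂)` by the last hypothesis (`C0 = 16 · 288 · C0'`, `K₂ ≤ K`);
(3) `(2φ/n' + κ) ∑ q nu(Gs) ≤ 1/(16K₂) + 1/(16K₂)` (`k2b_gs_budget`);  (4) `C' θ/(κ φ) D^ε tot ≤ 1/(16 K₂)`.   So `Y.mass ≥ tot - 5/(16 K₂) ≥ 1/(2 K₂)`.
`Tru`: `n = Kt θ` with `Kt = K K₁ · 32 K₂ · 16 K₂ · 16 K₂ C' D^ε ≤ C K^9 D^ε`.   `Tmp`: `∑_g n γ g ≤ 1 / (θ (Kq/D)^j q)`, `#W ≤ Q`, `1/q ≤ 2Q`, `1/n ≤ Q`, `J ≥ (Kq/D)^j`, centres `≤ 6K`. -/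
theorem k2b_p216_core (H : K2bPlankFin) : ∃ C0 : ℝ, 1 ≤ C0 ∧ ∀ ε : ℝ, 0 < ε → ε ≤ 1 → ∃ η C : ℝ, 0 < η ∧ 1 ≤ C ∧
    ∀ (v : KbVer) (P : KbPb v) (a n K K2 Q : ℝ) (D : ℕ), P.WF → P.Ntv K → P.Tmp Q → 1 ≤ K2 → K2 ≤ K → 1 ≤ Q → 1 / Q ≤ a → a ≤ 1 → 1 / Q ≤ n → 1 ≤ D →
      1 ≤ ENNReal.ofReal K2 * P.tot → P.mass (P.below (P.hid a) (n / K)) ≤ ENNReal.ofReal (1 / (32 * K2)) →
      (D : ℝ) ^ (-η) ≤ 1 / (16 * K2) → C0 * K ^ 8 * Q ^ 8 * (1 / (D : ℝ)) ^ (1 / 4 : ℝ) ≤ 1 →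
      ∃ Y : KbSys P, Y.WF ∧ Y.Tmp (C * K ^ 9 * (Q * D) ^ 5) ∧ Y.Geo (32 * K) a ∧ Y.Big (2 * K2) ∧ Y.Tru (C * K ^ 9 * (D : ℝ) ^ ε) n ∧ a / 2 < Y.q ∧ Y.q ≤ a := by
  obtain ⟨C0', hC0', hgrp⟩ := k2b_group_pb H
  refine ⟨4608 * C0', by linarith, fun ε hε hε1 => ?_⟩
  obtain ⟨η, C', hη, hC', hg⟩ := hgrp ε hε
  refine ⟨η, 3303014400 * C', hη, by linarith, ?_⟩
  intro v P a n K K2 Q D hP hK hQ hK2 hK2K hQ1 haQ ha1 hnQ hD htot hbel hDη hDQ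
  have hK1 : 1 ≤ K := hK2.trans hK2K
  have hQ0 : 0 < Q := by linarith
  have hK0 : 0 < K := by linarith
  have hK20 : 0 < K2 := by linarith
  have hC'0 : 0 < C' := by linarith
  have ha : 0 < a := lt_of_lt_of_le (by positivity) haQ
  have hn : 0 < n := lt_of_lt_of_le (by positivity) hnQ
  have hDr : (1 : ℝ) ≤ D := by exact_mod_cast hD
  have hD0 : (0 : ℝ) < D := by linarith
  obtain ⟨nt, hq1, hq2⟩ := k2b_level ha ha1
  have hq0 := k2b_kbQ_pos nt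
  have hqQ : 1 / (2 * Q) ≤ kbQ nt := by
    have : 1 / (2 * Q) = 1 / Q / 2 := by field_simp
    rw [this]
    linarith
  obtain ⟨Gf, hGf1, hGfc, hGf2⟩ := k2b_gs_range P hP hK nt ha
  obtain ⟨nl, hnl, hsmall⟩ := k2b_gl_small P hP hK hK1 nt ha ha1 hq2
  obtain ⟨De, hDe⟩ : ∃ De : ℝ, De = (D : ℝ) ^ ε := ⟨_, rfl⟩
  have hDe1 : 1 ≤ De := by rw [hDe]; exact Real.one_le_rpow hDr hε.le
  have hDeD : De ≤ D := by
    rw [hDe]
    calc (D : ℝ) ^ ε ≤ (D : ℝ) ^ (1 : ℝ) := Real.rpow_le_rpow_of_exponent_le hDr hε1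
      _ = D := Real.rpow_one _
  have hDe0 : 0 < De := by linarith
  obtain ⟨K1, hK1d⟩ : ∃ K1 : ℝ, K1 = 50400 * K2 * K ^ 3 := ⟨_, rfl⟩
  obtain ⟨n', hn'⟩ : ∃ n' : ℝ, n' = n / (K * K1) := ⟨_, rfl⟩
  obtain ⟨φ, hφ⟩ : ∃ φ : ℝ, φ = n' / (32 * K2) := ⟨_, rfl⟩
  obtain ⟨κ, hκ⟩ : ∃ κ : ℝ, κ = 1 / (16 * K2) := ⟨_, rfl⟩
  obtain ⟨θ, hθ⟩ : ∃ θ : ℝ, θ = κ * φ / (16 * K2 * C' * De) := ⟨_, rfl⟩
  have hK1p : 0 < K1 := by rw [hK1d]; positivity
  have hn'p : 0 < n' := by rw [hn']; positivity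
  have hφp : 0 < φ := by rw [hφ]; positivity
  have hκp : 0 < κ := by rw [hκ]; positivity
  have hθp : 0 < θ := by rw [hθ]; positivity
  have hθn : θ * (412876800 * K2 ^ 4 * K ^ 4 * C' * De) = n := by
    rw [hθ, hκ, hφ, hn', hK1d]
    field_simp
    ring
  have hc3 : 2 * φ / n' + κ = 1 / (8 * K2) := by
    rw [hφ, hκ]
    field_simp
    ring
  have hc4 : C' * θ / (κ * φ) * (D : ℝ) ^ ε = 1 / (16 * K2) := by
    rw [← hDe, hθ]
    field_simp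
  obtain ⟨c2, hc2⟩ : ∃ c2 : ℝ, c2 = C0' * Q ^ 4 * K ^ 4 * (1 / (D : ℝ)) ^ (1 / 4 : ℝ) := ⟨_, rfl⟩
  have hc20 : 0 ≤ c2 := by rw [hc2]; positivity
  have hall : ∀ (γ : P.W) (g : K2bG v), ∃ (m : ℕ) (ch : Fin m → KbChart v) (A : Fin m → Set P.Lam),
      (∀ i, MeasurableSet (A i)) ∧ (∀ i, A i ⊆ k2bGs P nt a γ g) ∧ (∀ i i', i ≠ i' → Disjoint (A i) (A i')) ∧
        (∀ i, (ch i).D * (ch i).Di = 1) ∧ (∀ i, kbMn (ch i).D ≤ 32 * K * kbQ nt) ∧ (∀ i, (K * kbQ nt / (D : ℝ)) ^ v.j ≤ (ch i).J) ∧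
        (∀ i, ‖(ch i).y0‖ + ‖(ch i).y1‖ ≤ 6 * K) ∧
        (∀ i, ∀ l ∈ A i, ∀ t ∈ kbI nt g.1, ‖(ch i).Di.mulVec (kbY (P.co γ l) t - (ch i).yc t)‖ ≤ 1) ∧
        (∀ i, (ch i).T = fun t y w => P.Pst γ t y w - a * (g.2.2 : ℝ)) ∧
        (∀ i, ENNReal.ofReal (θ * (ch i).J * kbQ nt) ≤ P.mu γ (A i ×ˢ kbI nt g.1)) ∧
        (g.1 < 2 ^ nt → ((m : ℝ≥0∞) * ENNReal.ofReal (θ * (K * kbQ nt / (D : ℝ)) ^ v.j * kbQ nt) ≤ P.mu γ (k2bGr P nt a γ g)) ∧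
        P.mu γ ((k2bGs P nt a γ g \ ⋃ i, A i) ×ˢ kbI nt g.1)
          ≤ P.mu γ (k2bGr P nt a γ g ∩ {x | P.dn (k2bGl P nt a) γ x < ENNReal.ofReal n'})
            + ENNReal.ofReal c2
            + ENNReal.ofReal (1 / (8 * K2)) * (ENNReal.ofReal (kbQ nt) * P.nu γ (k2bGs P nt a γ g))
            + ENNReal.ofReal (1 / (16 * K2)) * P.mu γ (k2bGr P nt a γ g)) := by
    intro γ g
    by_cases hg1 : g.1 < 2 ^ nt
    · obtain ⟨m, ch, A, b1, b2, b3, b4, b5, b6, b7, b8, b9, b10, b11, b12⟩ :=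
        hg v P nt a K Q D θ κ n' φ γ g hP hK hQ hK1 hQ1 hD ha hg1 hθp (by rw [hκ]; exact hDη) hn'p hφp
      refine ⟨m, ch, A, b1, b2, b3, b4, b5, b6, b7, b8, b9, b10, fun _ => ⟨b11, ?_⟩⟩
      rw [hc3, hc4, ← hc2, ENNReal.ofReal_mul (by positivity), mul_assoc] at b12
      exact b12
    · exact ⟨0, fun i => i.elim0, fun i => i.elim0, fun i => i.elim0, fun i => i.elim0, fun i => i.elim0, fun i => i.elim0, fun i => i.elim0,
        fun i => i.elim0, fun i => i.elim0, fun i => i.elim0, fun i => i.elim0, fun i => i.elim0, fun h => absurd h hg1⟩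
  choose m ch A h1 h2 h3 h4 h5 h6 h7 h8 h9 h10 h11 using hall
  obtain ⟨Y, hYn, hYwf, hYgeo, hYmass, hYtru, hYtmp⟩ := k2b_build P hP hK hK1 nt ha ha1 hq2 Gf hGf1 m ch A h1 h2 h3 h4 h5 h8 h9
  have hmu1 : ∀ γ, P.mu γ Set.univ ≤ 1 := fun γ => k2s_mu_univ P hP γ
  have hGrsum : ∀ γ, ∑ g ∈ Gf, P.mu γ (k2bGr P nt a γ g) ≤ 1 := by
    intro γ
    have := k2b_gr_sum_le P hP nt a γ Gf Set.univ
    simp only [Set.inter_univ] at this
    exact this.trans (hmu1 γ)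
  -- the weight of a piece
  have hw := k2b_num_w (j := v.j) (k2b_vj_le v) hK2 hK2K hQ1 hqQ hnQ hC' hDe1 hDeD hθn
  obtain ⟨w, hwd⟩ : ∃ w : ℝ, w = θ * (K * kbQ nt / (D : ℝ)) ^ v.j * kbQ nt := ⟨_, rfl⟩
  rw [← hwd] at hw
  have hw0 : 0 < w := by rw [hwd]; positivity
  have hX : 1 ≤ Q * D := one_le_mul_of_one_le_of_one_le hQ1 hDr
  have hX5 : Q * D ≤ (Q * D) ^ 5 := le_self_pow₀ hX (by norm_num)
  have hX2 : (Q * D) ^ 2 ≤ (Q * D) ^ 5 := pow_le_pow_right₀ hX (by norm_num)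
  have hX1 : 1 ≤ (Q * D) ^ 5 := one_le_pow₀ hX
  have hK9 : 1 ≤ K ^ 9 := one_le_pow₀ hK1
  have hKK9 : K ≤ K ^ 9 := le_self_pow₀ hK1 (by norm_num)
  have hJ : 1 ≤ (4 * Q ^ 2 * (D : ℝ) ^ 2) * (K * kbQ nt / (D : ℝ)) ^ v.j := k2b_num_J (k2b_vj_le v) hK1 hQ1 hqQ hDr
  refine ⟨Y, hYwf, hYtmp _ ?_ ?_ ?_ ?_, hYgeo, ?_, hYtru _ _ ?_, ?_, ?_⟩
  · -- the number of pieces
    have hγ : ∀ γ, (∑ g ∈ Gf, (m γ g : ℝ)) ≤ 3303014400 * C' * K ^ 8 * Q ^ 4 * (D : ℝ) ^ 3 := by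
      intro γ
      have e1 : (∑ g ∈ Gf, (m γ g : ℝ≥0∞)) * ENNReal.ofReal w ≤ 1 := by
        rw [Finset.sum_mul]
        refine le_trans (Finset.sum_le_sum fun g hgG => ?_) (hGrsum γ)
        rw [hwd]
        exact (h11 γ g (hGf1 g hgG)).1
      have e2 : (∑ g ∈ Gf, (m γ g : ℝ≥0∞)) = ENNReal.ofReal (∑ g ∈ Gf, (m γ g : ℝ)) := by
        rw [ENNReal.ofReal_sum_of_nonneg (fun g _ => Nat.cast_nonneg _)]
        exact Finset.sum_congr rfl fun g _ => (ENNReal.ofReal_natCast _).symm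
      have hS0 : 0 ≤ ∑ g ∈ Gf, (m γ g : ℝ) := Finset.sum_nonneg fun g _ => Nat.cast_nonneg _
      rw [e2, ← ENNReal.ofReal_mul hS0, ← ENNReal.ofReal_one] at e1
      have e3 := (ENNReal.ofReal_le_ofReal_iff zero_le_one).1 e1
      exact k2b_num_S hS0 (by positivity) e3 hw
    calc (∑ γ, ∑ g ∈ Gf, (m γ g : ℝ)) ≤ ∑ _γ : P.W, 3303014400 * C' * K ^ 8 * Q ^ 4 * (D : ℝ) ^ 3 := Finset.sum_le_sum fun γ _ => hγ γ
      _ = (Fintype.card P.W : ℝ) * (3303014400 * C' * K ^ 8 * Q ^ 4 * (D : ℝ) ^ 3) := by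
          rw [Finset.sum_const, nsmul_eq_mul, Finset.card_univ]
      _ ≤ Q * (3303014400 * C' * K ^ 8 * Q ^ 4 * (D : ℝ) ^ 3) := by
          have := hQ.card
          gcongr
      _ = 3303014400 * C' * K ^ 8 * (Q ^ 5 * (D : ℝ) ^ 3) := by ring
      _ ≤ 3303014400 * C' * K ^ 9 * (Q ^ 5 * (D : ℝ) ^ 5) := by
          gcongr <;> first | exact hK1 | exact hDr | norm_num
      _ = _ := by rw [mul_pow]
  · have e1 : 1 ≤ (2 * Q) * kbQ nt := by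
      have := (div_le_iff₀ (by positivity : (0 : ℝ) < 2 * Q)).1 hqQ
      linarith
    refine e1.trans (mul_le_mul_of_nonneg_right ?_ hq0.le)
    calc 2 * Q ≤ 3303014400 * 1 * 1 * (Q * D) := k2b_num_a hQ0.le hDr
      _ ≤ _ := by gcongr
  · intro γ g _ i
    refine hJ.trans ?_
    have hJ0 : 0 ≤ (K * kbQ nt / (D : ℝ)) ^ v.j := by positivity
    refine mul_le_mul ?_ (h6 γ g i) hJ0 (by positivity)
    calc 4 * Q ^ 2 * (D : ℝ) ^ 2 = 4 * (Q * D) ^ 2 := by ring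
      _ ≤ 3303014400 * 1 * 1 * (Q * D) ^ 5 := by linarith [sq_nonneg (Q * D)]
      _ ≤ _ := by gcongr
  · intro γ g _ i
    refine (h7 γ g i).trans ?_
    calc 6 * K ≤ 3303014400 * 1 * K ^ 9 * 1 := by linarith
      _ ≤ _ := by gcongr
  · -- the mass
    refine k2b_fin_arith hK2 P.tot Y.mass (∑ γ, P.om γ * ∑ g ∈ Gf, P.mu γ ((k2bGs P nt a γ g \ ⋃ i, A γ g i) ×ˢ kbI nt g.1)) htot ?_ ?_
    · rw [hYmass, ← Finset.sum_add_distrib]
      unfold KbPb.tot KbPb.mass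
      refine Finset.sum_le_sum fun γ _ => ?_
      rw [← mul_add, ← Finset.sum_add_distrib]
      gcongr
      refine (k2b_gr_cover P hP nt a γ Gf (fun g b1 b2 => hGf2 γ g b1 b2)).trans (Finset.sum_le_sum fun g _ => ?_)
      have hsub : k2bGr P nt a γ g ⊆ (⋃ i, A γ g i ×ˢ kbI nt g.1) ∪ ((k2bGs P nt a γ g \ ⋃ i, A γ g i) ×ˢ kbI nt g.1) := by
        rintro x ⟨hx1, hx2⟩
        by_cases hx : x.1 ∈ ⋃ i, A γ g i
        · obtain ⟨i, hi⟩ := Set.mem_iUnion.1 hx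
          exact Or.inl (Set.mem_iUnion.2 ⟨i, hi, hx2⟩)
        · exact Or.inr ⟨⟨hx1, hx⟩, hx2⟩
      exact (measure_mono hsub).trans ((measure_union_le _ _).trans (add_le_add (measure_iUnion_fintype_le _ _) le_rfl))
    · -- the residual
      have hγ : ∀ γ, ∑ g ∈ Gf, P.mu γ ((k2bGs P nt a γ g \ ⋃ i, A γ g i) ×ˢ kbI nt g.1)
          ≤ P.mu γ {x | P.dn (k2bGl P nt a) γ x < ENNReal.ofReal n'}
            + (ENNReal.ofReal (1 / (16 * K2)) + ENNReal.ofReal (1 / (8 * K2)) + ENNReal.ofReal (1 / (16 * K2))) := by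
        intro γ
        refine (Finset.sum_le_sum fun g hgG => (h11 γ g (hGf1 g hgG)).2).trans ?_
        simp only [Finset.sum_add_distrib]
        have e3 : ∑ g ∈ Gf, ENNReal.ofReal (1 / (8 * K2)) * (ENNReal.ofReal (kbQ nt) * P.nu γ (k2bGs P nt a γ g))
            = ENNReal.ofReal (1 / (8 * K2)) * ∑ g ∈ Gf, ENNReal.ofReal (kbQ nt) * P.nu γ (k2bGs P nt a γ g) := (Finset.mul_sum _ _ _).symm
        have e4 : ∑ g ∈ Gf, ENNReal.ofReal (1 / (16 * K2)) * P.mu γ (k2bGr P nt a γ g)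
            = ENNReal.ofReal (1 / (16 * K2)) * ∑ g ∈ Gf, P.mu γ (k2bGr P nt a γ g) := (Finset.mul_sum _ _ _).symm
        rw [e3, e4, Finset.sum_const, nsmul_eq_mul, add_assoc, add_assoc, add_assoc]
        refine add_le_add (k2b_gr_sum_le P hP nt a γ Gf _) (add_le_add ?_ (add_le_add ?_ ?_))
        · rw [← ENNReal.ofReal_natCast, ← ENNReal.ofReal_mul (Nat.cast_nonneg _)]
          apply ENNReal.ofReal_le_ofReal
          have hcard : (Gf.card : ℝ) ≤ 288 * K ^ 3 * Q ^ 4 :=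
            hGfc.trans (k2b_num_card (k2b_vj_le v) hK1 hQ1 hqQ haQ (k2b_kbQ_mul nt))
          rw [le_div_iff₀ (by positivity)]
          set dq := (1 / (D : ℝ)) ^ (1 / 4 : ℝ)
          have hdq : 0 ≤ dq := by positivity
          calc (Gf.card : ℝ) * c2 * (16 * K2) ≤ (288 * K ^ 3 * Q ^ 4) * c2 * (16 * K) := by gcongr
            _ = 4608 * C0' * K ^ 8 * Q ^ 8 * dq := by rw [hc2]; ring
            _ ≤ 1 := hDQ
        · calc _ ≤ ENNReal.ofReal (1 / (8 * K2)) * 1 := by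
                gcongr
                exact k2b_gs_budget P hP nt a γ Gf hGf1
            _ = _ := mul_one _
        · calc _ ≤ ENNReal.ofReal (1 / (16 * K2)) * 1 := by
                gcongr
                exact hGrsum γ
            _ = _ := mul_one _
      have hlow : P.mass (fun γ => {x | P.dn (k2bGl P nt a) γ x < ENNReal.ofReal n'}) ≤ ENNReal.ofReal (1 / (32 * K2)) + ENNReal.ofReal (1 / (32 * K2)) := by
        have hsub : ∀ γ, {x | P.dn (k2bGl P nt a) γ x < ENNReal.ofReal n'} ⊆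
            P.below (P.hid a) (n / K) γ ∪ {x | P.dn (k2bGl P nt a) γ x < ENNReal.ofReal (1 / K1) * P.dn (P.hid a) γ x} := by
          intro γ x hx
          by_cases hb : P.dn (P.hid a) γ x < ENNReal.ofReal (n / K)
          · exact Or.inl hb
          · right
            have hb' : ENNReal.ofReal (n / K) ≤ P.dn (P.hid a) γ x := not_lt.1 hb
            have hx' : P.dn (k2bGl P nt a) γ x < ENNReal.ofReal n' := hx
            refine lt_of_lt_of_le hx' ?_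
            calc ENNReal.ofReal n' = ENNReal.ofReal (1 / K1) * ENNReal.ofReal (n / K) := by
                  rw [← ENNReal.ofReal_mul (by positivity), hn']
                  congr 1
                  field_simp
              _ ≤ _ := by gcongr
        refine (k2s_mass_mono P hsub).trans ((k2s_mass_union P _ _).trans (add_le_add hbel ?_))
        refine (hsmall _).trans ?_
        calc ENNReal.ofReal (1 / K1) * (nl : ℝ≥0∞) * P.tot ≤ ENNReal.ofReal (1 / K1) * (nl : ℝ≥0∞) * 1 := by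
              gcongr
              exact k2s_tot_le P hP
          _ = ENNReal.ofReal (1 / K1 * nl) := by
              rw [mul_one, ← ENNReal.ofReal_natCast, ← ENNReal.ofReal_mul (by positivity)]
          _ ≤ _ := by
              apply ENNReal.ofReal_le_ofReal
              have hnl' : (nl : ℝ) ≤ 1575 * K ^ 3 := hnl.trans (k2b_num_list (k2b_vj_le v) hK1)
              rw [hK1d, div_mul_eq_mul_div, one_mul, div_le_div_iff₀ (by positivity) (by positivity)]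
              calc (nl : ℝ) * (32 * K2) ≤ (1575 * K ^ 3) * (32 * K2) := by gcongr
                _ = 1 * (50400 * K2 * K ^ 3) := by ring
      calc (∑ γ, P.om γ * ∑ g ∈ Gf, P.mu γ ((k2bGs P nt a γ g \ ⋃ i, A γ g i) ×ˢ kbI nt g.1))
          ≤ ∑ γ, P.om γ * (P.mu γ {x | P.dn (k2bGl P nt a) γ x < ENNReal.ofReal n'}
            + (ENNReal.ofReal (1 / (16 * K2)) + ENNReal.ofReal (1 / (8 * K2)) + ENNReal.ofReal (1 / (16 * K2)))) := by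
            refine Finset.sum_le_sum fun γ _ => ?_
            gcongr
            exact hγ γ
        _ = P.mass (fun γ => {x | P.dn (k2bGl P nt a) γ x < ENNReal.ofReal n'})
            + (ENNReal.ofReal (1 / (16 * K2)) + ENNReal.ofReal (1 / (8 * K2)) + ENNReal.ofReal (1 / (16 * K2))) := by
            simp only [mul_add, Finset.sum_add_distrib, ← Finset.sum_mul, hP.om_sum, one_mul]
            rfl
        _ ≤ (ENNReal.ofReal (1 / (32 * K2)) + ENNReal.ofReal (1 / (32 * K2)))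
            + (ENNReal.ofReal (1 / (16 * K2)) + ENNReal.ofReal (1 / (8 * K2)) + ENNReal.ofReal (1 / (16 * K2))) := by
            gcongr
        _ = ENNReal.ofReal (5 / (16 * K2)) := by
            rw [← ENNReal.ofReal_add (by positivity) (by positivity), ← ENNReal.ofReal_add (by positivity) (by positivity),
              ← ENNReal.ofReal_add (by positivity) (by positivity), ← ENNReal.ofReal_add (by positivity) (by positivity)]
            congr 1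
            field_simp
            norm_num
  · intro γ g _ i
    have hJ0 : 0 ≤ (ch γ g i).J := abs_nonneg _
    calc ENNReal.ofReal (n * (ch γ g i).J * kbQ nt)
        ≤ ENNReal.ofReal ((3303014400 * C' * K ^ 9 * (D : ℝ) ^ ε) * (θ * (ch γ g i).J * kbQ nt)) := by
          apply ENNReal.ofReal_le_ofReal
          rw [← hDe, ← hθn]
          have e1 : K2 ^ 4 ≤ K ^ 4 := pow_le_pow_left₀ hK20.le hK2K 4
          have e2 : 412876800 * K2 ^ 4 * K ^ 4 * C' * De ≤ 3303014400 * C' * K ^ 9 * De := by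
            calc 412876800 * K2 ^ 4 * K ^ 4 * C' * De ≤ 3303014400 * K ^ 4 * K ^ 4 * C' * De := by gcongr; norm_num
              _ = 3303014400 * C' * K ^ 8 * De := by ring
              _ ≤ _ := by gcongr <;> first | exact hK1 | norm_num
          calc θ * (412876800 * K2 ^ 4 * K ^ 4 * C' * De) * (ch γ g i).J * kbQ nt
              ≤ θ * (3303014400 * C' * K ^ 9 * De) * (ch γ g i).J * kbQ nt := by gcongr
            _ = _ := by ring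
      _ = ENNReal.ofReal (3303014400 * C' * K ^ 9 * (D : ℝ) ^ ε) * ENNReal.ofReal (θ * (ch γ g i).J * kbQ nt) :=
          ENNReal.ofReal_mul (by positivity)
      _ ≤ _ := by
          gcongr
          exact h10 γ g i
  · show a / 2 < kbQ Y.n
    rw [hYn]
    exact hq1
  · show kbQ Y.n ≤ a
    rw [hYn]
    exact hq2

theorem k2b_pow_ge {x s N : ℝ} (hx : 0 ≤ x) (hs : 0 < s) (h : x ^ (1 / s) ≤ N) : x ≤ N ^ s := by
  calc x = (x ^ (1 / s)) ^ s := by rw [← Real.rpow_mul hx, one_div_mul_cancel hs.ne', Real.rpow_one]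
    _ ≤ N ^ s := Real.rpow_le_rpow (by positivity) h hs.le

/-- **LEAF L-252-S2b-R4: numerics.**   `C0` from `k2b_p216_core H`.   `D0 = 4 (8 (M + 1) + 2)`, `M' = 12 + 5 (M + D0 + 1)`.   Given `ξ ≤ 1`: `ε = ξ / (4 (D0 + 1))`, `η, C` from the core, `τ = min (min 1 (ξ / 40)) (η D0 / 2)`;  `D = ⌈N^{D0}⌉₊ ∈ [N^{D0}, 2 N^{D0}]`, `K = N^τ`, `Q = N^M`.
For `N ≥ N1` (`N1` = a maximum of finitely many explicit numbers, e.g. `N^{ξ/4} ≥ 64 C`, `N ≥ 16 C0`, `N^{η D0 / 2} ≥ 16`):  `C0 K^8 Q^8 D^{-1/4} ≤ C0 N^{8 + 8M - D0/4} ≤ 1`;  `D^{-η} ≤ N^{-η D0} ≤ N^{-τ}/16`;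
`C K^9 D^ε ≤ C N^{9ξ/40} (2 N^{D0})^ε ≤ N^ξ`;  `32 K ≤ N^ξ`, `2 K₂ ≤ N^ξ`;  `C K^9 (Q D)^5 ≤ N^{M'}`.   Monotonicity in the slacks: `k2s_geo_mono`, `k2s_big_mono`, `k2s_tru_mono`, `k2s_tmp_mono`. -/
theorem k2b_p216 (H : K2bPlankFin) (M : ℝ) (hM : 0 < M) : ∃ M' : ℝ, ∀ ξ : ℝ, 0 < ξ → ξ ≤ 1 → ∃ τ N1 : ℝ, 0 < τ ∧
    ∀ (v : KbVer) (P : KbPb v) (N a n K2 : ℝ), N1 ≤ N → 2 ≤ N → P.WF → P.Ntv (N ^ τ) → P.Tmp (N ^ M) → 1 ≤ K2 → K2 ≤ N ^ τ → N ^ (-M) ≤ a → a ≤ 1 → N ^ (-M) ≤ n →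
      1 ≤ ENNReal.ofReal K2 * P.tot → P.mass (P.below (P.hid a) (n / N ^ τ)) ≤ ENNReal.ofReal (1 / (32 * K2)) →
      ∃ Y : KbSys P, Y.WF ∧ Y.Tmp (N ^ M') ∧ Y.Geo (N ^ ξ) a ∧ Y.Big (N ^ ξ) ∧ Y.Tru (N ^ ξ) n ∧ a / 2 < Y.q ∧ Y.q ≤ a := by
  obtain ⟨C0, hC0, hcore⟩ := k2b_p216_core H
  obtain ⟨D0, hD0⟩ : ∃ D0 : ℝ, D0 = 32 * M + 40 := ⟨_, rfl⟩
  have hD0p : 0 < D0 := by rw [hD0]; positivity
  refine ⟨12 + 5 * (M + D0 + 1), fun ξ hξ hξ1 => ?_⟩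
  have hε : 0 < ξ / (4 * (D0 + 1)) := by positivity
  have hε1 : ξ / (4 * (D0 + 1)) ≤ 1 := by
    rw [div_le_one (by positivity)]
    linarith
  obtain ⟨η, C, hη, hC, hmain⟩ := hcore _ hε hε1
  obtain ⟨τ, hτd⟩ : ∃ τ : ℝ, τ = min (min 1 (ξ / 40)) (η * D0 / 2) := ⟨_, rfl⟩
  have hτ0 : 0 < τ := by
    rw [hτd]
    exact lt_min (lt_min one_pos (by positivity)) (by positivity)
  have hτ1 : τ ≤ 1 := by rw [hτd]; exact (min_le_left _ _).trans (min_le_left _ _)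
  have hτξ : τ ≤ ξ / 40 := by rw [hτd]; exact (min_le_left _ _).trans (min_le_right _ _)
  have hτη : τ ≤ η * D0 / 2 := by rw [hτd]; exact min_le_right _ _
  refine ⟨τ, max (max C0 ((16 : ℝ) ^ (1 / (η * D0 / 2)))) (max (C ^ (1 / (ξ / 4))) ((32 : ℝ) ^ (1 / (ξ / 4)))), hτ0, ?_⟩
  intro v P N a n K2 hN1 hN2 hP hK hQ hK2 hK2K haM ha1 hnM htot hbel
  have hN0 : 0 < N := by linarith
  have hN1' : 1 ≤ N := by linarith
  have hNC0 : C0 ≤ N := ((le_max_left _ _).trans (le_max_left _ _)).trans hN1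
  have h16 : 16 ≤ N ^ (η * D0 / 2) := k2b_pow_ge (by norm_num) (by positivity) (((le_max_right _ _).trans (le_max_left _ _)).trans hN1)
  have hCN : C ≤ N ^ (ξ / 4) := k2b_pow_ge (by linarith) (by positivity) (((le_max_left _ _).trans (le_max_right _ _)).trans hN1)
  have h32 : 32 ≤ N ^ (ξ / 4) := k2b_pow_ge (by norm_num) (by positivity) (((le_max_right _ _).trans (le_max_right _ _)).trans hN1)
  have hmon : ∀ {x y : ℝ}, x ≤ y → N ^ x ≤ N ^ y := fun h => Real.rpow_le_rpow_of_exponent_le hN1' h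
  have hpos : ∀ x : ℝ, 0 < N ^ x := fun x => Real.rpow_pos_of_pos hN0 x
  have hadd : ∀ x y : ℝ, N ^ x * N ^ y = N ^ (x + y) := fun x y => (Real.rpow_add hN0 x y).symm
  have hnat : ∀ (x : ℝ) (k : ℕ), (N ^ x) ^ k = N ^ (x * k) := fun x k => by
    rw [← Real.rpow_natCast, ← Real.rpow_mul hN0.le]
  obtain ⟨D, hDdef⟩ : ∃ D : ℕ, D = ⌈N ^ D0⌉₊ := ⟨_, rfl⟩
  have hDlo : N ^ D0 ≤ D := by rw [hDdef]; exact Nat.le_ceil _
  have hND1 : 1 ≤ N ^ D0 := Real.one_le_rpow hN1' hD0p.le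
  have hDhi : (D : ℝ) ≤ N ^ (D0 + 1) := by
    have h1 : (D : ℝ) < N ^ D0 + 1 := by rw [hDdef]; exact Nat.ceil_lt_add_one (hpos _).le
    rw [← hadd, Real.rpow_one]
    nlinarith
  have hDr : (1 : ℝ) ≤ D := hND1.trans hDlo
  have hD1 : 1 ≤ D := by exact_mod_cast hDr
  have hDp : (0 : ℝ) < D := by linarith
  have ha0 : 0 < a := lt_of_lt_of_le (hpos _) haM
  have hinv : 1 / N ^ M = N ^ (-M) := by rw [Real.rpow_neg hN0.le, one_div]
  have hA : (D : ℝ) ^ (-η) ≤ 1 / (16 * K2) := by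
    calc (D : ℝ) ^ (-η) ≤ (N ^ D0) ^ (-η) := Real.rpow_le_rpow_of_nonpos (hpos _) hDlo (by linarith)
      _ = (N ^ (η * D0 / 2))⁻¹ * (N ^ (η * D0 / 2))⁻¹ := by
          rw [← Real.rpow_mul hN0.le, ← Real.rpow_neg hN0.le, hadd]
          congr 1
          ring
      _ ≤ (16 : ℝ)⁻¹ * K2⁻¹ := by
          refine mul_le_mul (inv_anti₀ (by norm_num) h16) (inv_anti₀ (by linarith) (hK2K.trans (hmon hτη))) (inv_nonneg.2 (hpos _).le) (by norm_num)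
      _ = 1 / (16 * K2) := by rw [one_div, mul_inv]
  have hB : C0 * (N ^ τ) ^ 8 * (N ^ M) ^ 8 * (1 / (D : ℝ)) ^ (1 / 4 : ℝ) ≤ 1 := by
    have h1 : (1 / (D : ℝ)) ^ (1 / 4 : ℝ) ≤ N ^ (-(D0 / 4)) := by
      calc (1 / (D : ℝ)) ^ (1 / 4 : ℝ) ≤ (1 / N ^ D0) ^ (1 / 4 : ℝ) :=
            Real.rpow_le_rpow (by positivity) (one_div_le_one_div_of_le (hpos _) hDlo) (by norm_num)
        _ = N ^ (-(D0 / 4)) := by
            rw [one_div, ← Real.rpow_neg hN0.le, ← Real.rpow_mul hN0.le]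
            congr 1
            ring
    calc C0 * (N ^ τ) ^ 8 * (N ^ M) ^ 8 * (1 / (D : ℝ)) ^ (1 / 4 : ℝ)
        ≤ N ^ (1 : ℝ) * N ^ (8 : ℝ) * N ^ (M * 8) * N ^ (-(D0 / 4)) := by
          have e1 : (N ^ τ) ^ 8 ≤ N ^ (8 : ℝ) := by
            rw [hnat]
            exact hmon (by push_cast; linarith)
          have e2 : (N ^ M) ^ 8 = N ^ (M * 8) := by
            rw [hnat]
            norm_num
          rw [e2, Real.rpow_one]
          gcongr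
      _ = N ^ (-1 : ℝ) := by
          rw [hadd, hadd, hadd]
          congr 1
          rw [hD0]
          ring
      _ ≤ 1 := Real.rpow_le_one_of_one_le_of_nonpos hN1' (by norm_num)
  obtain ⟨Y, y1, y2, y3, y4, y5, y6, y7⟩ := hmain v P a n (N ^ τ) K2 (N ^ M) D hP hK hQ hK2 hK2K (Real.one_le_rpow hN1' hM.le)
    (by rw [hinv]; exact haM) ha1 (by rw [hinv]; exact hnM) hD1 htot hbel hA hB
  have hK9 : (N ^ τ) ^ 9 ≤ N ^ (9 * ξ / 40) := by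
    rw [hnat]
    exact hmon (by push_cast; linarith)
  refine ⟨Y, y1, k2s_tmp_mono Y y2 ?_, k2s_geo_mono Y hP y3 ?_ ha0.le, k2s_big_mono Y y4 ?_, k2s_tru_mono Y y5 ?_, y6, y7⟩
  · calc C * (N ^ τ) ^ 9 * (N ^ M * D) ^ 5 ≤ N ^ (ξ / 4) * N ^ (9 * ξ / 40) * (N ^ M * N ^ (D0 + 1)) ^ 5 := by
          gcongr
      _ = N ^ (ξ / 4 + 9 * ξ / 40 + (M + (D0 + 1)) * 5) := by
          rw [hadd, hadd, hnat, hadd]
          norm_num
      _ ≤ _ := hmon (by linarith)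
  · calc 32 * N ^ τ ≤ N ^ (ξ / 4) * N ^ (ξ / 40) := by
          have := hmon hτξ
          gcongr
      _ = N ^ (ξ / 4 + ξ / 40) := hadd _ _
      _ ≤ _ := hmon (by linarith)
  · calc 2 * K2 ≤ N ^ (ξ / 4) * N ^ (ξ / 40) := by
          have : K2 ≤ N ^ (ξ / 40) := hK2K.trans (hmon hτξ)
          have h2 : (2 : ℝ) ≤ N ^ (ξ / 4) := by linarith
          gcongr
      _ = N ^ (ξ / 4 + ξ / 40) := hadd _ _
      _ ≤ _ := hmon (by linarith)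
  · have e1 : (D : ℝ) ^ (ξ / (4 * (D0 + 1))) ≤ N ^ (ξ / 4) := by
      calc (D : ℝ) ^ (ξ / (4 * (D0 + 1))) ≤ (N ^ (D0 + 1)) ^ (ξ / (4 * (D0 + 1))) := Real.rpow_le_rpow hDp.le hDhi hε.le
        _ = N ^ (ξ / 4) := by
            rw [← Real.rpow_mul hN0.le]
            congr 1
            field_simp
    calc C * (N ^ τ) ^ 9 * (D : ℝ) ^ (ξ / (4 * (D0 + 1))) ≤ N ^ (ξ / 4) * N ^ (9 * ξ / 40) * N ^ (ξ / 4) := by
          gcongr
      _ = N ^ (ξ / 4 + 9 * ξ / 40 + ξ / 4) := by rw [hadd, hadd]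
      _ ≤ _ := hmon (by linarith)

theorem k2b_ptmp_mono {P : KbPb v} (hP : P.WF) {Q Q' : ℝ} (h : P.Tmp Q) (hQ : Q ≤ Q') : P.Tmp Q' where
  card := h.card.trans hQ
  B_le := fun γ => ⟨(h.B_le γ).1.trans hQ, (h.B_le γ).2.trans (mul_le_mul_of_nonneg_right hQ (hP.B_pos γ).le)⟩
  co_le := fun γ l hl => (h.co_le γ l hl).trans hQ
  dens := fun γ => (h.dens γ).trans (by
    refine Measure.le_iff.2 fun s _ => ?_
    simp only [Measure.smul_apply, smul_eq_mul]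
    exact mul_le_mul_left (ENNReal.ofReal_le_ofReal hQ) _)

/-- the empty system -/
def k2bEmpty (P : KbPb v) : KbSys P where
  n := 0
  C := Empty
  fC := inferInstance
  wd := fun c => c.elim
  iv := fun c => c.elim
  A := fun c => c.elim
  S := fun c => c.elim
  ch := fun c => c.elim

theorem k2bEmpty_eqns_cite : True := by
  have := @k2bEmpty.eq_1
  trivial

/-- **LEAF L-252-S2b-R5: the hub `kb_horizon_le`.**   `hE` gives `M₀` (WF, Tmp eventually);  `M = max M₀ (max E.L |f E.L 0|) + 1`, `M'` from `k2b_p216`.   Fix `ξ ∈ (0,1]`: `τ, N1`.   `(hf.pure E.L _).2 τ` (`TypLo`): `c > 0` with `massOf (below (hid L) N^{-f-τ}) ≤ N^{-c}` eventually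
(`massOf` is a `toReal`; the mass is `≤ 1`, `k2a_tot_le`, so `ofReal (toReal ·)` gives it back).   `τ₂ = min τ (c/2)`, `K₂ = N^{τ₂}`:  eventually `Ntv (N^{τ₂})` (monotone in the slack: prove `Ntv` monotone field by field, or use `hE.2.2 τ` for `Ntv (N^τ)` and `hE.2.2 τ₂` only for its field `mass`), `N^{-c} ≤ N^{-τ₂}/32`, `N ≥ N1` (`E.R.lim`).
`a = E.a E.L k = N^{-L} ≤ 1`, `n = N^{-f L 0}`, `n / N^τ = N^{-f-τ}`.   So for every `ξ`: `∀ᶠ k, ∃ Y, props (min ξ 1)`.   `kb_slow` gives `ξ_k → 0`;  choose `Y k` (an arbitrary system, e.g. with `C = Empty`, where the property fails).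
`IsSys`: `M'`;  for `τ' > 0` eventually `ξ_k ≤ τ'`: monotonicity in the slack;  `KbExp q L` from `a/2 < q ≤ a` and `N^{τ'} ≥ 2`.   `IsTrue` likewise. -/
theorem k2b_horizon_le (H : K2bPlankFin) (E : KbEx v) (hE : E.Ok) (f : ℝ → ℝ → ℝ) (hf : E.Hom f) : ∃ Y : E.Sys, E.IsTrueSys f Y E.L E.L := by
  obtain ⟨hL, ⟨M0, hM0⟩, hN⟩ := hE
  set M : ℝ := max M0 (max E.L |f E.L 0|) + 1 with hMdef
  have hM0M : M0 ≤ M := by
    have := le_max_left M0 (max E.L |f E.L 0|)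
    linarith
  have hLM : E.L ≤ M := by
    have := le_max_right M0 (max E.L |f E.L 0|)
    have := le_max_left E.L |f E.L 0|
    linarith
  have hfM : |f E.L 0| ≤ M := by
    have := le_max_right M0 (max E.L |f E.L 0|)
    have := le_max_right E.L |f E.L 0|
    linarith
  have hMpos : 0 < M := by linarith
  obtain ⟨M', hM'⟩ := k2b_p216 H M hMpos
  let p : ℕ → ℝ → Prop := fun k ξ => (E.P k).WF ∧ ∃ Y : KbSys (E.P k), Y.WF ∧ Y.Tmp (E.R.N k ^ M') ∧ Y.Geo (E.R.N k ^ ξ) (E.a E.L k) ∧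
    Y.Big (E.R.N k ^ ξ) ∧ Y.Tru (E.R.N k ^ ξ) (E.R.N k ^ (-(f E.L 0))) ∧ E.a E.L k / 2 < Y.q ∧ Y.q ≤ E.a E.L k
  have hNpos : ∀ k, 0 < E.R.N k := fun k => kb_res_pos E.R k
  have hN1 : ∀ k, 1 ≤ E.R.N k := fun k => kb_res_one_le E.R k
  have hapos : ∀ k, 0 < E.a E.L k := fun k => Real.rpow_pos_of_pos (hNpos k) _
  have hp1 : ∀ ξ : ℝ, 0 < ξ → ξ ≤ 1 → ∀ᶠ k in uf, p k ξ := by
    intro ξ hξ hξ1
    obtain ⟨τ, N1, hτ, hcore⟩ := hM' ξ hξ hξ1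
    obtain ⟨c, hc, hlo⟩ := (hf.pure E.L ⟨hL.le, le_rfl⟩).2 τ hτ
    set τ2 := min τ (c / 2) with hτ2def
    have hτ2 : 0 < τ2 := lt_min hτ (by linarith)
    filter_upwards [hM0, hN τ hτ, hN τ2 hτ2, hlo, E.R.lim.eventually_ge_atTop N1,
      (kb_rpow_tendsto E.R (half_pos hc)).eventually_ge_atTop 32] with k h1 h2 h3 h4 h5 h6
    refine ⟨h1.1, hcore v (E.P k) (E.R.N k) (E.a E.L k) (E.R.N k ^ (-(f E.L 0))) (E.R.N k ^ τ2) h5 (E.R.two_le k) h1.1 h2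
      (k2b_ptmp_mono h1.1 h1.2 (Real.rpow_le_rpow_of_exponent_le (hN1 k) hM0M)) (Real.one_le_rpow (hN1 k) hτ2.le)
      (Real.rpow_le_rpow_of_exponent_le (hN1 k) (min_le_left _ _)) ?_ ?_ ?_ h3.mass ?_⟩
    · exact Real.rpow_le_rpow_of_exponent_le (hN1 k) (by linarith)
    · exact Real.rpow_le_one_of_one_le_of_nonpos (hN1 k) (by linarith)
    · exact Real.rpow_le_rpow_of_exponent_le (hN1 k) (by have := le_abs_self (f E.L 0); linarith)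
    · have hfin : (E.P k).mass ((E.P k).below ((E.P k).hid (E.a E.L k)) (E.R.N k ^ (-(f E.L 0)) / E.R.N k ^ τ)) ≠ ⊤ :=
        ne_top_of_le_ne_top ENNReal.one_ne_top ((k2s_mass_le_tot _ _).trans (k2s_tot_le _ h1.1))
      rw [← ENNReal.ofReal_toReal hfin]
      apply ENNReal.ofReal_le_ofReal
      have e1 : E.R.N k ^ (-(f E.L 0)) / E.R.N k ^ τ = E.R.N k ^ (-(f E.L 0) - τ) := (Real.rpow_sub (hNpos k) _ _).symm
      rw [e1]
      refine le_trans h4 ?_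
      have e2 : E.R.N k ^ (-c) = (E.R.N k ^ (c / 2))⁻¹ * (E.R.N k ^ (c / 2))⁻¹ := by
        rw [← Real.rpow_neg (hNpos k).le, ← Real.rpow_add (hNpos k)]
        congr 1
        ring
      have h7 : E.R.N k ^ τ2 ≤ E.R.N k ^ (c / 2) := Real.rpow_le_rpow_of_exponent_le (hN1 k) (min_le_right _ _)
      have h8 : 0 < E.R.N k ^ τ2 := Real.rpow_pos_of_pos (hNpos k) _
      have h9 : 0 < E.R.N k ^ (c / 2) := Real.rpow_pos_of_pos (hNpos k) _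
      rw [e2, one_div, mul_inv]
      exact mul_le_mul (inv_anti₀ (by norm_num) h6) (inv_anti₀ h8 h7) (inv_nonneg.2 h9.le) (by norm_num)
  have hmono : ∀ k (ξ ξ' : ℝ), ξ ≤ ξ' → p k ξ → p k ξ' := by
    rintro k ξ ξ' hξ ⟨hP, Y, a1, a2, a3, a4, a5, a6, a7⟩
    have hle : E.R.N k ^ ξ ≤ E.R.N k ^ ξ' := Real.rpow_le_rpow_of_exponent_le (hN1 k) hξ
    exact ⟨hP, Y, a1, a2, k2s_geo_mono Y hP a3 hle (hapos k).le, k2s_big_mono Y a4 hle, k2s_tru_mono Y a5 hle, a6, a7⟩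
  have hp : ∀ ξ : ℝ, 0 < ξ → ∀ᶠ k in uf, p k ξ := by
    intro ξ hξ
    filter_upwards [hp1 (min ξ 1) (lt_min hξ one_pos) (min_le_right _ _)] with k hk
    exact hmono k _ _ (min_le_left _ _) hk
  obtain ⟨ξ, hξ0, hξt, -, hξp⟩ := kb_slow E.R p hp
  classical
  let Y : E.Sys := fun k => if h : p k (ξ k) then h.2.choose else k2bEmpty (E.P k)
  have hY : ∀ᶠ k in uf, (E.P k).WF ∧ (Y k).WF ∧ (Y k).Tmp (E.R.N k ^ M') ∧ (Y k).Geo (E.R.N k ^ ξ k) (E.a E.L k) ∧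
      (Y k).Big (E.R.N k ^ ξ k) ∧ (Y k).Tru (E.R.N k ^ ξ k) (E.R.N k ^ (-(f E.L 0))) ∧ E.a E.L k / 2 < (Y k).q ∧ (Y k).q ≤ E.a E.L k := by
    filter_upwards [hξp] with k hk
    have : Y k = hk.2.choose := dif_pos hk
    rw [this]
    exact ⟨hk.1, hk.2.choose_spec⟩
  refine ⟨Y, ⟨⟨M', ?_⟩, ?_, ?_⟩, ?_⟩
  · filter_upwards [hY] with k hk
    exact ⟨hk.2.1, hk.2.2.1⟩
  · intro τ hτ
    filter_upwards [hY, hξt.eventually (eventually_le_nhds hτ)] with k hk hk2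
    have hle : E.R.N k ^ ξ k ≤ E.R.N k ^ τ := Real.rpow_le_rpow_of_exponent_le (hN1 k) hk2
    exact ⟨k2s_geo_mono _ hk.1 hk.2.2.2.1 hle (hapos k).le, k2s_big_mono _ hk.2.2.2.2.1 hle⟩
  · intro τ hτ
    filter_upwards [hY, (kb_rpow_tendsto E.R hτ).eventually_ge_atTop 2] with k hk hk2
    obtain ⟨-, -, -, -, -, -, h6, h7⟩ := hk
    constructor
    · refine le_trans ?_ h6.le
      have : E.R.N k ^ (-E.L - τ) = E.a E.L k / E.R.N k ^ τ := Real.rpow_sub (hNpos k) _ _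
      rw [this]
      exact div_le_div_of_nonneg_left (hapos k).le (by norm_num) hk2
    · exact h7.trans (Real.rpow_le_rpow_of_exponent_le (hN1 k) (by linarith))
  · intro τ hτ
    filter_upwards [hY, hξt.eventually (eventually_le_nhds hτ)] with k hk hk2
    have hle : E.R.N k ^ ξ k ≤ E.R.N k ^ τ := Real.rpow_le_rpow_of_exponent_le (hN1 k) hk2
    exact k2s_tru_mono _ hk.2.2.2.2.2.1 hle

end

end Claimed.Agent.R252
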